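import Mathlib.Probability.Distributions.Gaussian.Real
import Mathlib.MeasureTheory.Integral.Layercake
import Mathlib.MeasureTheory.Integral.Pi
import Mathlib.MeasureTheory.Measure.Lebesgue.EqHaar
import Mathlib.Analysis.MeanInequalities

/-! The Prékopa–Leindler inequality, and Gaussian marginals of log-concave functions. -/

namespace Vale.Agent.P262.Exact

open MeasureTheory ProbabilityTheory Set
open scoped ENNReal Pointwise

lemma volume_affine_image (t c : ℝ) (ht : 0 ≤ t) (A : Set ℝ) :
    volume ((fun x => t * x + c) '' A) = ENNReal.ofReal t * volume A := by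
  have h : (fun x => t * x + c) '' A = (fun x => x + c) '' (t • A) := by
    rw [← image_smul, image_image]; rfl
  rw [h, image_add_right, measure_preimage_add_right, Measure.addHaar_smul]
  simp [abs_of_nonneg ht]

/-- One-dimensional Brunn–Minkowski. -/
lemma bm1d {A B C : Set ℝ} {t : ℝ} (ht0 : 0 < t) (ht1 : t < 1) (hA : MeasurableSet A)
    (hB : MeasurableSet B) (hA0 : A.Nonempty) (hB0 : B.Nonempty)
    (h : ∀ a ∈ A, ∀ b ∈ B, t * a + (1 - t) * b ∈ C) :
    ENNReal.ofReal t * volume A + ENNReal.ofReal (1 - t) * volume B ≤ volume C := by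
  obtain ⟨a₀, ha₀⟩ := hA0
  obtain ⟨b₀, hb₀⟩ := hB0
  have key : ∀ K L : Set ℝ, K ⊆ A → L ⊆ B → IsCompact K → IsCompact L →
      ENNReal.ofReal t * volume K + ENNReal.ofReal (1 - t) * volume L ≤ volume C := by
    intro K₀ L₀ hK hL hKc hLc
    have hK' : IsCompact (insert a₀ K₀) := hKc.insert a₀
    have hL' : IsCompact (insert b₀ L₀) := hLc.insert b₀
    have hKs : insert a₀ K₀ ⊆ A := insert_subset ha₀ hK
    have hLs : insert b₀ L₀ ⊆ B := insert_subset hb₀ hL
    obtain ⟨m, hm, hmle⟩ := hK'.exists_isGreatest (insert_nonempty _ _)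
    obtain ⟨l, hl, hlle⟩ := hL'.exists_isLeast (insert_nonempty _ _)
    set U := (fun x => t * x + (1 - t) * l) '' (insert a₀ K₀) with hU
    set V := (fun x => (1 - t) * x + t * m) '' (insert b₀ L₀) with hV
    have hUC : U ⊆ C := by
      rintro _ ⟨x, hx, rfl⟩; exact h x (hKs hx) l (hLs hl)
    have hVC : V ⊆ C := by
      rintro _ ⟨x, hx, rfl⟩
      have := h m (hKs hm) x (hLs hx)
      simpa [add_comm] using this
    have hI : U ∩ V ⊆ {t * m + (1 - t) * l} := by
      rintro _ ⟨⟨x, hx, rfl⟩, y, hy, hxy⟩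
      simp only at hxy
      have h1 : t * x ≤ t * m := mul_le_mul_of_nonneg_left (hmle hx) ht0.le
      have h2 : (1 - t) * l ≤ (1 - t) * y := mul_le_mul_of_nonneg_left (hlle hy) (by linarith)
      simp only [mem_singleton_iff]; linarith
    have hVm : MeasurableSet V := (hL'.image (by fun_prop)).measurableSet
    have hUV : volume (U ∪ V) + volume (U ∩ V) = volume U + volume V :=
      measure_union_add_inter U hVm
    have hz : volume (U ∩ V) = 0 := measure_mono_null hI (measure_singleton _)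
    rw [hz, add_zero, hU, hV, volume_affine_image _ _ ht0.le,
      volume_affine_image _ _ (by linarith : (0:ℝ) ≤ 1 - t)] at hUV
    calc _ ≤ ENNReal.ofReal t * volume (insert a₀ K₀) +
          ENNReal.ofReal (1 - t) * volume (insert b₀ L₀) := by
          gcongr <;> exact subset_insert _ _
      _ = volume (U ∪ V) := hUV.symm
      _ ≤ volume C := measure_mono (union_subset hUC hVC)
  rw [hA.measure_eq_iSup_isCompact, hB.measure_eq_iSup_isCompact]
  simp only [ENNReal.mul_iSup]
  refine ENNReal.biSup_add_biSup_le ⟨∅, empty_subset _⟩ ⟨∅, empty_subset _⟩ fun K hK L hL => ?_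
  rcases em (IsCompact K) with hKc | hKc <;> rcases em (IsCompact L) with hLc | hLc <;>
    simp only [hKc, hLc, iSup_pos, iSup_neg, not_false_eq_true, bot_eq_zero', zero_add, add_zero,
      zero_le]
  · exact key K L hK hL hKc hLc
  · exact le_trans (by simp) (key K ∅ hK (empty_subset _) hKc isCompact_empty)
  · exact le_trans (by simp) (key ∅ L (empty_subset _) hL isCompact_empty hLc)

/-- Log-concavity (for nonnegative functions). -/
def LogConc {E : Type*} [AddCommGroup E] [Module ℝ E] (F : E → ℝ) : Prop :=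
  ∀ x y : E, ∀ t : ℝ, 0 < t → t < 1 → F x ^ t * F y ^ (1 - t) ≤ F (t • x + (1 - t) • y)

/-- One-dimensional Prékopa–Leindler inequality. -/
lemma pl1d {f g h : ℝ → ℝ} {t : ℝ} (ht0 : 0 < t) (ht1 : t < 1) (hf : Measurable f)
    (hg : Measurable g) (hfi : Integrable f) (hgi : Integrable g) (hhi : Integrable h)
    (f0 : ∀ x, 0 ≤ f x) (g0 : ∀ x, 0 ≤ g x) (h0 : ∀ x, 0 ≤ h x)
    (fb : BddAbove (range f)) (gb : BddAbove (range g))
    (hyp : ∀ x y, f x ^ t * g y ^ (1 - t) ≤ h (t * x + (1 - t) * y)) :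
    (∫ x, f x) ^ t * (∫ x, g x) ^ (1 - t) ≤ ∫ x, h x := by
  have hh0 : (0:ℝ) ≤ ∫ x, h x := integral_nonneg h0
  have hs0 : 0 < 1 - t := by linarith
  set a := ⨆ x, f x
  set b := ⨆ x, g x
  have hfa : ∀ x, f x ≤ a := le_ciSup fb
  have hgb : ∀ x, g x ≤ b := le_ciSup gb
  rcases eq_or_lt_of_le ((f0 0).trans (hfa 0)) with ha | ha
  · have : f = 0 := funext fun x => le_antisymm ((hfa x).trans ha.ge) (f0 x)
    simp [this, Real.zero_rpow ht0.ne', hh0]
  rcases eq_or_lt_of_le ((g0 0).trans (hgb 0)) with hb | hb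
  · have : g = 0 := funext fun x => le_antisymm ((hgb x).trans hb.ge) (g0 x)
    simp [this, Real.zero_rpow hs0.ne', hh0]
  set c := a ^ t * b ^ (1 - t) with hc
  have hcpos : 0 < c := mul_pos (Real.rpow_pos_of_pos ha _) (Real.rpow_pos_of_pos hb _)
  have lc : ∀ {F : ℝ → ℝ}, Integrable F → (∀ x, 0 ≤ F x) → ∀ d : ℝ, 0 < d →
      ENNReal.ofReal ((∫ x, F x) / d) = ∫⁻ s in Ioi (0:ℝ), volume {x | s < F x / d} := by
    intro F hF hF0 d hd
    rw [← integral_div, ofReal_integral_eq_lintegral_ofReal (hF.div_const d)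
      (Filter.Eventually.of_forall fun x => div_nonneg (hF0 x) hd.le)]
    exact lintegral_eq_lintegral_meas_lt _
      (Filter.Eventually.of_forall fun x => div_nonneg (hF0 x) hd.le) (hF.div_const d).aemeasurable
  have lev : ∀ s ∈ Ioi (0:ℝ), ENNReal.ofReal t * volume {x | s < f x / a}
      + ENNReal.ofReal (1 - t) * volume {x | s < g x / b} ≤ volume {x | s < h x / c} := by
    intro s hs
    rcases lt_or_ge s 1 with hs1 | hs1
    · refine bm1d ht0 ht1 (measurableSet_lt measurable_const (hf.div_const a))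
        (measurableSet_lt measurable_const (hg.div_const b)) ?_ ?_ ?_
      · obtain ⟨x, hx⟩ := exists_lt_of_lt_ciSup (show s * a < a by nlinarith)
        exact ⟨x, by rw [mem_ofPred_eq, lt_div_iff₀ ha]; exact hx⟩
      · obtain ⟨x, hx⟩ := exists_lt_of_lt_ciSup (show s * b < b by nlinarith)
        exact ⟨x, by rw [mem_ofPred_eq, lt_div_iff₀ hb]; exact hx⟩
      · intro x hx y hy
        simp only [mem_ofPred_eq] at hx hy ⊢
        have e : s ^ t * s ^ (1 - t) = s := by
          rw [← Real.rpow_add hs, add_sub_cancel, Real.rpow_one]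
        calc s = s ^ t * s ^ (1 - t) := e.symm
          _ < (f x / a) ^ t * (g y / b) ^ (1 - t) := by
              apply mul_lt_mul_of_pos'
              · exact Real.rpow_lt_rpow (le_of_lt hs) hx ht0
              · exact Real.rpow_lt_rpow (le_of_lt hs) hy hs0
              · exact Real.rpow_pos_of_pos hs _
              · exact Real.rpow_pos_of_pos ((mem_Ioi.1 hs).trans hx) _
          _ = (f x ^ t * g y ^ (1 - t)) / c := by
              rw [Real.div_rpow (f0 x) ha.le, Real.div_rpow (g0 y) hb.le, div_mul_div_comm]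
          _ ≤ _ := by gcongr; exact hyp x y
    · have e1 : {x | s < f x / a} = ∅ := by
        ext x; simp only [mem_ofPred_eq, mem_empty_iff_false, iff_false, not_lt]
        exact ((div_le_one ha).2 (hfa x)).trans hs1
      have e2 : {x | s < g x / b} = ∅ := by
        ext x; simp only [mem_ofPred_eq, mem_empty_iff_false, iff_false, not_lt]
        exact ((div_le_one hb).2 (hgb x)).trans hs1
      simp [e1, e2]
  have hFa : 0 ≤ (∫ x, f x) / a := div_nonneg (integral_nonneg f0) ha.le
  have hGb : 0 ≤ (∫ x, g x) / b := div_nonneg (integral_nonneg g0) hb.le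
  have main : t * ((∫ x, f x) / a) + (1 - t) * ((∫ x, g x) / b) ≤ (∫ x, h x) / c := by
    rw [← ENNReal.ofReal_le_ofReal_iff (div_nonneg hh0 hcpos.le),
      ENNReal.ofReal_add (mul_nonneg ht0.le hFa) (mul_nonneg hs0.le hGb),
      ENNReal.ofReal_mul ht0.le, ENNReal.ofReal_mul hs0.le, lc hfi f0 a ha, lc hgi g0 b hb,
      lc hhi h0 c hcpos, ← lintegral_const_mul' _ _ ENNReal.ofReal_ne_top,
      ← lintegral_const_mul' _ _ ENNReal.ofReal_ne_top]
    refine le_trans (le_lintegral_add _ _) ?_
    exact setLIntegral_mono' measurableSet_Ioi lev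
  have amgm := Real.geom_mean_le_arith_mean2_weighted ht0.le hs0.le hFa hGb (by ring)
  have := amgm.trans main
  rw [Real.div_rpow (integral_nonneg f0) ha.le, Real.div_rpow (integral_nonneg g0) hb.le,
    div_mul_div_comm, div_le_div_iff_of_pos_right hcpos] at this
  exact this

lemma gaussianPDFReal_logConc : LogConc (gaussianPDFReal 0 1) := by
  intro x y t ht0 ht1
  simp only [gaussianPDFReal, NNReal.coe_one, mul_one, sub_zero, smul_eq_mul]
  set c : ℝ := (Real.sqrt (2 * Real.pi))⁻¹
  have hc : 0 < c := by positivity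
  rw [Real.mul_rpow hc.le (Real.exp_nonneg _), Real.mul_rpow hc.le (Real.exp_nonneg _),
    ← Real.exp_mul, ← Real.exp_mul]
  have e : c ^ t * c ^ (1 - t) = c := by rw [← Real.rpow_add hc, add_sub_cancel, Real.rpow_one]
  calc c ^ t * Real.exp (-x ^ 2 / 2 * t) * (c ^ (1 - t) * Real.exp (-y ^ 2 / 2 * (1 - t)))
      = c * Real.exp (-x ^ 2 / 2 * t + -y ^ 2 / 2 * (1 - t)) := by
        rw [Real.exp_add]; nth_rewrite 3 [← e]; ring
    _ ≤ _ := by
        gcongr
        nlinarith [mul_nonneg (mul_nonneg ht0.le (sub_nonneg.2 ht1.le)) (sq_nonneg (x - y))]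

lemma integrable_bdd_one {X : Type*} [MeasurableSpace X] {μ : Measure X} [IsFiniteMeasure μ]
    {f : X → ℝ} (hf : Measurable f) (h0 : ∀ x, 0 ≤ f x) (h1 : ∀ x, f x ≤ 1) : Integrable f μ :=
  Integrable.of_bound hf.aestronglyMeasurable 1
    (Filter.Eventually.of_forall fun x => by rw [Real.norm_eq_abs, abs_of_nonneg (h0 x)]; exact h1 x)

lemma integral_mem_Icc {X : Type*} [MeasurableSpace X] {μ : Measure X} [IsProbabilityMeasure μ]
    {f : X → ℝ} (hf : Measurable f) (h0 : ∀ x, 0 ≤ f x) (h1 : ∀ x, f x ≤ 1) :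
    0 ≤ ∫ x, f x ∂μ ∧ ∫ x, f x ∂μ ≤ 1 := by
  refine ⟨integral_nonneg h0, ?_⟩
  calc ∫ x, f x ∂μ ≤ ∫ _, (1:ℝ) ∂μ :=
        integral_mono (integrable_bdd_one hf h0 h1) (integrable_const _) h1
    _ = 1 := by simp

/-- Gaussian marginal in one variable. -/
lemma logConc_marg1 {E : Type*} [AddCommGroup E] [Module ℝ E] (F : E × ℝ → ℝ)
    (F0 : ∀ p, 0 ≤ F p) (F1 : ∀ p, F p ≤ 1) (Fm : ∀ x, Measurable fun s => F (x, s))
    (hF : LogConc F) : LogConc fun x => ∫ s, F (x, s) ∂gaussianReal 0 1 := by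
  intro x y t ht0 ht1
  simp only [integral_gaussianReal_eq_integral_smul (show (1 : NNReal) ≠ 0 by norm_num),
    smul_eq_mul]
  have hm : ∀ z, Measurable fun s => gaussianPDFReal 0 1 s * F (z, s) :=
    fun z => (measurable_gaussianPDFReal 0 1).mul (Fm z)
  have hi : ∀ z, Integrable fun s => gaussianPDFReal 0 1 s * F (z, s) := fun z =>
    (integrable_gaussianPDFReal 0 1).mono' (hm z).aestronglyMeasurable
      (Filter.Eventually.of_forall fun s => by
        rw [Real.norm_eq_abs, abs_of_nonneg (mul_nonneg (gaussianPDFReal_nonneg _ _ _) (F0 _))]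
        exact mul_le_of_le_one_right (gaussianPDFReal_nonneg _ _ _) (F1 _))
  have h0 : ∀ z s, 0 ≤ gaussianPDFReal 0 1 s * F (z, s) :=
    fun z s => mul_nonneg (gaussianPDFReal_nonneg _ _ _) (F0 _)
  have hb : ∀ z, BddAbove (range fun s => gaussianPDFReal 0 1 s * F (z, s)) := by
    intro z
    refine ⟨(Real.sqrt (2 * Real.pi))⁻¹, ?_⟩
    rintro _ ⟨s, rfl⟩
    calc gaussianPDFReal 0 1 s * F (z, s) ≤ gaussianPDFReal 0 1 s :=
          mul_le_of_le_one_right (gaussianPDFReal_nonneg _ _ _) (F1 _)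
      _ ≤ _ := by
          simp only [gaussianPDFReal, NNReal.coe_one, mul_one, sub_zero]
          refine mul_le_of_le_one_right (by positivity) (Real.exp_le_one_iff.2 ?_)
          nlinarith [sq_nonneg s]
  refine pl1d ht0 ht1 (hm x) (hm y) (hi x) (hi y) (hi _) (h0 x) (h0 y) (h0 _) (hb x) (hb y) ?_
  intro u v
  rw [Real.mul_rpow (gaussianPDFReal_nonneg _ _ _) (F0 _),
    Real.mul_rpow (gaussianPDFReal_nonneg _ _ _) (F0 _)]
  have e1 := gaussianPDFReal_logConc u v t ht0 ht1
  have e2 := hF (x, u) (y, v) t ht0 ht1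
  simp only [smul_eq_mul, Prod.smul_mk, Prod.mk_add_mk] at e1 e2
  calc _ = (gaussianPDFReal 0 1 u ^ t * gaussianPDFReal 0 1 v ^ (1 - t)) *
        (F (x, u) ^ t * F (y, v) ^ (1 - t)) := by ring
    _ ≤ _ := mul_le_mul e1 e2
        (mul_nonneg (Real.rpow_nonneg (F0 _) _) (Real.rpow_nonneg (F0 _) _))
        (gaussianPDFReal_nonneg _ _ _)

/-- Standard Gaussian product measure. -/
noncomputable abbrev gpi (n : ℕ) : Measure (Fin n → ℝ) := Measure.pi fun _ => gaussianReal 0 1

/-- Gaussian marginal in `n` variables. -/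
lemma logConc_margN : ∀ (n : ℕ) {E : Type} [AddCommGroup E] [Module ℝ E]
    (F : E × (Fin n → ℝ) → ℝ), (∀ p, 0 ≤ F p) → (∀ p, F p ≤ 1) →
    (∀ x, Measurable fun z => F (x, z)) → LogConc F →
    LogConc fun x => ∫ z, F (x, z) ∂gpi n
  | 0, E, _, _, F, _, _, _, hF => by
      intro x y t ht0 ht1
      simp only [gpi, Measure.pi_of_empty _ (0 : Fin 0 → ℝ), integral_dirac]
      have := hF (x, 0) (y, 0) t ht0 ht1
      simpa using this
  | n + 1, E, _, _, F, F0, F1, Fm, hF => by
      set F' : (E × ℝ) × (Fin n → ℝ) → ℝ := fun p => F (p.1.1, Fin.cons p.1.2 p.2) with hF'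
      have mcons : Measurable fun p : ℝ × (Fin n → ℝ) => (Fin.cons p.1 p.2 : Fin (n + 1) → ℝ) := by
        refine measurable_pi_iff.2 fun i => ?_
        refine Fin.cases ?_ (fun j => ?_) i
        · simpa using measurable_fst
        · simp only [Fin.cons_succ]; exact (measurable_pi_apply j).comp measurable_snd
      have hL : LogConc F' := by
        intro p q t ht0 ht1
        have := hF (p.1.1, Fin.cons p.1.2 p.2) (q.1.1, Fin.cons q.1.2 q.2) t ht0 ht1
        convert this using 2
        refine Prod.ext rfl (funext fun i => ?_)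
        refine Fin.cases ?_ (fun j => ?_) i <;> simp
      have Fm' : ∀ x, Measurable fun z => F' (x, z) :=
        fun x => (Fm x.1).comp (mcons.comp (measurable_prodMk_left (x := x.2)))
      have h2 := logConc_margN n F' (fun p => F0 _) (fun p => F1 _) Fm' hL
      have mJ : ∀ x, Measurable fun p : ℝ × (Fin n → ℝ) => F' ((x, p.1), p.2) :=
        fun x => (Fm x).comp mcons
      have mI : ∀ x, Measurable fun s => ∫ z, F' ((x, s), z) ∂gpi n :=
        fun x => ((mJ x).stronglyMeasurable.integral_prod_right').measurable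
      have h3 := logConc_marg1 (fun p : E × ℝ => ∫ z, F' (p, z) ∂gpi n)
        (fun p => (integral_mem_Icc (Fm' p) (fun z => F0 _) (fun z => F1 _)).1)
        (fun p => (integral_mem_Icc (Fm' p) (fun z => F0 _) (fun z => F1 _)).2) mI h2
      convert h3 using 1
      funext x
      rw [← integral_prod _ (integrable_bdd_one (mJ x) (fun p => F0 _) (fun p => F1 _))]
      rw [← (measurePreserving_piFinSuccAbove (fun _ : Fin (n+1) => gaussianReal 0 1) 0).integral_comp'
        (fun p : ℝ × (Fin n → ℝ) => F' ((x, p.1), p.2))]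
      refine integral_congr_ae (Filter.Eventually.of_forall fun z => ?_)
      simp [hF', MeasurableEquiv.piFinSuccAbove, Fin.consEquiv]

end Vale.Agent.P262.Exact
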