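import Mathlib.LinearAlgebra.FiniteDimensional.Lemmas
import Mathlib.Algebra.Order.Chebyshev
import Mathlib.Algebra.BigOperators.Field
import Mathlib.Data.Real.Basic
import Mathlib.Tactic.Linarith
import Mathlib.Tactic.FieldSimp
import Mathlib.Tactic.Ring
import Mathlib.Tactic.Positivity

/-! Exact absorption in a block of coordinates whose Gram matrix is nearly diagonal. -/

namespace Vale.Agent.P262.Exact

open Finset

set_option linter.unusedSectionVars false

variable {ι γ : Type} [Fintype ι] [Fintype γ] [DecidableEq γ]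

/-- A bias solving `∑ z_i v_i = c` exactly on `A`. -/
lemma absorb (v : ι → γ → ℝ) (hv : ∀ i, ∑ j, v i j ^ 2 ≤ 1) (X : Finset ι) (A : Finset γ)
    (W : ℝ) (hW : 0 < W) (D : γ → ℝ) (hD : ∀ j ∈ A, 1 ≤ D j)
    (hG : ∑ j ∈ A, ∑ k ∈ A,
      (∑ i ∈ X, v i j * v i k - if j = k then W * D j else 0) ^ 2 / (D j * D k) ≤ (W / 2) ^ 2)
    (c : γ → ℝ) :
    ∃ z : ι → ℝ, (∀ k ∈ A, ∑ i ∈ X, z i * v i k = c k) ∧
      ∑ i ∈ X, z i ^ 2 ≤ 2 * (∑ k ∈ A, c k ^ 2 / D k) / W ∧
      ∀ i, z i ^ 2 ≤ 4 * (∑ k ∈ A, c k ^ 2 / D k) / W ^ 2 := by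
  classical
  have D0 : ∀ j : A, 0 < D j := fun j => zero_lt_one.trans_le (hD j j.2)
  let E : A → A → ℝ := fun j k => ∑ i ∈ X, v i j * v i k - if (j : γ) = k then W * D j else 0
  let T : (A → ℝ) →ₗ[ℝ] (A → ℝ) :=
    { toFun := fun u k => ∑ j : A, (∑ i ∈ X, v i j * v i k) * u j
      map_add' := fun u u' => by ext k; simp [mul_add, sum_add_distrib]
      map_smul' := fun r u => by ext k; simp [mul_sum, mul_comm, mul_left_comm] }
  have hbil : ∀ u : A → ℝ, W / 2 * ∑ j : A, D j * u j ^ 2 ≤ ∑ k : A, u k * T u k := by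
    intro u
    set Q := ∑ j : A, D j * u j ^ 2 with hQ
    have Q0 : 0 ≤ Q := sum_nonneg fun j _ => mul_nonneg (D0 j).le (sq_nonneg _)
    have e : ∑ k : A, u k * T u k = W * Q + ∑ k : A, ∑ j : A, E j k * (u j * u k) := by
      have : W * Q = ∑ k : A, ∑ j : A, (if (j : γ) = k then W * D j else 0) * (u j * u k) := by
        rw [hQ, mul_sum]
        refine sum_congr rfl fun k _ => ?_
        rw [sum_eq_single k (fun j _ hjk => by rw [if_neg (fun h => hjk (Subtype.ext h)), zero_mul])
          (by simp), if_pos rfl]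
        ring
      rw [this, ← sum_add_distrib]
      refine sum_congr rfl fun k _ => ?_
      change u k * ∑ j : A, (∑ i ∈ X, v i j * v i k) * u j = _
      rw [mul_sum, ← sum_add_distrib]
      exact sum_congr rfl fun j _ => by simp only [E]; ring
    have hE : ∑ k : A, ∑ j : A, E j k ^ 2 / (D j * D k) ≤ (W / 2) ^ 2 := by
      refine le_trans (le_of_eq ?_) hG
      rw [sum_comm, ← sum_coe_sort A]
      exact sum_congr rfl fun j _ => sum_coe_sort A
        fun k => (∑ i ∈ X, v i j * v i k - if (j : γ) = k then W * D j else 0) ^ 2 / (D j * D k)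
    have hcs : (∑ k : A, ∑ j : A, E j k * (u j * u k)) ^ 2 ≤ (W / 2 * Q) ^ 2 := by
      rw [← Fintype.sum_prod_type']
      refine (sum_sq_le_sum_mul_sum_of_sq_le_mul univ
        (f := fun p : A × A => E p.2 p.1 ^ 2 / (D p.2 * D p.1))
        (g := fun p : A × A => (D p.2 * u p.2 ^ 2) * (D p.1 * u p.1 ^ 2))
        (fun p _ => div_nonneg (sq_nonneg _) (mul_nonneg (D0 _).le (D0 _).le))
        (fun p _ => by have := D0 p.1; have := D0 p.2; positivity) (fun p _ => ?_)).trans ?_
      · refine le_of_eq ?_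
        have := (D0 p.1).ne'
        have := (D0 p.2).ne'
        field_simp
      · rw [Fintype.sum_prod_type' (f := fun k j : A => E j k ^ 2 / (D j * D k)),
          Fintype.sum_prod_type' (f := fun k j : A => (D j * u j ^ 2) * (D k * u k ^ 2))]
        have e2 : ∑ k : A, ∑ j : A, (D j * u j ^ 2) * (D k * u k ^ 2) = Q ^ 2 := by
          rw [sq, hQ, sum_mul_sum, sum_comm]
        rw [e2, mul_pow]
        exact mul_le_mul_of_nonneg_right hE (sq_nonneg Q)
    have := abs_le_of_sq_le_sq hcs (by positivity)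
    rw [abs_le] at this
    rw [e]
    linarith
  have hinj : Function.Injective T := by
    refine (injective_iff_map_eq_zero T).2 fun u hu => ?_
    have h := hbil u
    simp only [hu, Pi.zero_apply, mul_zero, sum_const_zero] at h
    have h0 : ∑ j : A, D j * u j ^ 2 = 0 := le_antisymm (by nlinarith)
      (sum_nonneg fun j _ => mul_nonneg (D0 j).le (sq_nonneg _))
    ext j
    have := (sum_eq_zero_iff_of_nonneg fun j _ => mul_nonneg (D0 j).le (sq_nonneg (u j))).1 h0 j
      (mem_univ _)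
    simpa [(D0 j).ne'] using this
  obtain ⟨u, hu⟩ := LinearMap.injective_iff_surjective.1 hinj fun k : A => c k
  set S := ∑ k ∈ A, c k ^ 2 / D k with hS
  set Q := ∑ j : A, D j * u j ^ 2 with hQ
  have hSA : S = ∑ k : A, c k ^ 2 / D k := (sum_coe_sort A fun k => c k ^ 2 / D k).symm
  have hup : ∑ k : A, u k * c k ≤ W / 4 * Q + S / W := by
    rw [hQ, hSA, mul_sum, sum_div, ← sum_add_distrib]
    refine sum_le_sum fun k _ => ?_
    have e : W / 4 * (D k * u k ^ 2) + c k ^ 2 / D k / W - u k * c k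
        = (W * D k * u k - 2 * c k) ^ 2 / (4 * W * D k) := by
      have := (D0 k).ne'
      field_simp
      ring
    have : 0 ≤ (W * D k * u k - 2 * c k) ^ 2 / (4 * W * D k) := by have := D0 k; positivity
    linarith
  have hlow : W / 2 * Q ≤ ∑ k : A, u k * c k := by
    have := hbil u
    rwa [hu] at this
  have hQ4 : Q ≤ 4 * S / W ^ 2 := by
    rw [le_div_iff₀ (by positivity)]
    have h : W / 4 * Q ≤ S / W := by linarith
    rw [le_div_iff₀ hW] at h
    nlinarith
  refine ⟨fun i => ∑ j : A, v i j * u j, fun k hk => ?_, ?_, fun i => ?_⟩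
  · have := congrFun hu ⟨k, hk⟩
    refine Eq.trans ?_ this
    change _ = ∑ j : A, (∑ i ∈ X, v i j * v i k) * u j
    simp only [sum_mul]
    rw [sum_comm]
    exact sum_congr rfl fun j _ => sum_congr rfl fun i _ => by ring
  · have e : ∑ i ∈ X, (∑ j : A, v i j * u j) ^ 2 = ∑ k : A, u k * c k := by
      simp only [sq, sum_mul_sum]
      rw [sum_comm]
      refine sum_congr rfl fun k _ => ?_
      rw [← congrFun hu k]
      change _ = u k * ∑ j : A, (∑ i ∈ X, v i j * v i k) * u j
      rw [Finset.mul_sum, Finset.sum_comm]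
      refine Finset.sum_congr rfl fun (j : A) _ => ?_
      rw [Finset.sum_mul, Finset.mul_sum]
      exact Finset.sum_congr rfl fun i _ => by ring
    rw [e]
    have h2 : W / 4 * Q ≤ S / W := by linarith
    rw [mul_div_assoc]
    linarith
  · refine le_trans ?_ hQ4
    refine (sum_mul_sq_le_sq_mul_sq univ (fun j : A => v i j) u).trans ?_
    have h1 : ∑ j : A, v i j ^ 2 ≤ 1 := by
      refine (sum_coe_sort A fun j => v i j ^ 2).trans_le ?_
      exact (sum_le_univ_sum_of_nonneg fun j => sq_nonneg _).trans (hv i)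
    calc (∑ j : A, v i j ^ 2) * ∑ j : A, u j ^ 2 ≤ 1 * ∑ j : A, u j ^ 2 :=
          mul_le_mul_of_nonneg_right h1 (sum_nonneg fun j _ => sq_nonneg _)
      _ ≤ Q := by
        rw [one_mul]
        exact sum_le_sum fun j _ => le_mul_of_one_le_left (sq_nonneg _) (hD j j.2)

end Vale.Agent.P262.Exact
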