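import Vale.Agent.P262.Exact.BalancePL
import Mathlib.Analysis.Convex.Basic
import Mathlib.Topology.Algebra.Group.Pointwise
import Mathlib.Analysis.Complex.ExponentialBounds

/-! Banaszczyk's lemma in product coordinates: the last coordinate is the direction of the shift. -/

namespace Vale.Agent.P262.Exact

open MeasureTheory ProbabilityTheory Set
open scoped ENNReal Pointwise

/-- `slab K (c, w)`: points whose fibre coordinate is within `w` of the middle of a segment of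
half-length `c` inside the fibre of `K`. -/
def slab {n : ℕ} (K : Set ((Fin n → ℝ) × ℝ)) (p : ℝ × ℝ) : Set ((Fin n → ℝ) × ℝ) :=
  {z | ∃ m : ℝ, |z.2 - m| ≤ p.2 ∧ (z.1, m - p.1) ∈ K ∧ (z.1, m + p.1) ∈ K}

variable {n : ℕ} {K : Set ((Fin n → ℝ) × ℝ)}

lemma slab_eq (p : ℝ × ℝ) :
    slab K p = ((fun z : (Fin n → ℝ) × ℝ => (z.1, z.2 - p.1)) ⁻¹' K ∩
      (fun z : (Fin n → ℝ) × ℝ => (z.1, z.2 + p.1)) ⁻¹' K) +
      ({(0 : Fin n → ℝ)} ×ˢ Icc (-p.2) p.2) := by
  ext ⟨y, t⟩
  constructor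
  · rintro ⟨m, hm, h1, h2⟩
    refine ⟨(y, m), ⟨h1, h2⟩, (0, t - m), ⟨rfl, abs_le.1 hm⟩, by simp⟩
  · rintro ⟨⟨y', m⟩, ⟨h1, h2⟩, ⟨o, s⟩, ⟨ho, hs⟩, he⟩
    simp only [mem_singleton_iff] at ho
    subst ho
    simp only [Prod.mk_add_mk, add_zero, Prod.mk.injEq] at he
    obtain ⟨rfl, rfl⟩ := he
    exact ⟨m, by simpa using abs_le.2 hs, h1, h2⟩

lemma isClosed_slab (hK : IsClosed K) (p : ℝ × ℝ) : IsClosed (slab K p) := by
  rw [slab_eq]
  exact ((hK.preimage (by fun_prop)).inter (hK.preimage (by fun_prop))).add_right_of_isCompact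
    (isCompact_singleton.prod isCompact_Icc)

lemma slab_combine (hK : Convex ℝ K) {p q : ℝ × ℝ} {z z' : (Fin n → ℝ) × ℝ} {a b : ℝ}
    (ha : 0 ≤ a) (hb : 0 ≤ b) (hab : a + b = 1) (hz : z ∈ slab K p) (hz' : z' ∈ slab K q) :
    a • z + b • z' ∈ slab K (a • p + b • q) := by
  obtain ⟨m, hm, h1, h2⟩ := hz
  obtain ⟨k, hk, h3, h4⟩ := hz'
  refine ⟨a * m + b * k, ?_, ?_, ?_⟩
  · simp only [Prod.snd_add, Prod.smul_snd, smul_eq_mul]
    calc |a * z.2 + b * z'.2 - (a * m + b * k)| = |a * (z.2 - m) + b * (z'.2 - k)| := by ring_nf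
      _ ≤ |a * (z.2 - m)| + |b * (z'.2 - k)| := abs_add_le _ _
      _ ≤ _ := by
        rw [abs_mul, abs_mul, abs_of_nonneg ha, abs_of_nonneg hb]
        gcongr
  · convert hK h1 h3 ha hb hab using 1
    refine Prod.ext rfl ?_
    simp; ring
  · convert hK h2 h4 ha hb hab using 1
    refine Prod.ext rfl ?_
    simp; ring

lemma convex_slab (hK : Convex ℝ K) (p : ℝ × ℝ) : Convex ℝ (slab K p) := by
  intro z hz z' hz' a b ha hb hab
  have := slab_combine hK ha hb hab hz hz'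
  rwa [← add_smul, hab, one_smul] at this

lemma symm_slab (hs : ∀ z ∈ K, -z ∈ K) (p : ℝ × ℝ) : ∀ z ∈ slab K p, -z ∈ slab K p := by
  rintro z ⟨m, hm, h1, h2⟩
  refine ⟨-m, ?_, ?_, ?_⟩
  · simp only [Prod.snd_neg]
    rw [show -z.2 - -m = -(z.2 - m) by ring, abs_neg]; exact hm
  · convert hs _ h2 using 1; exact Prod.ext rfl (by simp; ring)
  · convert hs _ h1 using 1; exact Prod.ext rfl (by simp; ring)

lemma slab_zero_zero : slab K (0, 0) = K := by
  ext ⟨y, t⟩
  constructor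
  · rintro ⟨m, hm, h1, -⟩
    have : t = m := by simpa [sub_eq_zero] using hm
    simpa [this] using h1
  · intro h; exact ⟨t, by simp, by simpa using h, by simpa using h⟩

lemma seg_mem (hK : Convex ℝ K) {y : Fin n → ℝ} {p q s : ℝ} (hp : (y, p) ∈ K) (hq : (y, q) ∈ K)
    (h1 : p ≤ s) (h2 : s ≤ q) : (y, s) ∈ K := by
  have hc : Convex ℝ {t : ℝ | (y, t) ∈ K} := by
    intro a ha b hb u v hu hv huv
    have := hK ha hb hu hv huv
    simpa [← add_smul, huv] using this
  exact hc.ordConnected.out hp hq ⟨h1, h2⟩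

lemma slab_mono (hK : Convex ℝ K) {c c' w w' : ℝ} (hc : 0 ≤ c) (hcc : c ≤ c') (hww : w' ≤ w) :
    slab K (c', w') ⊆ slab K (c, w) := by
  rintro z ⟨m, hm, h1, h2⟩
  simp only at hm h1 h2
  exact ⟨m, hm.trans hww, seg_mem hK h1 h2 (by simp; linarith) (by simp; linarith),
    seg_mem hK h1 h2 (by simp; linarith) (by simp; linarith)⟩

lemma exists_center (hK : Convex ℝ K) {y : Fin n → ℝ} {p q r c : ℝ} (hc : 0 ≤ c)
    (hp : (y, p) ∈ K) (hq : (y, q) ∈ K) (hr : (y, r) ∈ K) (hpq : 2 * c ≤ q - p) :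
    ∃ m, |r - m| ≤ c ∧ (y, m - c) ∈ K ∧ (y, m + c) ∈ K := by
  rcases le_or_gt (r + 2 * c) q with h | h
  · exact ⟨r + c, by simp [abs_of_nonneg hc], by simpa using hr,
      seg_mem hK hr hq (by linarith) (by linarith)⟩
  · rcases le_or_gt r q with h' | h'
    · exact ⟨q - c, abs_le.2 ⟨by linarith, by linarith⟩,
        seg_mem hK hp hq (by linarith) (by linarith), by simpa using hq⟩
    · exact ⟨r - c, by simp [abs_of_nonneg hc],
        seg_mem hK hp hr (by linarith) (by linarith), by simpa using hr⟩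

/-- Gaussian measure on `ℝⁿ × ℝ`. -/
noncomputable abbrev nu (n : ℕ) : Measure ((Fin n → ℝ) × ℝ) := (gpi n).prod (gaussianReal 0 1)

lemma nu_real_logConc (hK : Convex ℝ K) (hc : IsClosed K) :
    LogConc fun p : ℝ × ℝ => (nu n).real (slab K p) := by
  classical
  set F1 : ((ℝ × ℝ) × (Fin n → ℝ)) × ℝ → ℝ :=
    fun q => (slab K q.1.1).indicator 1 (q.1.2, q.2) with hF1
  have F0 : ∀ q, 0 ≤ F1 q := fun q => indicator_nonneg (fun _ _ => zero_le_one) _
  have Fle : ∀ q, F1 q ≤ 1 := fun q => indicator_le_self' (fun _ _ => zero_le_one) _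
  have mall : ∀ p : ℝ × ℝ, Measurable fun z : (Fin n → ℝ) × ℝ => F1 ((p, z.1), z.2) :=
    fun p => measurable_one.indicator (isClosed_slab hc p).measurableSet
  have Fm : ∀ x, Measurable fun s => F1 (x, s) :=
    fun x => (mall x.1).comp (measurable_prodMk_left (x := x.2))
  have hL : LogConc F1 := by
    rintro ⟨⟨p, y⟩, s⟩ ⟨⟨p', y'⟩, s'⟩ t ht0 ht1
    by_cases h : (y, s) ∈ slab K p ∧ (y', s') ∈ slab K p'
    · have := slab_combine hK ht0.le (by linarith : (0:ℝ) ≤ 1 - t) (by ring) h.1 h.2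
      simp only [hF1, Prod.smul_mk, Prod.mk_add_mk, smul_eq_mul] at this ⊢
      simp [indicator_of_mem h.1, indicator_of_mem h.2, indicator_of_mem this]
    · refine le_trans (le_of_eq ?_) (F0 _)
      rcases not_and_or.1 h with h' | h' <;>
        simp [hF1, indicator_of_notMem h', Real.zero_rpow ht0.ne',
          Real.zero_rpow (by linarith : (1 - t : ℝ) ≠ 0)]
  have h2 := logConc_marg1 F1 F0 Fle Fm hL
  have h3 := logConc_margN n _ (fun q => (integral_mem_Icc (Fm q) (fun s => F0 _) (fun s => Fle _)).1)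
    (fun q => (integral_mem_Icc (Fm q) (fun s => F0 _) (fun s => Fle _)).2)
    (fun p => ((mall p).stronglyMeasurable.integral_prod_right').measurable) h2
  convert h3 using 1
  funext p
  rw [← integral_indicator_one (isClosed_slab hc p).measurableSet,
    ← integral_prod _ (integrable_bdd_one (mall p) (fun z => F0 _) (fun z => Fle _))]

lemma gauss_interval_le {S : Set ℝ} {l u : ℝ} (hS : S ⊆ Icc l u) (s0 : ℝ)
    {J : Set ℝ} (hJ : Ioo s0 (s0 + 1 / 2) ⊆ J)
    (hphi : ∀ s ∈ Ioo s0 (s0 + 1 / 2), ∀ x ∈ Icc l u, s ^ 2 ≤ x ^ 2 + 4) :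
    gaussianReal 0 1 S ≤ ENNReal.ofReal (16 * (u - l)) * gaussianReal 0 1 J := by
  have h1 : (1 : NNReal) ≠ 0 := one_ne_zero
  set k := fun x => gaussianPDF 0 1 x with hk
  have hmeas : Measurable k := measurable_gaussianPDF 0 1
  have hle : ∀ s ∈ Ioo s0 (s0 + 1 / 2), ∀ x ∈ Icc l u, k x ≤ 8 * k s := by
    intro s hs x hx
    simp only [hk, gaussianPDF]
    rw [show (8 : ℝ≥0∞) = ENNReal.ofReal 8 by simp, ← ENNReal.ofReal_mul (by norm_num)]
    refine ENNReal.ofReal_le_ofReal ?_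
    simp only [gaussianPDFReal, NNReal.coe_one, mul_one, sub_zero]
    rw [mul_left_comm]
    refine mul_le_mul_of_nonneg_left ?_ (by positivity)
    calc Real.exp (-x ^ 2 / 2) ≤ Real.exp (2 + -s ^ 2 / 2) := by
          refine Real.exp_le_exp.2 ?_
          linarith [hphi s hs x hx]
      _ = Real.exp 2 * Real.exp (-s ^ 2 / 2) := Real.exp_add _ _
      _ ≤ 8 * Real.exp (-s ^ 2 / 2) := by
          gcongr
          rw [show (2 : ℝ) = 1 + 1 by norm_num, Real.exp_add]
          nlinarith [Real.exp_one_lt_d9, Real.exp_pos 1]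
  rw [gaussianReal_apply _ h1, gaussianReal_apply _ h1]
  set M := ⨆ x ∈ Icc l u, k x
  have hMJ : M * ENNReal.ofReal (1 / 2) ≤ 8 * ∫⁻ s in J, k s := by
    calc M * ENNReal.ofReal (1 / 2) = ∫⁻ _ in Ioo s0 (s0 + 1 / 2), M := by simp
      _ ≤ ∫⁻ s in Ioo s0 (s0 + 1 / 2), 8 * k s :=
          setLIntegral_mono' measurableSet_Ioo fun s hs => iSup₂_le fun x hx => hle s hs x hx
      _ = 8 * ∫⁻ s in Ioo s0 (s0 + 1 / 2), k s := lintegral_const_mul _ hmeas
      _ ≤ _ := by gcongr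
  calc ∫⁻ x in S, k x ≤ ∫⁻ x in Icc l u, k x := lintegral_mono_set hS
    _ ≤ ∫⁻ _ in Icc l u, M :=
        setLIntegral_mono' measurableSet_Icc fun x hx => le_biSup k hx
    _ = ENNReal.ofReal (u - l) * 2 * (M * ENNReal.ofReal (1 / 2)) := by
        simp only [lintegral_const, Measure.restrict_apply_univ, Real.volume_Icc]
        rw [show ENNReal.ofReal (u - l) * 2 * (M * ENNReal.ofReal (1 / 2)) =
          M * ENNReal.ofReal (u - l) * (2 * ENNReal.ofReal (1 / 2)) by ring,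
          show (2 : ℝ≥0∞) = ENNReal.ofReal 2 by simp, ← ENNReal.ofReal_mul zero_le_two]
        norm_num
    _ ≤ ENNReal.ofReal (u - l) * 2 * (8 * ∫⁻ s in J, k s) := by gcongr
    _ = _ := by
        rw [ENNReal.ofReal_mul (by norm_num : (0:ℝ) ≤ 16),
          show ENNReal.ofReal 16 = 2 * 8 by norm_num]
        ring

/-- Fibrewise comparison of measures. -/
lemma nu_le_of_fibre {A B : Set ((Fin n → ℝ) × ℝ)} (hA : MeasurableSet A) (hB : MeasurableSet B)
    {c : ℝ} (hc : 0 ≤ c)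
    (h : ∀ y, gaussianReal 0 1 (Prod.mk y ⁻¹' A) ≤
      ENNReal.ofReal c * gaussianReal 0 1 (Prod.mk y ⁻¹' B)) :
    (nu n).real A ≤ c * (nu n).real B := by
  have : nu n A ≤ ENNReal.ofReal c * nu n B := by
    rw [Measure.prod_apply hA, Measure.prod_apply hB, ← lintegral_const_mul' _ _ ENNReal.ofReal_ne_top]
    exact lintegral_mono h
  have h2 := ENNReal.toReal_mono (ENNReal.mul_ne_top ENNReal.ofReal_ne_top (measure_ne_top _ _)) this
  rwa [ENNReal.toReal_mul, ENNReal.toReal_ofReal hc] at h2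

/-- Short fibres carry little mass compared to their unit neighbourhood. -/
lemma short_fibres (hK : Convex ℝ K) (hc : IsClosed K) :
    (nu n).real (K \ slab K (1, 1)) ≤ 64 * (nu n).real (slab K (0, 1) \ K) := by
  refine nu_le_of_fibre (hc.measurableSet.diff (isClosed_slab hc _).measurableSet)
    ((isClosed_slab hc _).measurableSet.diff hc.measurableSet) (by norm_num) fun y => ?_
  rcases eq_empty_or_nonempty (Prod.mk y ⁻¹' (K \ slab K (1, 1))) with he | ⟨r, hr⟩
  · simp [he]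
  obtain ⟨hrK, hr'⟩ := hr
  set I := {t : ℝ | (y, t) ∈ K} with hI
  have hlt : ∀ p ∈ I, ∀ q ∈ I, q - p < 2 := by
    intro p hp q hq
    by_contra h
    obtain ⟨m, hm, h1, h2⟩ := exists_center hK zero_le_one hp hq hrK (by linarith)
    exact hr' ⟨m, hm, h1, h2⟩
  have hcl : IsClosed I := hc.preimage (Continuous.prodMk_right y)
  have hbdd : BddBelow I := ⟨r - 2, fun p hp => by linarith [hlt p hp r hrK]⟩
  have hbdu : BddAbove I := ⟨r + 2, fun p hp => by linarith [hlt r hrK p hp]⟩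
  have hne : I.Nonempty := ⟨r, hrK⟩
  set a := sInf I
  set b := sSup I
  have haI : a ∈ I := hcl.csInf_mem hne hbdd
  have hbI : b ∈ I := hcl.csSup_mem hne hbdu
  have haK : (y, a) ∈ K := haI
  have hbK : (y, b) ∈ K := hbI
  have hab : b - a < 2 := hlt a haI b hbI
  have hab' : a ≤ b := (csInf_le hbdd hrK).trans (le_csSup hbdu hrK)
  have hsub : Prod.mk y ⁻¹' (K \ slab K (1, 1)) ⊆ Icc a b :=
    fun t ht => ⟨csInf_le hbdd ht.1, le_csSup hbdu ht.1⟩
  have fin : ∀ s0 : ℝ, (Ioo s0 (s0 + 1 / 2) ⊆ Prod.mk y ⁻¹' (slab K (0, 1) \ K)) →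
      (∀ s ∈ Ioo s0 (s0 + 1 / 2), ∀ x ∈ Icc a b, s ^ 2 ≤ x ^ 2 + 4) →
      gaussianReal 0 1 (Prod.mk y ⁻¹' (K \ slab K (1, 1))) ≤
        ENNReal.ofReal 64 * gaussianReal 0 1 (Prod.mk y ⁻¹' (slab K (0, 1) \ K)) := by
    intro s0 h1 h2
    refine (gauss_interval_le hsub s0 h1 h2).trans ?_
    gcongr
    linarith
  rcases le_or_gt (-1) a with ha | ha
  · refine fin (a - 1 / 2) (fun s hs => ⟨⟨a, ?_, by simpa using haK, by simpa using haK⟩, ?_⟩) ?_
    · simp only
      rw [abs_le]; constructor <;> linarith [hs.1, hs.2]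
    · intro hsK
      linarith [csInf_le hbdd (show s ∈ I from hsK), hs.2]
    · intro s hs x hx
      rcases le_or_gt 0 s with h0 | h0
      · nlinarith [hs.1, hs.2, hx.1]
      · nlinarith [hs.1, hs.2, sq_nonneg x]
  · refine fin b (fun s hs => ⟨⟨b, ?_, by simpa using hbK, by simpa using hbK⟩, ?_⟩) ?_
    · simp only
      rw [abs_le]; constructor <;> linarith [hs.1, hs.2]
    · intro hsK
      linarith [le_csSup hbdu (show s ∈ I from hsK), hs.1]
    · intro s hs x hx
      rcases le_or_gt s 0 with h0 | h0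
      · nlinarith [hs.1, hs.2, hx.2]
      · nlinarith [hs.1, hs.2, sq_nonneg x]

/-- Very short fibres. -/
lemma thin_fibres (hK : Convex ℝ K) (hc : IsClosed K) {e : ℝ} (he : 0 < e) (he' : e ≤ 1 / 8) :
    (nu n).real (slab K (0, e) \ slab K (e, 2 * e)) ≤
      (96 * e) * (nu n).real (slab K (0, 1) \ slab K (e, 1)) := by
  refine nu_le_of_fibre ((isClosed_slab hc _).measurableSet.diff (isClosed_slab hc _).measurableSet)
    ((isClosed_slab hc _).measurableSet.diff (isClosed_slab hc _).measurableSet) (by linarith)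
    fun y => ?_
  rcases eq_empty_or_nonempty (Prod.mk y ⁻¹' (slab K (0, e) \ slab K (e, 2 * e))) with h0 | ⟨x, hx⟩
  · simp [h0]
  obtain ⟨⟨r, hr1, hr2, -⟩, hx'⟩ := hx
  simp only at hr1 hr2
  rw [sub_zero] at hr2
  have hlt : ∀ p q, (y, p) ∈ K → (y, q) ∈ K → q - p < 2 * e := by
    intro p q hp hq
    by_contra h
    obtain ⟨m, hm, h1, h2⟩ := exists_center hK he.le hp hq hr2 (by linarith)
    refine hx' ⟨m, ?_, h1, h2⟩
    calc |x - m| ≤ |x - r| + |r - m| := abs_sub_le _ _ _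
      _ ≤ 2 * e := by linarith
  have hnot : ∀ s, (y, s) ∉ slab K (e, 1) := by
    rintro s ⟨m, -, h1, h2⟩
    linarith [hlt _ _ h1 h2]
  have hsub : Prod.mk y ⁻¹' (slab K (0, e) \ slab K (e, 2 * e)) ⊆ Icc (r - 3 * e) (r + 3 * e) := by
    rintro t ⟨⟨p, hp1, hp2, -⟩, -⟩
    simp only at hp1 hp2
    rw [sub_zero] at hp2
    obtain ⟨hA, hB⟩ := abs_le.1 hp1
    constructor <;> linarith [hlt p r hp2 hr2, hlt r p hr2 hp2]
  set s0 : ℝ := if 0 ≤ r then r - 1 + 1/8 else r + 3/8 with hs0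
  refine (gauss_interval_le hsub s0
    (J := Prod.mk y ⁻¹' (slab K (0, 1) \ slab K (e, 1))) (fun s hs => ⟨⟨r, ?_, by simpa using hr2,
    by simpa using hr2⟩, hnot s⟩) ?_).trans (le_of_eq ?_)
  · simp only
    rw [abs_le]
    constructor <;> split_ifs at hs0 <;> linarith [hs.1, hs.2]
  · intro s hs t ht
    obtain ⟨hs1, hs2⟩ := hs
    obtain ⟨ht1, ht2⟩ := ht
    split_ifs at hs0 with hr
    · rcases le_or_gt 0 s with h0 | h0 <;> nlinarith
    · rcases le_or_gt s 0 with h0 | h0 <;> nlinarith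
  · congr 2; ring

/-- Banaszczyk's lemma in product coordinates. -/
theorem core_lemma (hK : Convex ℝ K) (hc : IsClosed K) (hmass : 1 - 1 / 256 ≤ (nu n).real K)
    {e : ℝ} (he : 0 < e) (he' : e ≤ 1 / 50000) :
    (nu n).real K ≤ (nu n).real (slab K (e, 2 * e)) := by
  set G := fun p : ℝ × ℝ => (nu n).real (slab K p) with hG
  have hlc := nu_real_logConc hK hc
  have hm : ∀ p, MeasurableSet (slab K p) := fun p => (isClosed_slab hc p).measurableSet
  have G00 : G (0, 0) = (nu n).real K := by simp only [hG, slab_zero_zero]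
  have hK1 : K ⊆ slab K (0, 1) := by
    intro z hz; exact ⟨z.2, by simp, by simpa using hz, by simpa using hz⟩
  have hR : ∀ c, 0 ≤ c → slab K (c, 1) ⊆ slab K (0, 1) :=
    fun c hc' => slab_mono hK le_rfl hc' le_rfl
  have split : ∀ A B : Set ((Fin n → ℝ) × ℝ), MeasurableSet B →
      (nu n).real A ≤ (nu n).real B + (nu n).real (A \ B) := by
    intro A B hB
    calc (nu n).real A ≤ (nu n).real (B ∪ A \ B) := measureReal_mono (by simp)
      _ ≤ _ := measureReal_union_le _ _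
  have sdiff : ∀ A B : Set ((Fin n → ℝ) × ℝ), MeasurableSet B → B ⊆ A →
      (nu n).real (A \ B) = (nu n).real A - (nu n).real B :=
    fun A B hB hBA => measureReal_sdiff hBA hB
  set H0 := (nu n).real K with hH0
  set H1 := G (0, 1) with hH1
  set R2 := G (1, 1) with hR2
  set D := H1 - H0 with hD
  have hH1le : H1 ≤ 1 := measureReal_le_one
  have hD0 : 0 ≤ D := sub_nonneg.2 (measureReal_mono hK1)
  have hDle : D ≤ 1 / 256 := by linarith
  have a1 : H0 - R2 ≤ 64 * D := by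
    have := short_fibres hK hc
    rw [sdiff _ _ hc.measurableSet hK1] at this
    have h' := split K (slab K (1, 1)) (hm _)
    simp only [hH0, hR2, hD, hH1, hG] at *
    linarith
  have a2 : H1 - R2 ≤ 65 * D := by linarith
  have hR2pos : 1 / 2 ≤ R2 := by linarith
  have hR2le : R2 ≤ H1 := measureReal_mono (hR 1 zero_le_one)
  have lcs : ∀ p q : ℝ × ℝ, ∀ a b : ℝ, G p = a → G q = b → 0 < a → 0 < b →
      ∀ s : ℝ, 0 < s → s < 1 →
      a * (1 + s * (1 - a / b)) ≤ G (s • q + (1 - s) • p) := by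
    intro p q a b hp hq ha hb s hs hs1
    refine le_trans ?_ (hlc q p s hs hs1)
    have hp' : (nu n).real (slab K p) = a := hp
    have hq' : (nu n).real (slab K q) = b := hq
    simp only [hp', hq']
    have e1 : b ^ s * a ^ (1 - s) = a * Real.exp (s * (Real.log b - Real.log a)) := by
      rw [Real.rpow_def_of_pos hb, Real.rpow_def_of_pos ha, ← Real.exp_add]
      nth_rewrite 2 [← Real.exp_log ha]
      rw [← Real.exp_add]; ring_nf
    rw [e1]
    gcongr
    have h1 := Real.add_one_le_exp (s * (Real.log b - Real.log a))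
    have h2 := Real.one_sub_inv_le_log_of_pos (div_pos hb ha)
    rw [Real.log_div hb.ne' ha.ne', inv_div] at h2
    nlinarith
  -- gain from thickening
  have b1 : H0 + e * D / 2 ≤ G (0, e) := by
    have hH1pos : 0 < H1 := by linarith
    have h := lcs (0, 0) (0, 1) H0 H1 G00 rfl (by linarith) hH1pos e he (by linarith)
    have e1 : e • ((0, 1) : ℝ × ℝ) + (1 - e) • (0, 0) = (0, e) := by simp
    rw [e1] at h
    refine le_trans ?_ h
    have h4 : D ≤ 1 - H0 / H1 := by
      rw [le_sub_iff_add_le, ← le_sub_iff_add_le', div_le_iff₀ hH1pos]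
      nlinarith
    have h5 : e * D ≤ e * (1 - H0 / H1) := mul_le_mul_of_nonneg_left h4 he.le
    have h6 : (0:ℝ) ≤ e * D := mul_nonneg he.le hD0
    nlinarith [mul_le_mul_of_nonneg_left h5 (show (0:ℝ) ≤ H0 by linarith),
      mul_le_mul_of_nonneg_right (show (1/2 : ℝ) ≤ H0 by linarith) h6]
  -- very short fibres
  have b2 : H1 - G (e, 1) ≤ 2 * e * (65 * D) := by
    have hH1pos : 0 < H1 := by linarith
    have h := lcs (0, 1) (1, 1) H1 R2 rfl rfl hH1pos (by linarith) e he (by linarith)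
    have e1 : e • ((1, 1) : ℝ × ℝ) + (1 - e) • (0, 1) = (e, 1) := by simp
    rw [e1] at h
    have h5 : H1 * (H1 / R2 - 1) ≤ 2 * (H1 - R2) := by
      rw [div_sub_one (by linarith : R2 ≠ 0), mul_div_assoc', div_le_iff₀ (by linarith)]
      nlinarith
    nlinarith
  have b3 := thin_fibres hK hc he (by linarith)
  rw [sdiff _ _ (hm _) (hR e he.le)] at b3
  have b4 := split (slab K (0, e)) (slab K (e, 2 * e)) (hm _)
  simp only [hH1, hG] at b1 b2 b3 b4
  nlinarith [mul_nonneg (mul_nonneg he.le he.le) hD0]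

end Vale.Agent.P262.Exact
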