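import Mathlib.Probability.Distributions.Gaussian.Multivariate
import Mathlib.Analysis.Convex.Basic

/-! Definitions for Gaussian balancing: symmetric convex bodies and Gaussian failure mass. -/

namespace Vale.Agent.P262.Exact

open MeasureTheory ProbabilityTheory

/-- A closed, convex, symmetric set. -/
structure Body {E : Type*} [NormedAddCommGroup E] [InnerProductSpace ℝ E] (Q : Set E) : Prop where
  closed : IsClosed Q
  convex : Convex ℝ Q
  symm : ∀ y ∈ Q, -y ∈ Q

/-- Gaussian mass outside a set. -/
noncomputable def gfail {α : Type*} [Fintype α] (Q : Set (EuclideanSpace ℝ α)) : ℝ :=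
  (stdGaussian (EuclideanSpace ℝ α) Qᶜ).toReal

end Vale.Agent.P262.Exact
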