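import Vale.Agent.P262.Exact.BalanceShift
import Mathlib.Order.Filter.Finite

/-! Rounding and ordered partitioning inside Gaussian-heavy symmetric convex bodies. -/

namespace Vale.Agent.P262.Exact

open Finset MeasureTheory ProbabilityTheory Filter Topology
open scoped Pointwise

section

variable {α ι : Type*} [Fintype α] [Fintype ι]

lemma Body.zero_mem {Q : Set (EuclideanSpace ℝ α)} (hQ : Body Q) (h : gfail Q < 1) :
    (0 : EuclideanSpace ℝ α) ∈ Q := by
  rcases Set.eq_empty_or_nonempty Q with he | ⟨y, hy⟩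
  · simp [gfail, he] at h
  · have := hQ.convex hy (hQ.symm y hy) (show (0:ℝ) ≤ 1/2 by norm_num)
      (show (0:ℝ) ≤ 1/2 by norm_num) (by norm_num)
    simpa using this

lemma body_iInter {σ : Type*} (Q : σ → Set (EuclideanSpace ℝ α)) (h : ∀ s, Body (Q s)) :
    Body (⋂ s, Q s) :=
  ⟨isClosed_iInter fun s => (h s).closed, convex_iInter fun s => (h s).convex,
    fun y hy => Set.mem_iInter.2 fun s => (h s).symm y (Set.mem_iInter.1 hy s)⟩

lemma gfail_iInter {σ : Type*} [Fintype σ] (Q : σ → Set (EuclideanSpace ℝ α)) :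
    gfail (⋂ s, Q s) ≤ ∑ s, gfail (Q s) := by
  simp only [gfail, Set.compl_iInter]
  rw [← ENNReal.toReal_sum (fun s _ => measure_ne_top _ _)]
  exact ENNReal.toReal_mono (ENNReal.sum_ne_top.2 fun s _ => measure_ne_top _ _)
    (measure_iUnion_fintype_le _ _)

lemma body_inter {A B : Set (EuclideanSpace ℝ α)} (hA : Body A) (hB : Body B) : Body (A ∩ B) :=
  ⟨hA.closed.inter hB.closed, hA.convex.inter hB.convex,
    fun y hy => ⟨hA.symm y hy.1, hB.symm y hy.2⟩⟩

lemma gfail_inter (A B : Set (EuclideanSpace ℝ α)) : gfail (A ∩ B) ≤ gfail A + gfail B := by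
  simp only [gfail, Set.compl_inter]
  rw [← ENNReal.toReal_add (measure_ne_top _ _) (measure_ne_top _ _)]
  exact ENNReal.toReal_mono (by finiteness) (measure_union_le _ _)

omit [Fintype ι] in
/-- Signs carrying a safe set into `V` over the items of `P`. -/
lemma segment_body (w : ι → EuclideanSpace ℝ α) (hw : ∀ i, ‖w i‖ ≤ 1 / 50000) (P : Finset ι)
    {V : Set (EuclideanSpace ℝ α)} (hV : Body V) (hm : gfail V ≤ 1 / 256) :
    ∃ V' : Set (EuclideanSpace ℝ α), Body V' ∧ gfail V' ≤ gfail V ∧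
      ∀ x ∈ V', ∃ ε : ι → ℝ, (∀ i, ε i = 1 ∨ ε i = -1) ∧ x + ∑ i ∈ P, ε i • w i ∈ V := by
  classical
  induction P using Finset.induction generalizing V with
  | empty => exact ⟨V, hV, le_rfl, fun x hx => ⟨fun _ => 1, fun _ => Or.inl rfl, by simpa using hx⟩⟩
  | @insert j P hj ih =>
    obtain ⟨V1, hV1, hm1, h1⟩ := ih hV hm
    obtain ⟨V2, hV2, hm2, h2⟩ := shift_body hV1 (w j) (hw j) (hm1.trans hm)
    refine ⟨V2, hV2, hm2.trans hm1, fun x hx => ?_⟩
    have key : ∀ c : ℝ, (c = 1 ∨ c = -1) → x + c • w j ∈ V1 →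
        ∃ ε : ι → ℝ, (∀ i, ε i = 1 ∨ ε i = -1) ∧ x + ∑ i ∈ insert j P, ε i • w i ∈ V := by
      intro c hc hmem
      obtain ⟨ε, he, hs⟩ := h1 _ hmem
      refine ⟨Function.update ε j c, fun i => ?_, ?_⟩
      · rcases eq_or_ne i j with rfl | hij
        · simpa using hc
        · simpa [Function.update_of_ne hij] using he i
      · have : ∀ i ∈ P, Function.update ε j c i • w i = ε i • w i := fun i hi => by
          rw [Function.update_of_ne (fun h : i = j => hj (h ▸ hi))]
        rw [Finset.sum_insert hj, Finset.sum_congr rfl this, Function.update_self, ← add_assoc]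
        exact hs
    rcases h2 x hx with h | h
    · exact key 1 (Or.inl rfl) (by simpa using h)
    · exact key (-1) (Or.inr rfl) (by simpa [sub_eq_add_neg] using h)

/-- Dyadic rounding. -/
lemma round_dyadic (w : ι → EuclideanSpace ℝ α) (hw : ∀ i, ‖w i‖ ≤ 1 / 50000)
    {K : Set (EuclideanSpace ℝ α)} (hK : Body K) (hm : gfail K ≤ 1 / 256) :
    ∀ (m : ℕ) (n : ι → ℤ), (∀ i, 0 ≤ n i ∧ n i ≤ 2 ^ m) →
      ∃ P : Finset ι, ∃ k ∈ K,
        ∑ i ∈ P, w i - ∑ i, ((n i : ℝ) / 2 ^ m) • w i = (1 - 1 / 2 ^ m : ℝ) • k := by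
  classical
  have h0 : (0 : EuclideanSpace ℝ α) ∈ K := hK.zero_mem (lt_of_le_of_lt hm (by norm_num))
  intro m
  induction m with
  | zero =>
    intro n hn
    refine ⟨univ.filter fun i => n i = 1, 0, h0, ?_⟩
    rw [Finset.sum_filter]
    simp only [pow_zero, div_one, sub_self, zero_smul, ← Finset.sum_sub_distrib]
    refine Finset.sum_eq_zero fun i _ => ?_
    have h2 := hn i
    simp only [pow_zero] at h2
    rcases (show n i = 0 ∨ n i = 1 by omega) with h | h <;> simp [h]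
  | succ m ih =>
    intro n hn
    obtain ⟨V, hV, hVm, hsign⟩ := segment_body w hw (univ.filter fun i => Odd (n i)) hK hm
    obtain ⟨ε, he, hs⟩ := hsign 0 (hV.zero_mem (lt_of_le_of_lt (hVm.trans hm) (by norm_num)))
    rw [zero_add] at hs
    set z : ι → ℤ := fun i => if Odd (n i) then (if ε i = 1 then (n i + 1) / 2 else (n i - 1) / 2)
      else n i / 2 with hz
    have hz2 : ∀ i, (2 * (z i) : ℝ) = n i + (if Odd (n i) then ε i else 0) := by
      intro i
      simp only [hz]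
      by_cases ho : Odd (n i)
      · rw [if_pos ho, if_pos ho]
        obtain ⟨r, hr⟩ := ho
        rcases he i with h | h
        · rw [if_pos h, h, show (n i + 1) / 2 = r + 1 by omega, hr]
          push_cast; ring
        · rw [if_neg (by rw [h]; norm_num), h, show (n i - 1) / 2 = r by omega, hr]
          push_cast; ring
      · obtain ⟨r, hr⟩ := Int.not_odd_iff_even.1 ho
        rw [if_neg ho, if_neg ho, show n i / 2 = r by omega, hr]
        push_cast; ring
    have hzr : ∀ i, 0 ≤ z i ∧ z i ≤ 2 ^ m := by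
      intro i
      have h1 := (hn i).1; have h2 := (hn i).2
      rw [pow_succ] at h2
      simp only [hz]
      split_ifs with ho hc
      · obtain ⟨r, hr⟩ := ho; constructor <;> omega
      · obtain ⟨r, hr⟩ := ho; constructor <;> omega
      · constructor <;> omega
    obtain ⟨P, k, hk, hP⟩ := ih z hzr
    have hp : (0:ℝ) < 2 ^ m := pow_pos two_pos m
    have hone : (1 : ℝ) / 2 ^ m ≤ 1 := by
      rw [div_le_one hp]; exact one_le_pow₀ one_le_two
    have hmem : ((1 - 1 / 2 ^ m : ℝ) • k + ((1:ℝ) / 2 ^ (m + 1)) •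
        ∑ i ∈ univ.filter (fun i => Odd (n i)), ε i • w i) ∈
        (1 - 1 / 2 ^ m + 1 / 2 ^ (m + 1) : ℝ) • K := by
      rw [hK.convex.add_smul (by linarith) (by positivity)]
      exact Set.add_mem_add (Set.smul_mem_smul_set hk) (Set.smul_mem_smul_set hs)
    obtain ⟨k', hk', hk''⟩ := hmem
    refine ⟨P, k', hk', ?_⟩
    have e1 : (1 - 1 / 2 ^ m + 1 / 2 ^ (m + 1) : ℝ) = 1 - 1 / 2 ^ (m + 1) := by
      rw [pow_succ]; field_simp; ring
    have e2 : ∑ i ∈ univ.filter (fun i => Odd (n i)), ε i • w i =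
        ∑ i, (if Odd (n i) then ε i else 0) • w i := by
      rw [Finset.sum_filter]
      exact Finset.sum_congr rfl fun i _ => by split_ifs <;> simp
    simp only at hk''
    rw [e1] at hk''
    rw [hk'', ← hP, e2, Finset.smul_sum, sub_add, ← Finset.sum_sub_distrib]
    congr 1
    refine Finset.sum_congr rfl fun i _ => ?_
    rw [smul_smul, ← sub_smul]
    congr 1
    have := hz2 i
    rw [pow_succ]
    field_simp
    linarith

/-- Rounding inside one body. -/
lemma round_body (w : ι → EuclideanSpace ℝ α) (hw : ∀ i, ‖w i‖ ≤ 1 / 50000)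
    {K : Set (EuclideanSpace ℝ α)} (hK : Body K) (hm : gfail K ≤ 1 / 256) (x : ι → ℝ)
    (hx : ∀ i, 0 ≤ x i ∧ x i ≤ 1) :
    ∃ P : Finset ι, ∑ i ∈ P, w i - ∑ i, x i • w i ∈ K := by
  classical
  have h0 : (0 : EuclideanSpace ℝ α) ∈ K := hK.zero_mem (lt_of_le_of_lt hm (by norm_num))
  set n : ℕ → ι → ℤ := fun m i => ⌊x i * 2 ^ m⌋ with hn
  have hnr : ∀ m i, 0 ≤ n m i ∧ n m i ≤ 2 ^ m := by
    intro m i
    refine ⟨Int.floor_nonneg.2 (mul_nonneg (hx i).1 (by positivity)), ?_⟩
    have h1 : x i * 2 ^ m ≤ 2 ^ m := mul_le_of_le_one_left (by positivity) (hx i).2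
    have h2 : (n m i : ℝ) ≤ 2 ^ m := (Int.floor_le _).trans h1
    exact_mod_cast h2
  have hex : ∀ m, ∃ P : Finset ι, ∑ i ∈ P, w i - ∑ i, ((n m i : ℝ) / 2 ^ m) • w i ∈ K := by
    intro m
    obtain ⟨P, k, hk, h⟩ := round_dyadic w hw hK hm m (n m) (hnr m)
    refine ⟨P, h ▸ (hK.convex.smul_mem_of_zero_mem h0 hk ⟨?_, ?_⟩)⟩
    · have : (1:ℝ) / 2 ^ m ≤ 1 := by
        rw [div_le_one (pow_pos two_pos m)]; exact one_le_pow₀ one_le_two
      linarith
    · linarith [show (0:ℝ) ≤ 1 / 2 ^ m by positivity]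
  have hf : ∃ P : Finset ι, ∃ᶠ m in atTop,
      ∑ i ∈ P, w i - ∑ i, ((n m i : ℝ) / 2 ^ m) • w i ∈ K :=
    frequently_exists.1 (Frequently.of_forall hex)
  obtain ⟨P, hP⟩ := hf
  refine ⟨P, hK.closed.mem_of_frequently_of_tendsto hP (tendsto_const_nhds.sub ?_)⟩
  refine tendsto_finsetSum _ fun i _ => Tendsto.smul_const ?_ (w i)
  have hlim : Tendsto (fun m : ℕ => x i - (1 / 2 : ℝ) ^ m) atTop (𝓝 (x i)) := by
    simpa using (tendsto_pow_atTop_nhds_zero_of_lt_one (by norm_num : (0:ℝ) ≤ 1/2)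
      (by norm_num)).const_sub (x i)
  refine tendsto_of_tendsto_of_tendsto_of_le_of_le hlim tendsto_const_nhds (fun m => ?_) (fun m => ?_)
  · simp only [div_pow, one_pow, hn]
    rw [le_div_iff₀ (pow_pos two_pos m), sub_mul, one_div_mul_cancel (pow_pos two_pos m).ne']
    exact (Int.sub_one_lt_floor _).le
  · simp only [hn]
    rw [div_le_iff₀ (pow_pos two_pos m)]
    exact Int.floor_le _

/-- Signs, relative to a labelling `f`, with all label-prefix sums in `Q`. -/
lemma signing (w : ι → EuclideanSpace ℝ α) (hw : ∀ i, ‖w i‖ ≤ 1 / 50000)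
    {Q : Set (EuclideanSpace ℝ α)} (hQ : Body Q) (f : ι → ℕ) (M : ℕ)
    (hm : (M + 1 : ℝ) * gfail Q ≤ 1 / 256) :
    ∃ ε : ι → ℝ, (∀ i, ε i = 1 ∨ ε i = -1) ∧
      ∀ k ≤ M, ∑ i with f i < k, ε i • w i ∈ Q := by
  classical
  have hq : 0 ≤ gfail Q := gfail_nonneg Q
  have main : ∀ j ≤ M, ∃ V, Body V ∧ gfail V ≤ (j + 1 : ℝ) * gfail Q ∧
      ∀ x ∈ V, ∃ ε : ι → ℝ, (∀ i, ε i = 1 ∨ ε i = -1) ∧ ∀ k, M - j ≤ k → k ≤ M →
        x + ∑ i with M - j ≤ f i ∧ f i < k, ε i • w i ∈ Q := by
    intro j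
    induction j with
    | zero =>
      refine fun _ => ⟨Q, hQ, by simp, fun x hx => ⟨fun _ => 1, fun _ => Or.inl rfl,
        fun k hk1 hk2 => ?_⟩⟩
      obtain rfl : k = M := le_antisymm hk2 (by simpa using hk1)
      rw [filter_false_of_mem (fun i _ => by omega), sum_empty, add_zero]
      exact hx
    | succ j ih =>
      intro hj
      obtain ⟨V, hV, hVm, hVs⟩ := ih (by omega)
      have hj' : (j + 1 : ℝ) ≤ M := by exact_mod_cast hj
      obtain ⟨V', hV', hV'm, hV's⟩ := segment_body w hw (univ.filter fun i => f i = M - (j + 1)) hV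
        (hVm.trans (le_trans (mul_le_mul_of_nonneg_right (by linarith) hq) hm))
      refine ⟨Q ∩ V', body_inter hQ hV', ?_, fun x hx => ?_⟩
      · refine (gfail_inter _ _).trans ?_
        push_cast
        nlinarith
      obtain ⟨ε₁, he₁, hs₁⟩ := hV's x hx.2
      obtain ⟨ε₂, he₂, hs₂⟩ := hVs _ hs₁
      refine ⟨fun i => if f i = M - (j + 1) then ε₁ i else ε₂ i,
        fun i => by dsimp only; split_ifs <;> [exact he₁ i; exact he₂ i], fun k hk1 hk2 => ?_⟩
      rcases hk1.eq_or_lt with rfl | hlt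
      · rw [filter_false_of_mem (fun i _ => by omega), sum_empty, add_zero]
        exact hx.1
      · have h := hs₂ k (by omega) hk2
        have hsplit : (univ.filter fun i => M - (j + 1) ≤ f i ∧ f i < k) =
            (univ.filter fun i => f i = M - (j + 1)) ∪
            (univ.filter fun i => M - j ≤ f i ∧ f i < k) := by
          ext i; simp only [mem_union, mem_filter, mem_univ, true_and]; omega
        have hdis : Disjoint (univ.filter fun i => f i = M - (j + 1))
            (univ.filter fun i => M - j ≤ f i ∧ f i < k) := by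
          rw [disjoint_filter]; intro i _ h1 h2; omega
        rw [hsplit, sum_union hdis, ← add_assoc]
        convert h using 2
        · congr 1
          exact sum_congr rfl fun i hi => by simp [(mem_filter.1 hi).2]
        · refine sum_congr rfl fun i hi => ?_
          have h3 := (mem_filter.1 hi).2
          simp only [show ¬ f i = M - (j + 1) by omega, if_false]
  obtain ⟨V, hV, hVm, hVs⟩ := main M le_rfl
  obtain ⟨ε, he, hs⟩ := hVs 0 (hV.zero_mem (lt_of_le_of_lt (hVm.trans hm) (by norm_num)))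
  exact ⟨ε, he, fun k hk => by simpa using hs k (by omega) hk⟩

/-- Ordered partition inside one body. -/
lemma partition_body (w : ι → EuclideanSpace ℝ α) (hw : ∀ i, ‖w i‖ ≤ 1 / 50000)
    {Q : Set (EuclideanSpace ℝ α)} (hQ : Body Q) (M : ℕ) (hM : 0 < M) (hev : Even M)
    (hm : (M + 1 : ℝ) * gfail Q ≤ 1 / 256) :
    ∃ f : ι → Fin M, ∀ k : ℕ, k ≤ M →
      ∑ i with (f i : ℕ) < k, w i - ((k : ℝ) / M) • ∑ i, w i ∈ (2 : ℝ) • Q := by
  classical
  obtain ⟨h, rfl⟩ := hev
  have hMr : ((h + h : ℕ) : ℝ) ≠ 0 := by exact_mod_cast hM.ne'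
  have hq : gfail Q < 1 := by
    have h1 : (1:ℝ) * gfail Q ≤ ((h + h : ℕ) + 1 : ℝ) * gfail Q :=
      mul_le_mul_of_nonneg_right (by simp) (gfail_nonneg Q)
    linarith
  set T := ∑ i, w i with hT
  set D : (ι → Fin (h + h)) → ℕ → EuclideanSpace ℝ α :=
    fun f k => ∑ i with (f i : ℕ) < k, w i - ((k : ℝ) / (h + h : ℕ)) • T with hD
  have hzero : (0 : EuclideanSpace ℝ α) ∈ (2:ℝ) • Q := ⟨0, hQ.zero_mem hq, smul_zero _⟩
  set f₀ : ι → Fin (h + h) := fun _ => ⟨0, hM⟩
  set B := ∑ k ∈ range (h + h + 1), ‖D f₀ k‖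
  have step : ∀ n : ℕ, ∃ f : ι → Fin (h + h), ∀ k ≤ h + h,
      ∃ q ∈ (2:ℝ) • Q, ‖D f k - q‖ ≤ B / 2 ^ n := by
    intro n
    induction n with
    | zero =>
      refine ⟨f₀, fun k hk => ⟨0, hzero, ?_⟩⟩
      rw [sub_zero, pow_zero, div_one]
      exact single_le_sum (f := fun k => ‖D f₀ k‖) (fun _ _ => norm_nonneg _)
        (mem_range.2 (by omega))
    | succ n ih =>
      obtain ⟨f, hf⟩ := ih
      obtain ⟨ε, he, hs⟩ := signing w hw hQ (fun i => (f i : ℕ)) (h + h) hm
      set g : ι → Fin (h + h) := fun i => if ε i = 1 then ⟨(f i : ℕ) / 2, by omega⟩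
        else ⟨h + h - 1 - (f i : ℕ) / 2, by omega⟩ with hg
      refine ⟨g, fun k hk => ?_⟩
      have mix : ∀ (r : ℕ) (σ : ℝ), r ≤ h + h → (σ = 1 ∨ σ = -1) →
          D g k = σ • ((1/2 : ℝ) • (D f r + σ • ∑ i with (f i : ℕ) < r, ε i • w i)) →
          ∃ q ∈ (2:ℝ) • Q, ‖D g k - q‖ ≤ B / 2 ^ (n + 1) := by
        intro r σ hr hσ heq
        obtain ⟨q, ⟨q', hq', rfl⟩, hqn⟩ := hf r hr
        set s := ∑ i with (f i : ℕ) < r, ε i • w i
        have hσs : σ • s ∈ Q := by
          rcases hσ with rfl | rfl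
          · simpa using hs r hr
          · simpa using hQ.symm _ (hs r hr)
        have hmid : (1/2 : ℝ) • q' + (1/2 : ℝ) • ((1/2:ℝ) • (σ • s) + (1/2:ℝ) • 0) ∈ Q :=
          hQ.convex hq' (hQ.convex hσs (hQ.zero_mem hq) (by norm_num) (by norm_num) (by norm_num))
            (by norm_num) (by norm_num) (by norm_num)
        set c := (1/2 : ℝ) • q' + (1/2 : ℝ) • ((1/2:ℝ) • (σ • s) + (1/2:ℝ) • 0)
        refine ⟨(2:ℝ) • (σ • c), Set.smul_mem_smul_set ?_, ?_⟩
        · rcases hσ with rfl | rfl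
          · simpa using hmid
          · simpa using hQ.symm _ hmid
        · have : D g k - (2:ℝ) • (σ • c) = σ • ((1/2 : ℝ) • (D f r - (2:ℝ) • q')) := by
            rw [heq]; simp only [c]; module
          rw [this, norm_smul, norm_smul]
          have h1 : ‖σ‖ = 1 := by rcases hσ with rfl | rfl <;> simp
          rw [h1, one_mul, Real.norm_eq_abs, abs_of_pos (by norm_num : (0:ℝ) < 1/2),
            show B / 2 ^ (n + 1) = (1/2) * (B / 2 ^ n) by rw [pow_succ]; ring]
          gcongr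
      have hεw : ∀ i, ε i • w i = (if ε i = 1 then w i else -w i) := by
        intro i
        rcases he i with h1 | h1 <;> rw [h1] <;> norm_num
      rcases le_total k h with hkh | hkh
      · refine mix (2 * k) 1 (by omega) (Or.inl rfl) ?_
        have e1 : (2:ℝ) • ∑ i with (g i : ℕ) < k, w i =
            ∑ i with (f i : ℕ) < 2 * k, w i + ∑ i with (f i : ℕ) < 2 * k, ε i • w i := by
          rw [Finset.smul_sum, ← sum_add_distrib, sum_filter, sum_filter]
          refine sum_congr rfl fun i _ => ?_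
          have hfi := (f i).isLt
          by_cases h1 : ε i = 1
          · have : ((g i : ℕ) < k) ↔ (f i : ℕ) < 2 * k := by
              simp only [hg, h1, if_true]; omega
            simp only [this, h1, one_smul]
            split_ifs <;> simp [two_smul]
          · have : ¬ ((g i : ℕ) < k) := by simp only [hg, h1, if_false]; omega
            rw [if_neg this, hεw, if_neg h1]
            split_ifs <;> simp
        simp only [hD, one_smul, Nat.cast_mul, Nat.cast_ofNat]
        linear_combination (norm := (match_scalars <;> ring)) (1/2 : ℝ) • e1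
      · refine mix (2 * (h + h - k)) (-1) (by omega) (Or.inr rfl) ?_
        have e1 : (2:ℝ) • (T - ∑ i with (g i : ℕ) < k, w i) =
            ∑ i with (f i : ℕ) < 2 * (h + h - k), w i -
              ∑ i with (f i : ℕ) < 2 * (h + h - k), ε i • w i := by
          rw [hT, sum_filter, ← sum_sub_distrib, Finset.smul_sum, ← sum_sub_distrib, sum_filter]
          refine sum_congr rfl fun i _ => ?_
          have hfi := (f i).isLt
          by_cases h1 : ε i = 1
          · have : (g i : ℕ) < k := by simp only [hg, h1, if_true]; omega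
            rw [if_pos this, hεw, if_pos h1]
            split_ifs <;> simp
          · have : ((g i : ℕ) < k) ↔ ¬ (f i : ℕ) < 2 * (h + h - k) := by
              simp only [hg, h1, if_false]; omega
            rw [hεw, if_neg h1]
            by_cases h2 : (f i : ℕ) < 2 * (h + h - k)
            · rw [if_neg (this.not.2 (not_not.2 h2)), if_pos h2]; simp [two_smul]
            · rw [if_pos (this.2 h2), if_neg h2]; simp
        simp only [hD, Nat.cast_mul, Nat.cast_ofNat, Nat.cast_sub hk]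
        have hh : (h : ℝ) ≠ 0 := Nat.cast_ne_zero.2 (by omega)
        push_cast
        linear_combination (norm := (match_scalars <;> field_simp <;> ring)) -((1/2 : ℝ) • e1)
  obtain ⟨f, hf⟩ : ∃ f : ι → Fin (h + h), ∃ᶠ n : ℕ in atTop, ∀ k ≤ h + h,
      ∃ q ∈ (2:ℝ) • Q, ‖D f k - q‖ ≤ B / 2 ^ n :=
    frequently_exists.1 (Frequently.of_forall step)
  refine ⟨f, fun k hk => ?_⟩
  have hcl : IsClosed ((2:ℝ) • Q) := hQ.closed.smul_of_ne_zero two_ne_zero
  show D f k ∈ (2:ℝ) • Q
  rw [← hcl.closure_eq, Metric.mem_closure_iff]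
  intro e he
  have hlim : Tendsto (fun n : ℕ => B / 2 ^ n) atTop (𝓝 0) :=
    tendsto_const_nhds.div_atTop (tendsto_pow_atTop_atTop_of_one_lt one_lt_two)
  obtain ⟨n, hn, hne⟩ := (hf.and_eventually (hlim.eventually (gt_mem_nhds he))).exists
  obtain ⟨q, hq1, hq2⟩ := hn k hk
  exact ⟨q, hq1, by rw [dist_eq_norm]; exact lt_of_le_of_lt hq2 hne⟩

end

/-- Fractional rounding inside finitely many bodies. -/
theorem balance_round : ∃ δ c : ℝ, 0 < δ ∧ 0 < c ∧
    ∀ (α ι σ : Type) [Fintype α] [Fintype ι] [Fintype σ] (w : ι → EuclideanSpace ℝ α)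
      (Q : σ → Set (EuclideanSpace ℝ α)) (x : ι → ℝ),
      (∀ i, ‖w i‖ ≤ δ) → (∀ s, Body (Q s)) → (∀ i, 0 ≤ x i ∧ x i ≤ 1) →
      ∑ s, gfail (Q s) ≤ c →
      ∃ P : Finset ι, ∀ s, ∑ i ∈ P, w i - ∑ i, x i • w i ∈ Q s := by
  refine ⟨1 / 50000, 1 / 256, by norm_num, by norm_num, ?_⟩
  intro α ι σ _ _ _ w Q x hw hQ hx hc
  obtain ⟨P, hP⟩ := round_body w hw (body_iInter Q hQ) ((gfail_iInter Q).trans hc) x hx
  exact ⟨P, fun s => Set.mem_iInter.1 hP s⟩

/-- Ordered partition into `M` parts, every prefix deviation inside every body. -/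
theorem balance_partition : ∃ δ c : ℝ, 0 < δ ∧ 0 < c ∧
    ∀ (α ι σ : Type) [Fintype α] [Fintype ι] [Fintype σ] (w : ι → EuclideanSpace ℝ α)
      (Q : σ → Set (EuclideanSpace ℝ α)) (M : ℕ),
      (∀ i, ‖w i‖ ≤ δ) → (∀ s, Body (Q s)) →
      0 < M → Even M →
      (M : ℝ) * ∑ s, gfail (Q s) ≤ c →
      ∃ f : ι → Fin M, ∀ s, ∀ k : ℕ, k ≤ M →
        ∑ i with (f i : ℕ) < k, w i - ((k : ℝ) / M) • ∑ i, w i ∈ (2 : ℝ) • Q s := by
  refine ⟨1 / 50000, 1 / 512, by norm_num, by norm_num, ?_⟩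
  intro α ι σ _ _ _ w Q M hw hQ hM hev hc
  have h1 : (1:ℝ) ≤ M := by exact_mod_cast hM
  have h2 := gfail_iInter Q
  have h3 := gfail_nonneg (⋂ s, Q s)
  obtain ⟨f, hf⟩ := partition_body w hw (body_iInter Q hQ) M hM hev (by nlinarith)
  exact ⟨f, fun s k hk => Set.smul_set_mono (Set.iInter_subset _ s) (hf k hk)⟩

end Vale.Agent.P262.Exact
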