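import Vale.Agent.P262.Exact.BalanceDefs
import Vale.Agent.P262.Exact.BalanceCore
import Mathlib.Analysis.InnerProductSpace.PiL2

/-! Banaszczyk's shift lemma in Euclidean space. -/

namespace Vale.Agent.P262.Exact

open MeasureTheory ProbabilityTheory Set Module

variable {α : Type*} [Fintype α]

lemma gfail_nonneg (Q : Set (EuclideanSpace ℝ α)) : 0 ≤ gfail Q := ENNReal.toReal_nonneg

lemma gfail_eq {Q : Set (EuclideanSpace ℝ α)} (hQ : MeasurableSet Q) :
    gfail Q = 1 - (stdGaussian (EuclideanSpace ℝ α)).real Q :=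
  probReal_compl_eq_one_sub hQ

/-- Banaszczyk's lemma: a symmetric convex body of Gaussian mass close to one can be replaced by
one of no smaller mass inside `(K - u) ∪ (K + u)`, for every short vector `u`. -/
theorem shift_body {K : Set (EuclideanSpace ℝ α)} (hK : Body K) (u : EuclideanSpace ℝ α)
    (hu : ‖u‖ ≤ 1 / 50000) (hmass : gfail K ≤ 1 / 256) :
    ∃ K' : Set (EuclideanSpace ℝ α), Body K' ∧ gfail K' ≤ gfail K ∧
      ∀ x ∈ K', x + u ∈ K ∨ x - u ∈ K := by
  classical
  rcases eq_or_ne u 0 with rfl | hu0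
  · exact ⟨K, hK, le_rfl, fun x hx => Or.inl (by simpa using hx)⟩
  set e := ‖u‖ with he
  have epos : 0 < e := norm_pos_iff.2 hu0
  obtain ⟨n, hn⟩ : ∃ n, finrank ℝ (EuclideanSpace ℝ α) = n + 1 := by
    have : 0 < finrank ℝ (EuclideanSpace ℝ α) := finrank_pos_iff_exists_ne_zero.2 ⟨u, hu0⟩
    exact ⟨_, (Nat.succ_pred_eq_of_pos this).symm⟩
  obtain ⟨b, hb⟩ : ∃ b : OrthonormalBasis (Fin (n + 1)) ℝ (EuclideanSpace ℝ α),
      b (Fin.last n) = e⁻¹ • u := by
    have ho : Orthonormal ℝ (({Fin.last n} : Set (Fin (n + 1))).domRestrict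
        (fun _ => e⁻¹ • u)) := by
      constructor
      · intro i
        show ‖e⁻¹ • u‖ = 1
        rw [norm_smul, norm_inv, Real.norm_eq_abs, abs_of_pos epos, ← he, inv_mul_cancel₀ epos.ne']
      · intro i j hij
        exact absurd (Subsingleton.elim i j) hij
    obtain ⟨b, hb⟩ := ho.exists_orthonormalBasis_extension_of_card_eq (by simp [hn])
    exact ⟨b, hb _ rfl⟩
  set Φ : EuclideanSpace ℝ α → (Fin n → ℝ) × ℝ :=
    fun x => (fun i => b.repr x i.castSucc, b.repr x (Fin.last n)) with hΦ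
  set Ψ : (Fin n → ℝ) × ℝ → EuclideanSpace ℝ α :=
    fun z => ∑ i : Fin n, z.1 i • b i.castSucc + z.2 • b (Fin.last n) with hΨ
  have hΨΦ : ∀ x, Ψ (Φ x) = x := by
    intro x
    simp only [hΨ, hΦ, ← Fin.sum_univ_castSucc (fun i => b.repr x i • b i)]
    exact b.sum_repr x
  have hΦc : Continuous Φ := by fun_prop
  have hΨc : Continuous Ψ := by fun_prop
  have hadd : ∀ (x y : (Fin n → ℝ) × ℝ) (a c : ℝ), Ψ (a • x + c • y) = a • Ψ x + c • Ψ y := by
    intro x y a c
    simp only [hΨ, Prod.fst_add, Prod.smul_fst, Prod.snd_add, Prod.smul_snd, Pi.add_apply,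
      Pi.smul_apply, smul_eq_mul, add_smul, mul_smul, Finset.sum_add_distrib, smul_add,
      Finset.smul_sum]
    abel
  have hΨneg : ∀ x, Ψ (-x) = -Ψ x := by intro x; simpa using hadd x 0 (-1) 0
  have hΦadd : ∀ (x y : EuclideanSpace ℝ α) (a c : ℝ), Φ (a • x + c • y) = a • Φ x + c • Φ y := by
    intro x y a c; refine Prod.ext (funext fun i => ?_) ?_ <;> simp [hΦ]
  set L := Ψ ⁻¹' K with hL
  have hLc : IsClosed L := hK.closed.preimage hΨc
  have hLv : Convex ℝ L := by
    intro x hx y hy a c ha hc hac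
    simp only [hL, mem_preimage, hadd] at *
    exact hK.convex hx hy ha hc hac
  have hmeas : MeasurePreserving Φ (stdGaussian (EuclideanSpace ℝ α)) (nu n) := by
    refine ⟨hΦc.measurable, ?_⟩
    rw [stdGaussian_eq_map_pi_orthonormalBasis b, Measure.map_map hΦc.measurable (by fun_prop)]
    have h1 := (measurePreserving_piFinSuccAbove (fun _ : Fin (n + 1) => gaussianReal 0 1)
      (Fin.last n))
    have h2 := (Measure.measurePreserving_swap (μ := gaussianReal 0 1) (ν := gpi n)).comp h1
    refine Eq.trans ?_ h2.map_eq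
    congr 1
    funext x
    have hr : ∀ j, b.repr (∑ i, x i • b i) j = x j := by
      intro j
      simp [map_sum, b.repr_self, WithLp.ofLp_sum, Pi.single_apply]
    simp only [Function.comp_apply, hΦ, hr]
    refine Prod.ext (funext fun i => ?_) ?_ <;>
      simp [MeasurableEquiv.piFinSuccAbove, Fin.insertNthEquiv, Fin.init]
  have hKeq : Φ ⁻¹' L = K := by ext x; simp [hL, hΨΦ]
  have hLmass : 1 - 1 / 256 ≤ (nu n).real L := by
    rw [gfail_eq hK.closed.measurableSet] at hmass
    rw [← hKeq, measureReal_def, hmeas.measure_preimage hLc.measurableSet.nullMeasurableSet,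
      ← measureReal_def] at hmass
    linarith
  have main := core_lemma hLv hLc hLmass epos hu
  have hsc := isClosed_slab hLc (e, 2 * e)
  refine ⟨Φ ⁻¹' slab L (e, 2 * e), ⟨hsc.preimage hΦc, ?_, ?_⟩, ?_, ?_⟩
  · intro x hx y hy a c ha hc hac
    simp only [mem_preimage, hΦadd] at *
    exact convex_slab hLv _ hx hy ha hc hac
  · intro x hx
    have : Φ (-x) = -Φ x := by simpa using hΦadd x 0 (-1) 0
    rw [mem_preimage, this]
    refine symm_slab (fun z hz => ?_) _ _ hx
    simp only [hL, mem_preimage, hΨneg] at *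
    exact hK.symm _ hz
  · rw [gfail_eq (hsc.preimage hΦc).measurableSet, gfail_eq hK.closed.measurableSet]
    rw [measureReal_def, hmeas.measure_preimage hsc.measurableSet.nullMeasurableSet, ← measureReal_def]
    conv_rhs => rw [← hKeq, measureReal_def,
      hmeas.measure_preimage hLc.measurableSet.nullMeasurableSet, ← measureReal_def]
    linarith
  · intro x hx
    obtain ⟨m, hm, h1, h2⟩ := hx
    simp only at hm h1 h2
    obtain ⟨hm1, hm2⟩ := abs_le.1 hm
    have hsh : ∀ s : ℝ, Ψ ((Φ x).1, (Φ x).2 + s * e) = x + s • u := by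
      intro s
      have : ((Φ x).1, (Φ x).2 + s * e) = (1:ℝ) • Φ x + (s * e) • ((0 : Fin n → ℝ), (1:ℝ)) := by
        ext <;> simp
      rw [this, hadd, hΨΦ]
      simp [hΨ, hb, smul_smul, mul_assoc, mul_inv_cancel₀ epos.ne']
    rcases le_or_gt m (Φ x).2 with h | h
    · refine Or.inr ?_
      have hmem := seg_mem hLv h1 h2 (s := (Φ x).2 + (-1) * e) (by linarith) (by linarith)
      rw [hL, mem_preimage, hsh, neg_one_smul, ← sub_eq_add_neg] at hmem
      exact hmem
    · refine Or.inl ?_
      have hmem := seg_mem hLv h1 h2 (s := (Φ x).2 + 1 * e) (by linarith) (by linarith)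
      rw [hL, mem_preimage, hsh, one_smul] at hmem
      exact hmem

end Vale.Agent.P262.Exact
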