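import Vale.Agent.P262.Exact.BalanceDefs
import Mathlib.MeasureTheory.Integral.Pi
import Mathlib.Analysis.SpecialFunctions.Gaussian.GaussianIntegral

/-! A tail bound for diagonal Gaussian quadratic forms. -/

namespace Vale.Agent.P262.Exact

open Finset MeasureTheory ProbabilityTheory

lemma integral_exp_sq_gaussian {v : ℝ} (hv0 : 0 ≤ v) (hv : v ≤ 1 / 4) :
    Integrable (fun x => Real.exp (v * x ^ 2)) (gaussianReal 0 1) ∧
      ∫ x, Real.exp (v * x ^ 2) ∂gaussianReal 0 1 ≤ Real.exp (2 * v) := by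
  have h1 : (1 : NNReal) ≠ 0 := one_ne_zero
  have hq : (0:ℝ) < 1 - 2 * v := by linarith
  have e : ∀ x : ℝ, gaussianPDFReal 0 1 x * Real.exp (v * x ^ 2) =
      (Real.sqrt (2 * Real.pi))⁻¹ * Real.exp (-((1 - 2 * v) / 2) * x ^ 2) := by
    intro x
    simp only [gaussianPDFReal, NNReal.coe_one, mul_one, sub_zero]
    rw [mul_assoc, ← Real.exp_add]
    congr 2; ring
  constructor
  · rw [gaussianReal_of_var_ne_zero _ h1, integrable_withDensity_iff_integrable_smul₀'
      (measurable_gaussianPDF 0 1).aemeasurable (Filter.Eventually.of_forall fun x => gaussianPDF_lt_top)]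
    simp only [toReal_gaussianPDF, smul_eq_mul, e]
    exact (integrable_exp_neg_mul_sq (by linarith)).const_mul _
  rw [integral_gaussianReal_eq_integral_smul h1]
  simp only [smul_eq_mul, e, integral_const_mul, integral_gaussian]
  have hs : Real.sqrt (Real.pi / ((1 - 2 * v) / 2)) = Real.sqrt (2 * Real.pi) / Real.sqrt (1 - 2 * v) := by
    rw [← Real.sqrt_div (by positivity)]; congr 1; field_simp
  rw [hs, ← mul_div_assoc, inv_mul_cancel₀ (by positivity), one_div, inv_le_iff_one_le_mul₀ (by positivity)]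
  rw [← sq_le_sq₀ zero_le_one (by positivity), one_pow, mul_pow, Real.sq_sqrt hq.le, ← Real.exp_nat_mul]
  have := Real.quadratic_le_exp_of_nonneg (show (0:ℝ) ≤ (2:ℕ) * (2 * v) by push_cast; linarith)
  push_cast at this ⊢
  refine le_trans ?_ (mul_le_mul_of_nonneg_right this hq.le)
  nlinarith [mul_nonneg hv0 hv0, mul_nonneg (mul_nonneg hv0 hv0) (sub_nonneg.2 hv)]

/-- Tail of a diagonal quadratic form. -/
theorem gauss_tail {α : Type*} [Fintype α] (a : α → ℝ) (b T : ℝ) (ha : ∀ e, 0 ≤ a e)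
    (hb : ∀ e, a e ≤ b) (hb0 : 0 ≤ b) (hT : 0 ≤ T) :
    gfail {y : EuclideanSpace ℝ α | ∑ e, a e * y e ^ 2 ≤ 4 * ∑ e, a e + 4 * b * T}
      ≤ Real.exp (-T) := by
  rcases hb0.eq_or_lt with rfl | hb0
  · have h : ∀ e, a e = 0 := fun e => le_antisymm (hb e) (ha e)
    simp [gfail, h, Real.exp_nonneg]
  have hset : MeasurableSet {y : EuclideanSpace ℝ α | ∑ e, a e * y e ^ 2 ≤ 4 * ∑ e, a e + 4 * b * T} :=
    (isClosed_le (by fun_prop) continuous_const).measurableSet
  rw [gfail, ← map_pi_eq_stdGaussian, Measure.map_apply (by fun_prop) hset.compl]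
  set μ := Measure.pi fun _ : α => gaussianReal 0 1
  have hv : ∀ e, 0 ≤ a e / (4 * b) ∧ a e / (4 * b) ≤ 1 / 4 := fun e =>
    ⟨div_nonneg (ha e) (by linarith), by rw [div_le_iff₀ (by linarith)]; linarith [hb e]⟩
  set g : (α → ℝ) → ℝ := fun x => ∏ e, Real.exp (a e / (4 * b) * x e ^ 2)
  have hgi : Integrable g μ := Integrable.fintype_prod (f := fun e s => Real.exp (a e / (4 * b) * s ^ 2))
    fun e => (integral_exp_sq_gaussian (hv e).1 (hv e).2).1
  set A := ∑ e, a e
  set t := Real.exp (A / b + T)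
  have hI : ∫ x, g x ∂μ ≤ Real.exp (A / (2 * b)) := by
    rw [integral_fintype_prod_eq_prod (f := fun e s => Real.exp (a e / (4 * b) * s ^ 2)),
      show A / (2 * b) = ∑ e, 2 * (a e / (4 * b)) by
        rw [← Finset.mul_sum, ← Finset.sum_div]; field_simp; ring, Real.exp_sum]
    exact Finset.prod_le_prod (fun e _ => integral_nonneg fun x => (Real.exp_pos _).le)
      fun e _ => (integral_exp_sq_gaussian (hv e).1 (hv e).2).2
  have hM := mul_meas_ge_le_integral_of_nonneg
    (Filter.Eventually.of_forall fun x => Finset.prod_nonneg fun e _ => (Real.exp_pos _).le) hgi t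
  refine le_trans (b := μ.real {x | t ≤ g x}) ?_ ?_
  · refine measureReal_mono fun x hx => ?_
    simp only [Set.mem_preimage, Set.mem_compl_iff, Set.mem_ofPred_eq, not_le] at hx
    simp only [Set.mem_ofPred_eq, g, t, ← Real.exp_sum, Real.exp_le_exp]
    rw [show ∑ e, a e / (4 * b) * x e ^ 2 = (∑ e, a e * x e ^ 2) / (4 * b) by
      rw [Finset.sum_div]; refine Finset.sum_congr rfl fun e _ => by ring,
      le_div_iff₀ (by linarith), add_mul, div_mul_eq_mul_div, mul_div_assoc,
      show (4 * b) / b = 4 by field_simp]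
    linarith
  · have h2 : t * μ.real {x | t ≤ g x} ≤ Real.exp (A / (2 * b)) := hM.trans hI
    have h3 : Real.exp (A / (2 * b)) ≤ t * Real.exp (-T) := by
      rw [← Real.exp_add]
      refine Real.exp_le_exp.2 ?_
      have : 0 ≤ A := Finset.sum_nonneg fun e _ => ha e
      have : A / (2 * b) ≤ A / b := by gcongr; linarith
      linarith
    exact le_of_mul_le_mul_left (h2.trans h3) (Real.exp_pos _)

end Vale.Agent.P262.Exact
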