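import Vale.Agent.P262.Exact.Coef
import Vale.Agent.P262.Exact.Absorb

/-! Nodes of the recursion and the bias that absorbs a clipped endpoint. -/

namespace Vale.Agent.P262.Exact

open Finset

set_option linter.unusedSectionVars false

variable {ι γ : Type} [Fintype ι] [DecidableEq ι] [Fintype γ] [DecidableEq γ]

/-- A node: an interval of the final order with its endpoints. -/
structure Node (P : Cst) (s : γ → ℝ) (v : ι → γ → ℝ) (st : St γ) (S : Finset ι)
    (a b : γ → ℝ) : Prop where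
  eq : ∀ j, b j = a j + ∑ i ∈ S, v i j
  gram : ∑ j ∈ st.U0ᶜ, ∑ k ∈ st.U0ᶜ, Dg s st.l j ^ (-(3 / 4) : ℝ) * Dg s st.l k ^ (-(3 / 4) : ℝ)
    * (∑ i ∈ S, v i j * v i k - if j = k then Dg s st.l j else 0) ^ 2 ≤ 1
  energy : ∑ i ∈ S, ∑ j ∈ st.U0, st.ω j * v i j ^ 2 ≤ st.B
  epa : EP P s st a
  epb : EP P s st b

variable {P : Cst} {s : γ → ℝ} {st : St γ} {v : ι → γ → ℝ} {S : Finset ι} {a b : γ → ℝ}

/-- Weighted squared Gram error with respect to `W` times the scaled diagonal. -/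
noncomputable def gerr (P : Cst) (s : γ → ℝ) (v : ι → γ → ℝ) (st : St γ) (X : Finset ι) (W : ℝ) : ℝ :=
  ∑ j ∈ (lay P s st).A, ∑ k ∈ (lay P s st).A, (lay P s st).wA j * (lay P s st).wA k
    * (∑ i ∈ X, v i j * v i k - if j = k then W * Dg s (lev P s st) j else 0) ^ 2

lemma diag_le (hst : st.Ok s) (hN : Node P s v st S a b) {j : γ} (hj : j ∉ st.U0) :
    ∑ i ∈ S, v i j ^ 2 ≤ 2 * Dg s st.l j := by
  have hh := high_of_not_U0 hst hj
  have hD := one_le_Dg hh
  set G := ∑ i ∈ S, v i j ^ 2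
  set D := Dg s st.l j
  have hterm : D ^ (-(3 / 4) : ℝ) * D ^ (-(3 / 4) : ℝ) * (G - D) ^ 2 ≤ 1 := by
    refine le_trans (le_of_eq ?_) ((single_le_sum (f := fun k => D ^ (-(3 / 4) : ℝ)
      * Dg s st.l k ^ (-(3 / 4) : ℝ) * (∑ i ∈ S, v i j * v i k - if j = k then D else 0) ^ 2)
      (fun k hk => ?_) (mem_compl.2 hj)).trans ((single_le_sum (f := fun i => ∑ k ∈ st.U0ᶜ,
        Dg s st.l i ^ (-(3 / 4) : ℝ) * Dg s st.l k ^ (-(3 / 4) : ℝ)
          * (∑ x ∈ S, v x i * v x k - if i = k then Dg s st.l i else 0) ^ 2)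
      (fun i hi => sum_nonneg fun k hk => ?_) (mem_compl.2 hj)).trans hN.gram))
    · simp [G, D, sq]
    all_goals
      have h1 := Dg_pos (high_of_not_U0 hst (mem_compl.1 hk))
      first
        | positivity
        | (have h2 := Dg_pos (high_of_not_U0 hst (mem_compl.1 hi)); positivity)
  have h2 : 1 / D ≤ D ^ (-(3 / 4) : ℝ) := by
    rw [one_div, ← Real.rpow_neg_one]
    exact Real.rpow_le_rpow_of_exponent_le hD (by norm_num)
  have h3 : (G - D) ^ 2 ≤ D ^ 2 := by
    have h4 := mul_le_mul_of_nonneg_right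
      (mul_le_mul h2 h2 (by positivity) (by positivity)) (sq_nonneg (G - D))
    have h5 := h4.trans hterm
    rw [div_mul_div_comm, one_mul, one_div_mul_eq_div, div_le_one (by positivity)] at h5
    linarith
  have := abs_le_of_sq_le_sq h3 (by linarith)
  rw [abs_le] at this
  linarith

lemma pow_len (j : γ) : Dg s st.l j = 2 ^ len P s st * Dg s (lev P s st) j := by
  rw [Dg_of_le (lt_lev (P := P) (s := s) (st := st)).le j]
  rfl

lemma wn_sum_le (hP : P.Good) (hst : st.Ok s) (hN : Node P s v st S a b) :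
    ∑ j ∈ (lay P s st).N, ∑ i ∈ S, v i j ^ 2
      ≤ 2 * 2 ^ len P s st * (cN P * cost P s st) := by
  refine le_trans (sum_le_sum fun j hj => ?_)
    (le_of_eq_of_le (mul_sum _ _ _).symm (mul_le_mul_of_nonneg_left (new_mass_le hP.toOk hst)
      (by positivity)))
  refine (diag_le hst hN (mem_sdiff.1 hj).2).trans ?_
  rw [pow_len (P := P) j, mul_assoc]
  exact mul_le_mul_of_nonneg_left (mul_le_mul_of_nonneg_left (le_max_left _ _) (by positivity))
    zero_le_two

lemma wt_sum_le (hP : P.Good) (hst : st.Ok s) (hN : Node P s v st S a b) {X : Finset ι} (hX : X ⊆ S) :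
    ∑ i ∈ X, (lay P s st).wt v i ≤ (lay P s st).B := by
  refine (sum_le_sum_of_subset_of_nonneg hX fun i _ _ => wt_nonneg v (lay_ok hP hst) i).trans ?_
  simp only [Lay.wt, lay, mul_assoc, ← mul_sum]
  exact mul_le_mul_of_nonneg_left hN.energy (by norm_num)

/-- The bias absorbing a clipped vector. -/
lemma exists_bias (hP : P.Good) (hst : st.Ok s) (hv : ∀ i, ∑ j, v i j ^ 2 ≤ 1)
    (hN : Node P s v st S a b) {X : Finset ι} (hX : X ⊆ S) {W : ℝ}
    (hW : 3 / 4 * 2 ^ len P s st ≤ W) (hG : gerr P s v st X W ≤ 4 * W ^ 2) (c : γ → ℝ)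
    (hc : ∀ j, j ∉ U1' P s st → |c j| ≤ 2 * cap P s st j)
    (hc0 : ∀ j ∈ U1' P s st, c j = 0) :
    ∃ z : ι → ℝ, (∀ i, i ∉ X → z i = 0) ∧ (∀ j, j ∉ U0' P s st → vs v z j = c j) ∧
      (∀ i, 400 * |z i| ≤ (1 / 2) ^ len P s st) ∧
      Dev v (lay0 P s st) z (unit P s st (1 / 400 * (lay P s st).B)) := by
  classical
  set l' := lev P s st with hl'
  set A := (lay P s st).A with hA
  set T : ℝ := 2 ^ len P s st with hT
  have hT0 : 0 < T := by positivity
  have hy : (1 / 2 : ℝ) ^ len P s st = 1 / T := by rw [hT, one_div_pow]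
  have hY := lay_ok hP hst
  have hW0 : 0 < W := lt_of_lt_of_le (by positivity) hW
  have hhigh : ∀ j ∈ A, j ∈ high s (l' + mA P s st) := fun j hj => high_of_not_U0' (mem_compl.1 hj)
  have hD : ∀ j ∈ A, (2 : ℝ) ^ mA P s st ≤ Dg s l' j := fun j hj => pow_le_Dg (hhigh j hj)
  have hD1 : ∀ j ∈ A, 1 ≤ Dg s l' j := fun j hj => (one_le_pow₀ one_le_two).trans (hD j hj)
  have hD0 : ∀ j ∈ A, 0 < Dg s l' j := fun j hj => zero_lt_one.trans_le (hD1 j hj)
  have hinv : ∀ j ∈ A, 1 / Dg s l' j ≤ 1 / 4 * (lay P s st).wA j := by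
    intro j hj
    have h0 := hD0 j hj
    simp only [lay, ← hl']
    rw [show (-(3 / 4) : ℝ) = -1 + 1 / 4 by norm_num, Real.rpow_add h0, Real.rpow_neg_one,
      ← mul_assoc, ← one_div]
    have h4 : 4 ≤ Dg s l' j ^ (1 / 4 : ℝ) := by
      refine le_trans ?_ (Real.rpow_le_rpow (by positivity) (hD j hj) (by norm_num))
      rw [← Real.rpow_natCast, ← Real.rpow_mul zero_le_two,
        show (4 : ℝ) = (2 : ℝ) ^ ((2 : ℕ) : ℝ) by norm_num]
      refine Real.rpow_le_rpow_of_exponent_le one_le_two ?_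
      have hb : 8 ≤ mA P s st := hP.b8.trans (Nat.le_add_right _ _)
      have : (8 : ℝ) ≤ mA P s st := by exact_mod_cast hb
      push_cast; linarith
    calc 1 / Dg s l' j = 1 / 4 * (1 / Dg s l' j) * 4 := by ring
      _ ≤ _ := mul_le_mul_of_nonneg_left h4 (by positivity)
  have hG' : ∑ j ∈ A, ∑ k ∈ A, (∑ i ∈ X, v i j * v i k - if j = k then W * Dg s l' j else 0) ^ 2
      / (Dg s l' j * Dg s l' k) ≤ (W / 2) ^ 2 := by
    calc _ ≤ ∑ j ∈ A, ∑ k ∈ A, 1 / 16 * ((lay P s st).wA j * (lay P s st).wA k *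
          (∑ i ∈ X, v i j * v i k - if j = k then W * Dg s l' j else 0) ^ 2) := by
          refine sum_le_sum fun j hj => sum_le_sum fun k hk => ?_
          have := hD0 j hj; have := hD0 k hk
          have h := mul_le_mul (hinv j hj) (hinv k hk) (by positivity)
            (mul_nonneg (by norm_num) (hY.wA_mem j hj).1)
          rw [div_eq_mul_one_div, ← one_div_mul_one_div]
          exact (mul_le_mul_of_nonneg_left h (sq_nonneg _)).trans_eq (by ring)
      _ = 1 / 16 * gerr P s v st X W := by simp only [gerr, ← hA, mul_sum, ← hl']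
      _ ≤ _ := by linarith
  obtain ⟨z0, hz1, hz2, hz3⟩ := absorb v hv X A W hW0 (fun j => Dg s l' j) hD1 hG' c
  have hS : ∑ k ∈ A, c k ^ 2 / Dg s l' k ≤ 4 * P.θ := by
    refine le_trans (sum_le_sum fun k hk => ?_)
      (le_of_eq_of_le (mul_sum _ _ _).symm (mul_le_mul_of_nonneg_left
        (sum_rpow_A (s := s) (st := st) hP (p := -(1 / 2)) (by norm_num)) (by norm_num)))
    have h0 := hD0 k hk
    rw [← hl', Real.rpow_neg h0.le, ← Real.sqrt_eq_rpow, div_le_iff₀ h0]
    by_cases h : k ∈ U1' P s st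
    · rw [hc0 k h]; simp only [ne_eq, OfNat.ofNat_ne_zero, not_false_eq_true, zero_pow]; positivity
    · have hsq : cap P s st k ^ 2 = Real.sqrt (Dg s l' k) := Real.sq_sqrt (Real.sqrt_nonneg _)
      have hs := Real.sqrt_pos.2 h0
      calc c k ^ 2 ≤ (2 * cap P s st k) ^ 2 :=
            sq_le_sq' (by linarith [(abs_le.1 (hc k h)).1]) (abs_le.1 (hc k h)).2
        _ = 4 * ((Real.sqrt (Dg s l' k))⁻¹ * Real.sqrt (Dg s l' k) * Real.sqrt (Dg s l' k)) := by
            rw [inv_mul_cancel₀ hs.ne', one_mul, mul_pow, hsq]; norm_num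
        _ = 4 * (Real.sqrt (Dg s l' k))⁻¹ * Dg s l' k := by
            rw [mul_assoc _ (Real.sqrt _) (Real.sqrt _), Real.mul_self_sqrt h0.le]; ring
  have hθ := hP.θ0
  have hz2' : ∑ i ∈ X, z0 i ^ 2 ≤ 11 * P.θ / T := by
    refine hz2.trans ?_
    rw [div_le_div_iff₀ hW0 hT0]
    nlinarith [mul_le_mul_of_nonneg_left hW hθ.le, mul_le_mul_of_nonneg_right hS hT0.le]
  have hz3' : ∀ i, 400 * |z0 i| ≤ 1 / T := fun i => by
    have h1 : z0 i ^ 2 ≤ (1 / (400 * T)) ^ 2 := by
      refine (hz3 i).trans ?_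
      rw [div_pow, one_pow, div_le_div_iff₀ (by positivity) (by positivity)]
      have hW2 := pow_le_pow_left₀ (by positivity) hW 2
      nlinarith [hP.θ1, mul_le_mul_of_nonneg_left hS (sq_nonneg T), sq_nonneg T]
    have := abs_le_of_sq_le_sq h1 (by positivity)
    rw [le_div_iff₀ (by positivity)] at this ⊢
    linarith
  let z : ι → ℝ := fun i => if i ∈ X then z0 i else 0
  have hzs : ∀ g : ι → ℝ, ∑ i, z i * g i = ∑ i ∈ X, z0 i * g i := fun g => by
    simp [z, ite_mul, sum_ite_mem]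
  have hex : ∀ j, j ∉ U0' P s st → vs v z j = c j := fun j hj => by
    rw [vs, hzs]; exact hz1 j (mem_compl.2 hj)
  refine ⟨z, fun i hi => if_neg hi, hex, fun i => ?_, ?_⟩
  · rw [hy]; simp only [z]; split_ifs
    · exact hz3' i
    · rw [abs_zero, mul_zero]; positivity
  obtain ⟨k1, k2, k3, k4⟩ := ku_bounds hP
  have hC := hP.C01
  have hk : 1 ≤ ku P := by linarith
  have hNc := cN_pos hP
  have hB := hst.B0
  have hθ1 : 11 * P.θ ≤ 1 := by linarith [hP.θ1]
  have hT1 : (1 : ℝ) / T ≤ 1 := by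
    rw [div_le_one hT0]; exact one_le_pow₀ one_le_two
  have hcs : ∀ j, vs v z j ^ 2 ≤ 11 * P.θ / T * ∑ i ∈ S, v i j ^ 2 := fun j => by
    rw [vs, hzs]
    exact (sum_mul_sq_le_sq_mul_sq X z0 fun i => v i j).trans (mul_le_mul hz2'
      (sum_le_sum_of_subset_of_nonneg hX fun i _ _ => sq_nonneg _)
      (sum_nonneg fun i _ => sq_nonneg _) (by positivity))
  have hwsum := wsum_nonneg (P := P) hst
  have hc' : (0 : ℝ) ≤ cost P s st := Nat.cast_nonneg _
  have hkc : cN P * cost P s st ≤ ku P * (cN P * cost P s st) :=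
    le_mul_of_one_le_left (by positivity) hk
  refine ⟨fun t => ?_, ?_, ?_, ?_, ?_, ?_⟩
  · rw [show (lay0 P s st).pre t = ∅ from
      eq_empty_of_forall_notMem fun j hj => notMem_empty j (mem_filter.1 hj).1]
    simp only [sum_empty, card_empty, Nat.cast_zero, mul_zero, zero_add, unit]
    have := hP.K1
    positivity
  · simp only [lay0, lay, unit, cU]
    refine le_trans (sum_le_sum fun j hj => mul_le_mul_of_nonneg_left (hcs j)
      (mul_nonneg (by norm_num) (zero_le_one.trans (hst.ω1 j hj)))) ?_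
    have e : ∑ j ∈ st.U0, 7 / 5 * st.ω j * (11 * P.θ / T * ∑ i ∈ S, v i j ^ 2)
        = 7 / 5 * (11 * P.θ / T) * ∑ i ∈ S, ∑ j ∈ st.U0, st.ω j * v i j ^ 2 := by
      simp only [mul_sum]
      rw [sum_comm]
      exact sum_congr rfl fun i _ => sum_congr rfl fun j _ => by ring
    rw [e]
    have h1 : 11 * P.θ / T ≤ 1 := (div_le_one hT0).2 (hθ1.trans (one_le_pow₀ one_le_two))
    have h2 : 7 / 5 * (11 * P.θ / T) * ∑ i ∈ S, ∑ j ∈ st.U0, st.ω j * v i j ^ 2
        ≤ 7 / 5 * 1 * st.B := by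
      refine mul_le_mul (by linarith) hN.energy (sum_nonneg fun i _ => sum_nonneg fun j hj => ?_)
        (by norm_num)
      have := hst.ω1 j hj; positivity
    nlinarith [mul_le_mul hk hNc zero_le_one (by linarith : (0:ℝ) ≤ ku P)]
  · simp only [lay0, unit, cU]
    have hb : ∀ j ∈ (lay P s st).R, (lay P s st).bR j * vs v z j ^ 2
        ≤ if j ∈ (lay P s st).N then 11 * P.θ / T * ∑ i ∈ S, v i j ^ 2 else 0 := by
      intro j hj
      obtain ⟨h1, h2⟩ := mem_sdiff.1 hj
      by_cases h : j ∈ U0' P s st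
      · rw [if_pos (show j ∈ (lay P s st).N from mem_sdiff.2 ⟨h, h2⟩)]
        have : (lay P s st).bR j = 1 := by
          simp only [lay, bR]
          split_ifs
          · rw [ω', if_neg h2, if_pos h]
          · rfl
        rw [this, one_mul]
        exact hcs j
      · rw [if_neg (show j ∉ (lay P s st).N from fun hn => h (mem_sdiff.1 hn).1), hex j h, hc0 j h1]; simp
    refine (sum_le_sum hb).trans ?_
    rw [sum_ite_mem, ← mul_sum]
    have h1 := wn_sum_le hP hst hN
    rw [← hT] at h1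
    have h2 : 11 * P.θ / T * ∑ j ∈ (lay P s st).R ∩ (lay P s st).N, ∑ i ∈ S, v i j ^ 2
        ≤ 2 * (cN P * cost P s st) := by
      refine (mul_le_mul_of_nonneg_left ((sum_le_sum_of_subset_of_nonneg inter_subset_right
        fun j _ _ => sum_nonneg fun i _ => sq_nonneg _).trans h1) (by positivity)).trans ?_
      have : 11 * P.θ / T * (2 * T * (cN P * cost P s st))
          = 11 * P.θ * (2 * (cN P * cost P s st)) := by field_simp
      rw [this]
      exact mul_le_of_le_one_left (by positivity) hθ1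
    have h3 : 0 ≤ st.B + len P s st * wsum P s st := by positivity
    nlinarith [mul_nonneg (mul_nonneg (by linarith : (0:ℝ) ≤ ku P) (by linarith : (0:ℝ) ≤ cN P)) h3]
  · simp only [lay0, unit, eps]
    have hpair : ∀ j ∈ A, ∀ k ∈ A, (∑ i, z i * (v i j * v i k)) ^ 2
        ≤ 22 * P.θ * Real.sqrt (Dg s l' j) * Real.sqrt (Dg s l' k) := by
      intro j hj k hk
      rw [hzs]
      refine (sum_mul_sq_le_sq_mul_sq X z0 fun i => v i j * v i k).trans ?_
      have h4 : ∀ i j', v i j' ^ 2 ≤ 1 := fun i j' =>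
        (single_le_sum (fun e _ => sq_nonneg (v i e)) (mem_univ j')).trans (hv i)
      have hG2 : ∀ j' ∈ A, ∑ i ∈ X, (v i j' ^ 2) ^ 2 ≤ 2 * T * Dg s l' j' := by
        intro j' hj'
        refine le_trans (sum_le_sum fun i _ => (show (v i j' ^ 2) ^ 2 ≤ v i j' ^ 2 by
          rw [sq (v i j' ^ 2)]
          exact mul_le_of_le_one_left (sq_nonneg _) (h4 i j'))) ?_
        refine (sum_le_sum_of_subset_of_nonneg hX fun i _ _ => sq_nonneg _).trans ?_
        refine (diag_le hst hN fun h => mem_compl.1 hj' (mem_union_left _ h)).trans_eq ?_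
        rw [pow_len (P := P) j', mul_assoc]
      have h5 : ∑ i ∈ X, (v i j * v i k) ^ 2
          ≤ 2 * T * Real.sqrt (Dg s l' j) * Real.sqrt (Dg s l' k) := by
        simp only [mul_pow]
        refine (Real.sum_mul_le_sqrt_mul_sqrt X (fun i => v i j ^ 2) (fun i => v i k ^ 2)).trans ?_
        refine (mul_le_mul (Real.sqrt_le_sqrt (hG2 j hj)) (Real.sqrt_le_sqrt (hG2 k hk))
          (Real.sqrt_nonneg _) (Real.sqrt_nonneg _)).trans_eq ?_
        rw [Real.sqrt_mul (by positivity), Real.sqrt_mul (by positivity) (Dg s l' k)]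
        have := Real.mul_self_sqrt (show (0:ℝ) ≤ 2 * T by positivity)
        linear_combination (Real.sqrt (Dg s l' j) * Real.sqrt (Dg s l' k)) * this
      refine (mul_le_mul hz2' h5 (sum_nonneg fun i _ => sq_nonneg _) (by positivity)).trans_eq ?_
      field_simp
      ring
    have hmain : ∑ j ∈ A, ∑ k ∈ A, (lay P s st).wA j * (lay P s st).wA k
        * (∑ i, z i * (v i j * v i k)) ^ 2
        ≤ 22 * P.θ * (∑ j ∈ A, Dg s l' j ^ (-(1 / 4) : ℝ)) ^ 2 := by
      rw [sq, sum_mul_sum, mul_sum]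
      refine sum_le_sum fun j hj => ?_
      rw [mul_sum]
      refine sum_le_sum fun k hk => ?_
      refine (mul_le_mul_of_nonneg_left (hpair j hj k hk)
        (mul_nonneg (hY.wA_mem j hj).1 (hY.wA_mem k hk).1)).trans_eq ?_
      simp only [lay, ← hl', Real.sqrt_eq_rpow]
      rw [show (-(1 / 4) : ℝ) = -(3 / 4) + 1 / 2 by norm_num, Real.rpow_add (hD0 j hj),
        Real.rpow_add (hD0 k hk)]
      ring
    rw [hA] at hmain
    refine hmain.trans ?_
    have h0 : 0 ≤ ∑ j ∈ (lay P s st).A, Dg s l' j ^ (-(1 / 4) : ℝ) :=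
      sum_nonneg fun j hj => Real.rpow_nonneg (hD0 j hj).le _
    have hs : (∑ j ∈ (lay P s st).A, Dg s l' j ^ (-(1 / 4) : ℝ)) ^ 2 ≤ 1 :=
      pow_le_one₀ h0 ((sum_rpow_A hP (by norm_num)).trans (by linarith))
    have h4 : 0 ≤ ku P * (4 / 2 ^ P.b) := mul_nonneg (by linarith) (by positivity)
    nlinarith [mul_le_mul_of_nonneg_left hs (by linarith : (0:ℝ) ≤ 22 * P.θ),
      mul_le_mul_of_nonneg_right hk hθ.le]
  · simp only [lay0, unit, Lay.wt]
    have hsum : |∑ i, z i * (lay P s st).wt v i| ≤ 1 / 400 * ∑ i ∈ X, (lay P s st).wt v i := by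
      rw [hzs, mul_sum]
      refine (abs_sum_le_sum_abs _ _).trans (sum_le_sum fun i _ => ?_)
      rw [abs_mul, abs_of_nonneg (wt_nonneg v hY i)]
      exact mul_le_mul_of_nonneg_right (by linarith [hz3' i]) (wt_nonneg v hY i)
    simp only [Lay.wt] at hsum
    have := wt_sum_le hP hst hN hX
    simp only [Lay.wt] at this
    linarith
  · simp only [lay0, unit, Lay.wn, cU]
    have hsum : |∑ i, z i * (lay P s st).wn v i|
        ≤ 1 / (400 * T) * ∑ i ∈ S, (lay P s st).wn v i := by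
      rw [hzs]
      refine ((abs_sum_le_sum_abs _ _).trans (sum_le_sum fun i _ => ?_)).trans
        ((le_of_eq (mul_sum _ _ _).symm).trans (mul_le_mul_of_nonneg_left
          (sum_le_sum_of_subset_of_nonneg hX fun i _ _ => (wn_le hv hY i).1) (by positivity)))
      rw [abs_mul, abs_of_nonneg (wn_le hv hY i).1]
      refine mul_le_mul_of_nonneg_right ?_ (wn_le hv hY i).1
      have := hz3' i
      rw [le_div_iff₀ (by positivity)] at this ⊢
      linarith
    have h1 := wn_sum_le hP hst hN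
    rw [← hT, sum_comm] at h1
    have e : ∑ i ∈ S, (lay P s st).wn v i = ∑ i ∈ S, ∑ j ∈ (lay P s st).N, v i j ^ 2 := by
      simp [Lay.wn, lay]
    rw [e] at hsum
    simp only [Lay.wn] at hsum
    refine hsum.trans ((mul_le_mul_of_nonneg_left h1 (by positivity)).trans ?_)
    have e2 : 1 / (400 * T) * (2 * T * (cN P * cost P s st)) = cN P * cost P s st / 200 := by
      field_simp; ring
    rw [e2]
    nlinarith [mul_nonneg (by linarith : (0:ℝ) ≤ ku P) hc', mul_nonneg (by linarith : (0:ℝ) ≤ cN P) hc']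

end Vale.Agent.P262.Exact
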