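import Vale.Agent.P262.Exact.Bias
import Mathlib.Data.List.TakeDrop

/-! Children and endpoints produced by one step. -/

namespace Vale.Agent.P262.Exact

open Finset

set_option linter.unusedSectionVars false

/-- Ordered traversal of `S` from `a` staying within squared radius `R`. -/
def Good {ι γ : Type} [DecidableEq ι] [Fintype γ] (v : ι → γ → ℝ) (R : ℝ) (a : γ → ℝ)
    (S : Finset ι) : Prop :=
  ∃ l : List ι, l.Nodup ∧ l.toFinset = S ∧
    ∀ k : ℕ, ∑ j, (a j + ((l.take k).map fun i => v i j).sum) ^ 2 ≤ R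

variable {ι γ : Type} [Fintype ι] [DecidableEq ι] [Fintype γ] [DecidableEq γ]
variable {v : ι → γ → ℝ}

lemma good_empty {R : ℝ} {a : γ → ℝ} (h : ∑ j, a j ^ 2 ≤ R) : Good v R a ∅ :=
  ⟨[], List.nodup_nil, rfl, fun k => by simpa using h⟩

lemma good_union {R : ℝ} {a m : γ → ℝ} {S1 S2 : Finset ι} (h1 : Good v R a S1)
    (h2 : Good v R m S2) (hd : Disjoint S1 S2) (hm : ∀ j, m j = a j + ∑ i ∈ S1, v i j) :
    Good v R a (S1 ∪ S2) := by
  obtain ⟨l1, n1, t1, b1⟩ := h1
  obtain ⟨l2, n2, t2, b2⟩ := h2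
  refine ⟨l1 ++ l2, ?_, by rw [List.toFinset_append, t1, t2], fun k => ?_⟩
  · refine List.nodup_append.2 ⟨n1, n2, fun x hx y hy hxy => ?_⟩
    exact Finset.disjoint_left.1 hd (t1 ▸ List.mem_toFinset.2 hx)
      (t2 ▸ List.mem_toFinset.2 (hxy ▸ hy))
  · rcases le_total k l1.length with hk | hk
    · have : (l1 ++ l2).take k = l1.take k := by
        rw [List.take_append, Nat.sub_eq_zero_of_le hk, List.take_zero, List.append_nil]
      rw [this]; exact b1 k
    · have e : ∀ j, a j + (((l1 ++ l2).take k).map fun i => v i j).sum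
          = m j + ((l2.take (k - l1.length)).map fun i => v i j).sum := by
        intro j
        rw [List.take_append, List.take_of_length_le hk, List.map_append, List.sum_append, hm j,
          ← t1, List.sum_toFinset _ n1]
        ring
      simp only [e]; exact b2 _

/-- A set all of whose subsets lead to good points can be traversed in any order. -/
lemma good_few {R : ℝ} {a : γ → ℝ} {Z : Finset ι}
    (h : ∀ Z' ⊆ Z, ∑ j, (a j + ∑ i ∈ Z', v i j) ^ 2 ≤ R) : Good v R a Z := by
  refine ⟨Z.toList, Z.nodup_toList, Z.toList_toFinset, fun k => ?_⟩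
  refine le_trans (le_of_eq (sum_congr rfl fun j _ => ?_))
    (h (Z.toList.take k).toFinset fun i hi =>
      mem_toList.1 (List.mem_of_mem_take (List.mem_toFinset.1 hi)))
  rw [List.sum_toFinset _ (Z.nodup_toList.sublist (List.take_sublist _ _))]

variable {P : Cst} {s : γ → ℝ} {st : St γ} {S : Finset ι} {a b : γ → ℝ}

/-- Indicator coefficient vector. -/
def chi (A : Finset ι) (i : ι) : ℝ := if i ∈ A then 1 else 0

lemma sum_chi (A : Finset ι) (g : ι → ℝ) : ∑ i, chi A i * g i = ∑ i ∈ A, g i := by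
  simp [chi, ite_mul, sum_ite_mem]

lemma vs_add (c d : ι → ℝ) (j : γ) : vs v (c + d) j = vs v c j + vs v d j := by
  simp [vs, add_mul, sum_add_distrib]

lemma vs_sub (c d : ι → ℝ) (j : γ) : vs v (c - d) j = vs v c j - vs v d j := by
  simp [vs, sub_mul, sum_sub_distrib]

lemma vs_smul (a : ℝ) (c : ι → ℝ) (j : γ) : vs v (a • c) j = a * vs v c j := by
  simp [vs, mul_sum, mul_assoc]

lemma vs_chi (A : Finset ι) (j : γ) : vs v (chi A) j = ∑ i ∈ A, v i j := sum_chi A _

lemma Bd.mul_one (b : Bd) : b.mul 1 = b := by simp [Bd.mul]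

lemma unit_le (hP : P.Good) (hst : st.Ok s) :
    (unit P s st (1 / 400 * (lay P s st).B)).Le (unit P s st (lay P s st).B) := by
  have := (lay_ok hP hst).B_pos
  refine ⟨le_rfl, le_rfl, le_rfl, le_rfl, le_rfl, ?_, le_rfl⟩
  simp only [unit]
  linarith

lemma bud_le (hP : P.Good) (hst : st.Ok s) {E RL : ℝ}
    (hE : E ≤ 2048 * cU P * (st.B + cost P s st + len P s st * wsum P s st))
    (hRL : RL ≤ 512 * (P.K + 24 * P.C0) * cost P s st) :
    st.Bud + P.cF * ((U1' P s st \ st.U1).card : ℝ) + E + RL ≤ (next P s st).Bud := by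
  have h1 := mul_le_mul_of_nonneg_left (card_new1_le hP.toOk hst) hP.cF0.le
  have hK := hP.K1; have hC := hP.C01; have hN := cN_pos hP
  have hB := hst.B0; have hw := wsum_nonneg (P := P) hst
  have hc : (0 : ℝ) ≤ cost P s st := Nat.cast_nonneg _
  have hlw : 0 ≤ (len P s st : ℝ) * wsum P s st := mul_nonneg (Nat.cast_nonneg _) hw
  simp only [next, hP.hcE]
  nlinarith [mul_nonneg (mul_nonneg hP.cF0.le (by linarith : (0:ℝ) ≤ cN P)) (add_nonneg hB.le hlw),
    mul_nonneg (by linarith : (0:ℝ) ≤ P.K + 24 * P.C0) (add_nonneg hB.le hlw)]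

lemma lift_ep (hP : P.Good) (hst : st.Ok s) {q : γ → ℝ} (hq : EP P s st q) :
    EP P s (next P s st) q := by
  refine ep_lift hP.toOk hst hq ?_
  have := bud_le (P := P) (E := 0) (RL := 0) hP hst ?_ ?_
  · linarith
  · have hB := hst.B0; have hw := wsum_nonneg (P := P) hst
    have : 0 ≤ cU P := by
      have := cN_pos hP; have := (ku_bounds hP).2.2.1; have := sq_nonneg (nZ P)
      have : 0 ≤ ku P := by linarith
      unfold cU; positivity
    positivity
  · have := hP.K1; have := hP.C01; positivity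

/-- Endpoints close to a clipped point satisfy the new condition. -/
lemma point_ep (hP : P.Good) (hst : st.Ok s) {q m : γ → ℝ} {z t : ι → ℝ} (hq : EP P s st q)
    (hm : ∀ j, m j = q j + vs v z j + vs v t j)
    (hC : ∀ j, j ∉ U1' P s st → |q j + vs v z j| ≤ max (|q j| - cap P s st j) 0)
    (ht : Dev v (lay P s st) t ((unit P s st (lay P s st).B).mul 16))
    (hz : Dev v (lay0 P s st) z ((unit P s st (lay P s st).B).mul 16)) :
    EP P s (next P s st) m := by
  have hnn : ((unit P s st (lay P s st).B).mul 16).Nn := by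
    obtain ⟨a1, a2, a3, a4, a5, a6, a7⟩ := unit_nn hP hst (lay_ok hP hst).B_pos.le
    constructor <;> simp only [Bd.mul] <;> positivity
  have hzt : Dev v (lay0 P s st) (z + t) ((unit P s st (lay P s st).B).mul 32) := by
    have := hz.pair (lay0_ok hP hst) (ht.drop hnn)
    norm_num at this
    exact this
  set f : γ → ℝ := fun j => if j ∈ U1' P s st then vs v (z + t) j else vs v t j with hf
  set u := unit P s st (lay P s st).B with hu
  have hpre : ∀ k : ℕ, (lay P s st).pre (2 ^ k) = low s k \ U1' P s st := fun k => by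
    ext j; rw [Lay.pre, mem_filter, mem_sdiff, mem_low]; simp [lay, and_comm]
  have hsm : Sm P s st f (256 * u.f0) (256 * u.f1) (1024 * u.o + 1024 * u.r) := by
    refine ⟨fun k => ?_, ?_⟩
    · have h := ht.f (2 ^ k)
      rw [hpre k] at h
      simp only [Bd.mul] at h
      norm_num at h
      refine le_trans (le_of_eq (sum_congr rfl fun j hj => ?_)) h
      simp only [hf, if_neg (mem_sdiff.1 hj).2]
    · have hsub : st.U0 ⊆ U1' P s st := hst.sub.trans subset_union_left
      rw [← sum_sdiff hsub, add_comm]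
      have ho := hzt.o
      have hr := hzt.r
      simp only [lay0, lay, Bd.mul] at ho hr
      norm_num at ho hr
      refine add_le_add (le_trans (le_of_eq (sum_congr rfl fun j hj => ?_)) ho)
        (le_trans (le_of_eq (sum_congr rfl fun j hj => ?_)) hr)
      · simp only [hf, if_pos (hsub hj), bR, if_pos (hst.sub hj), ω', if_pos hj]
      · simp only [hf, if_pos (mem_sdiff.1 hj).1]
  obtain ⟨k1, k2, k3, k4⟩ := ku_bounds hP
  have hK := hP.K1; have hC0 := hP.C01
  have hL : ((len P s st - 1 : ℕ) : ℝ) ≤ cost P s st :=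
    Nat.cast_le.2 (Nat.le_add_left _ _)
  refine ep_step hP.toOk hst hq hsm ?_ ?_ ?_ hP.hθF ?_ (fun j hj => ?_) (fun j hj => ?_)
    (bud_le hP hst ?_ ?_)
  · simp only [hu, unit]; positivity
  · rw [hP.hcF]; rfl
  · simp only [hu, unit]; positivity
  · simp only [hu, unit, mB]
    rw [pow_add]
    have h1 : ((len P s st - 1 : ℕ) : ℝ) ≤ 2 ^ gg P s st := by
      have := cost_lt_pow (P := P) (s := s) (st := st)
      have h' : len P s st - 1 ≤ 2 ^ gg P s st := by unfold cost at this; omega
      exact_mod_cast h'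
    calc 8 * (256 * (2 * (P.K + 24 * P.C0) * ((len P s st - 1 : ℕ) : ℝ)))
        = 4096 * (P.K + 24 * P.C0) * ((len P s st - 1 : ℕ) : ℝ) := by ring
      _ ≤ 2 ^ P.c * 2 ^ gg P s st := mul_le_mul hP.hRL h1 (Nat.cast_nonneg _) (by positivity)
  · rw [hm j, add_assoc, ← vs_add]
    simp only [hf, if_pos hj]
    exact abs_add_le _ _
  · rw [hm j]
    simp only [hf, if_neg hj]
    exact (abs_add_le _ _).trans (add_le_add (hC j hj) le_rfl)
  · simp only [hu, unit]
    have hB := hst.B0; have hw := wsum_nonneg (P := P) hst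
    have hN := cN_pos hP
    have hcU : 0 ≤ cU P := by
      have := sq_nonneg (nZ P); unfold cU
      have : 0 ≤ ku P := by linarith
      positivity
    nlinarith [mul_nonneg hcU (add_nonneg (Nat.cast_nonneg (cost P s st))
      (mul_nonneg (Nat.cast_nonneg (len P s st)) hw))]
  · simp only [hu, unit]
    have := mul_le_mul_of_nonneg_left hL (by linarith : (0:ℝ) ≤ P.K + 24 * P.C0)
    linarith

lemma gerr_main (hP : P.Good) (hst : st.Ok s) (hv : ∀ i, ∑ j, v i j ^ 2 ≤ 1)
    (hN : Node P s v st S a b) {Z : Finset ι} (hZS : Z ⊆ S) (hZ : (Z.card : ℝ) ≤ nZ P) :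
    ((1 / 2 : ℝ) ^ len P s st) ^ 2 * gerr P s v st (S \ Z) (2 ^ len P s st) ≤ 3 / 4 := by
  set y := (1 / 2 : ℝ) ^ len P s st with hy
  set T := (2 : ℝ) ^ len P s st with hT
  have hY := lay_ok hP hst
  have hZg := (few_dev hP hst hv hZ (wt_sum_le hP hst hN hZS)).g
  simp only [unit, ← chi.eq_def, ite_mul] at hZg
  have hy0 : 0 < y := by positivity
  have hy1 : y ≤ 1 / 2 := pow_le_of_le_one (by norm_num) (by norm_num)
    (by have := len_pos (P := P) (s := s) (st := st); omega)
  have hsub : (lay P s st).A ⊆ st.U0ᶜ := compl_subset_compl.2 subset_union_left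
  have hold : y ^ 2 * ∑ j ∈ (lay P s st).A, ∑ k ∈ (lay P s st).A,
      (lay P s st).wA j * (lay P s st).wA k
        * (∑ i ∈ S, v i j * v i k - if j = k then Dg s st.l j else 0) ^ 2 ≤ 71 / 100 := by
    have hsy : Real.sqrt y ≤ 71 / 100 := Real.sqrt_le_iff.2 ⟨by norm_num, by linarith⟩
    have e : ∀ j ∈ (lay P s st).A, ∀ k ∈ (lay P s st).A,
        y ^ 2 * ((lay P s st).wA j * (lay P s st).wA k) = Real.sqrt y
          * (Dg s st.l j ^ (-(3 / 4) : ℝ) * Dg s st.l k ^ (-(3 / 4) : ℝ)) := by
      intro j hj k hk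
      have h1 : ∀ j ∈ (lay P s st).A, (lay P s st).wA j
          = Dg s st.l j ^ (-(3 / 4) : ℝ) * y ^ (-(3 / 4) : ℝ) := fun j hj => by
        have h0 := Dg_pos (high_of_not_U0 hst (mem_compl.1 (hsub hj)))
        rw [← Real.mul_rpow h0.le hy0.le]
        simp only [lay]
        rw [pow_len (P := P) j, hy, one_div_pow]
        congr 1; field_simp
      rw [h1 j hj, h1 k hk, Real.sqrt_eq_rpow,
        show (1 / 2 : ℝ) = (2 : ℕ) + (-(3 / 4) + -(3 / 4)) by norm_num, Real.rpow_add hy0,
        Real.rpow_add hy0, Real.rpow_natCast]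
      ring
    have h := hN.gram
    have hterm : ∀ j ∈ st.U0ᶜ, ∀ k ∈ st.U0ᶜ, 0 ≤ Dg s st.l j ^ (-(3 / 4) : ℝ)
        * Dg s st.l k ^ (-(3 / 4) : ℝ)
        * (∑ i ∈ S, v i j * v i k - if j = k then Dg s st.l j else 0) ^ 2 := fun j hj k hk => by
      have := Dg_pos (high_of_not_U0 hst (mem_compl.1 hj))
      have := Dg_pos (high_of_not_U0 hst (mem_compl.1 hk))
      positivity
    rw [mul_sum]
    calc ∑ j ∈ (lay P s st).A, y ^ 2 * ∑ k ∈ (lay P s st).A,
          (lay P s st).wA j * (lay P s st).wA k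
            * (∑ i ∈ S, v i j * v i k - if j = k then Dg s st.l j else 0) ^ 2
        = Real.sqrt y * ∑ j ∈ (lay P s st).A, ∑ k ∈ (lay P s st).A,
          Dg s st.l j ^ (-(3 / 4) : ℝ) * Dg s st.l k ^ (-(3 / 4) : ℝ)
            * (∑ i ∈ S, v i j * v i k - if j = k then Dg s st.l j else 0) ^ 2 := by
          simp only [mul_sum]
          refine sum_congr rfl fun j hj => sum_congr rfl fun k hk => ?_
          rw [← mul_assoc, e j hj k hk]; ring
      _ ≤ Real.sqrt y * 1 := by
          refine mul_le_mul_of_nonneg_left (le_trans ?_ h) (Real.sqrt_nonneg _)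
          exact (sum_le_sum fun j hj => sum_le_sum_of_subset_of_nonneg hsub fun k hk _ =>
            hterm j (hsub hj) k hk).trans (sum_le_sum_of_subset_of_nonneg hsub fun j hj _ =>
              sum_nonneg fun k hk => hterm j hj k hk)
      _ ≤ 71 / 100 := by rw [mul_one]; exact hsy
  have hsplit : gerr P s v st (S \ Z) T ≤ 21 / 20 * ∑ j ∈ (lay P s st).A, ∑ k ∈ (lay P s st).A,
      (lay P s st).wA j * (lay P s st).wA k
        * (∑ i ∈ S, v i j * v i k - if j = k then Dg s st.l j else 0) ^ 2
      + 21 * eps P := by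
    refine le_trans ?_ (add_le_add le_rfl (mul_le_mul_of_nonneg_left hZg (by norm_num)))
    simp only [gerr, mul_sum, ← sum_add_distrib]
    refine sum_le_sum fun j hj => sum_le_sum fun k hk => ?_
    have hw := mul_nonneg (hY.wA_mem j hj).1 (hY.wA_mem k hk).1
    have e : (if j = k then T * Dg s (lev P s st) j else 0)
        = if j = k then Dg s st.l j else 0 := by rw [hT, ← pow_len]
    rw [e, sum_sdiff_eq_sub hZS, sum_chi]
    set A := ∑ i ∈ S, v i j * v i k - if j = k then Dg s st.l j else 0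
    set B := ∑ i ∈ Z, v i j * v i k
    have e3 : ∑ i ∈ S, v i j * v i k - B - (if j = k then Dg s st.l j else 0) = A - B := by
      simp only [A]; ring
    rw [e3]
    nlinarith [mul_nonneg hw (sq_nonneg (A + 20 * B))]
  have hε : 0 ≤ eps P := by
    have := (unit_nn hP hst (w := 0) le_rfl).g; exact this
  have := mul_le_mul_of_nonneg_left hsplit (sq_nonneg y)
  nlinarith [hP.hε, pow_le_one₀ (n := 2) hy0.le (by linarith : y ≤ 1)]

/-- A child interval. -/
lemma child_node (hP : P.Good) (hst : st.Ok s) (hv : ∀ i, ∑ j, v i j ^ 2 ≤ 1)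
    (hN : Node P s v st S a b) {Z : Finset ι} (hZS : Z ⊆ S) (hZ : (Z.card : ℝ) ≤ nZ P)
    {Q : Finset ι} (hQ : Q ⊆ S \ Z) {t : ι → ℝ}
    (hcoef : chi Q = ((1 / 2 : ℝ) ^ len P s st) • chi (S \ Z) + t)
    (ht : Dev v (lay0 P s st) t ((unit P s st (1 / 400 * (lay P s st).B)).mul 16))
    {a' b' : γ → ℝ} (hb' : ∀ j, b' j = a' j + ∑ i ∈ Q, v i j)
    (ha' : EP P s (next P s st) a') (hb'' : EP P s (next P s st) b') :
    Node P s v (next P s st) Q a' b' := by
  set y := (1 / 2 : ℝ) ^ len P s st with hy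
  set T := (2 : ℝ) ^ len P s st with hT
  have hyT : y * T = 1 := by rw [hy, hT, ← mul_pow]; norm_num
  have hy0 : 0 < y := by positivity
  have hy1 : y ≤ 1 / 2 := pow_le_of_le_one (by norm_num) (by norm_num)
    (by have := len_pos (P := P) (s := s) (st := st); omega)
  have hY := lay_ok hP hst
  have hsum : ∀ g : ι → ℝ, ∑ i ∈ Q, g i = y * ∑ i ∈ S \ Z, g i + ∑ i, t i * g i := fun g => by
    rw [← sum_chi Q, hcoef]
    simp only [Pi.add_apply, Pi.smul_apply, smul_eq_mul, add_mul, sum_add_distrib, mul_assoc,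
      ← mul_sum, sum_chi]
  refine ⟨hb', ?_, ?_, ha', hb''⟩
  · have hg := ht.g
    simp only [Bd.mul, unit, lay0] at hg
    norm_num at hg
    have hm := gerr_main hP hst hv hN hZS hZ
    rw [← hy, ← hT, gerr] at hm
    calc ∑ j ∈ (next P s st).U0ᶜ, ∑ k ∈ (next P s st).U0ᶜ,
          Dg s (next P s st).l j ^ (-(3 / 4) : ℝ) * Dg s (next P s st).l k ^ (-(3 / 4) : ℝ)
            * (∑ i ∈ Q, v i j * v i k - if j = k then Dg s (next P s st).l j else 0) ^ 2
        ≤ ∑ j ∈ (lay P s st).A, ∑ k ∈ (lay P s st).A,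
          (11 / 10 * (y ^ 2 * ((lay P s st).wA j * (lay P s st).wA k
            * (∑ i ∈ S \ Z, v i j * v i k
                - if j = k then T * Dg s (lev P s st) j else 0) ^ 2))
          + 11 * ((lay P s st).wA j * (lay P s st).wA k * (∑ i, t i * (v i j * v i k)) ^ 2)) := by
          refine sum_le_sum fun j hj => sum_le_sum fun k hk => ?_
          have hw := mul_nonneg (hY.wA_mem j hj).1 (hY.wA_mem k hk).1
          show (lay P s st).wA j * (lay P s st).wA k
            * (∑ i ∈ Q, v i j * v i k - if j = k then Dg s (lev P s st) j else 0) ^ 2 ≤ _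
          rw [hsum]
          set A := ∑ i ∈ S \ Z, v i j * v i k - if j = k then T * Dg s (lev P s st) j else 0
          set B := ∑ i, t i * (v i j * v i k)
          have e : y * (∑ i ∈ S \ Z, v i j * v i k) + B
              - (if j = k then Dg s (lev P s st) j else 0) = y * A + B := by
            simp only [A]
            split_ifs
            · linear_combination (Dg s (lev P s st) j) * hyT
            · ring
          rw [e]
          nlinarith [mul_nonneg hw (sq_nonneg (y * A - 10 * B))]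
      _ ≤ 1 := by
          simp only [sum_add_distrib, ← mul_sum]
          have := hP.hε
          linarith
  · have hkey : ∀ i, ∑ j ∈ (next P s st).U0, (next P s st).ω j * v i j ^ 2
        = (lay P s st).wt v i + (lay P s st).wn v i := by
      intro i
      simp only [next, Lay.wt, Lay.wn, lay]
      rw [← sum_sdiff (show st.U0 ⊆ U0' P s st from subset_union_left), add_comm]
      refine congrArg₂ (· + ·) (sum_congr rfl fun j hj => ?_) (sum_congr rfl fun j hj => ?_)
      · rw [ω', if_pos hj]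
      · rw [ω', if_neg (mem_sdiff.1 hj).2, if_pos (mem_sdiff.1 hj).1]
    simp only [hkey, sum_add_distrib]
    have hw := ht.w
    have hn := ht.n
    simp only [Bd.mul, unit, lay0, Lay.wt, Lay.wn] at hw hn
    have hXS : S \ Z ⊆ S := sdiff_subset
    have h1 : ∑ i ∈ Q, (lay P s st).wt v i ≤ 756 / 1000 * st.B := by
      rw [hsum]
      have h2 := wt_sum_le hP hst hN hXS
      have h3 : y * ∑ i ∈ S \ Z, (lay P s st).wt v i ≤ 1 / 2 * (lay P s st).B :=
        mul_le_mul hy1 h2 (sum_nonneg fun i _ => wt_nonneg v hY i) (by norm_num)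
      have hb : (lay P s st).B = 7 / 5 * st.B := rfl
      simp only [Lay.wt] at h3 ⊢
      have := (abs_le.1 hw).2
      linarith
    have h4 : ∑ i ∈ Q, (lay P s st).wn v i ≤ P.cW * cost P s st := by
      rcases eq_or_ne (cost P s st) 0 with h | h
      · have : (lay P s st).N = ∅ := by
          simp only [lay, (static_of_cost hP.toOk hst h).1, sdiff_self]; rfl
        simp [Lay.wn, this, h]
      · rw [hsum]
        have h2 : ∑ i ∈ S \ Z, (lay P s st).wn v i ≤ 2 * T * (cN P * cost P s st) := by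
          refine (sum_le_sum_of_subset_of_nonneg hXS fun i _ _ => (wn_le hv hY i).1).trans ?_
          refine le_trans (le_of_eq ?_) (wn_sum_le hP hst hN)
          simp only [Lay.wn, lay, one_mul]
          rw [sum_comm]
        have h3 : y * ∑ i ∈ S \ Z, (lay P s st).wn v i ≤ 2 * cN P * cost P s st := by
          refine (mul_le_mul_of_nonneg_left h2 hy0.le).trans_eq ?_
          linear_combination (2 * cN P * cost P s st) * hyT
        have hc : (1 : ℝ) ≤ cost P s st := by exact_mod_cast Nat.one_le_iff_ne_zero.2 h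
        have hcU : 0 ≤ cU P := by
          have := cN_pos hP; have := (ku_bounds hP).2.2.1; have := sq_nonneg (nZ P)
          have : 0 ≤ ku P := by linarith
          unfold cU; positivity
        simp only [Lay.wn] at h3 ⊢
        have := (abs_le.1 hn).2
        rw [hP.hcW]
        nlinarith [mul_le_mul_of_nonneg_left hc hcU]
    simp only [next]
    have := hst.B0
    linarith

end Vale.Agent.P262.Exact
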