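import Vale.Agent.P262.Exact.State
import Mathlib.Analysis.Real.Sqrt

/-! The endpoint condition and its passage to the next state. -/

namespace Vale.Agent.P262.Exact

open Finset

set_option linter.unusedSectionVars false

variable {γ : Type} [Fintype γ] [DecidableEq γ]

/-- Endpoint condition at a state. -/
def EP (P : Cst) (s : γ → ℝ) (st : St γ) (p : γ → ℝ) : Prop :=
  ∀ k : ℕ, ∑ j ∈ st.U1, p j ^ 2 / st.Φ j + ∑ j ∈ low s k \ st.U1, p j ^ 2
    ≤ st.Bud + P.cF * ((low s k \ st.U1).card : ℝ)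

/-- Clipping threshold. -/
noncomputable def cap (P : Cst) (s : γ → ℝ) (st : St γ) (j : γ) : ℝ :=
  Real.sqrt (Real.sqrt (Dg s (lev P s st) j))

/-- Weight of a static coordinate. -/
noncomputable def bR (P : Cst) (s : γ → ℝ) (st : St γ) (j : γ) : ℝ :=
  if j ∈ st.U1 then ω' P s st j else 1

/-- Smallness of a perturbation. -/
structure Sm (P : Cst) (s : γ → ℝ) (st : St γ) (f : γ → ℝ) (cf RL E : ℝ) : Prop where
  pre : ∀ k : ℕ, ∑ j ∈ low s k \ U1' P s st, f j ^ 2
    ≤ cf * ((low s k \ U1' P s st).card : ℝ) + RL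
  sta : ∑ j ∈ U1' P s st, bR P s st j * f j ^ 2 ≤ E

variable {P : Cst} {s : γ → ℝ} {st : St γ}

lemma ep_convex (hst : st.Ok s) {p q r : γ → ℝ} {t : ℝ} (h0 : 0 ≤ t) (h1 : t ≤ 1)
    (hp : EP P s st p) (hq : EP P s st q) (hr : ∀ j, r j = (1 - t) * p j + t * q j) :
    EP P s st r := by
  intro k
  have key : ∀ j, r j ^ 2 ≤ (1 - t) * p j ^ 2 + t * q j ^ 2 := fun j => by
    rw [hr j]; nlinarith [mul_nonneg (mul_nonneg h0 (sub_nonneg.2 h1)) (sq_nonneg (p j - q j))]
  calc ∑ j ∈ st.U1, r j ^ 2 / st.Φ j + ∑ j ∈ low s k \ st.U1, r j ^ 2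
      ≤ ∑ j ∈ st.U1, ((1 - t) * (p j ^ 2 / st.Φ j) + t * (q j ^ 2 / st.Φ j))
        + ∑ j ∈ low s k \ st.U1, ((1 - t) * p j ^ 2 + t * q j ^ 2) := by
        refine add_le_add (sum_le_sum fun j _ => ?_) (sum_le_sum fun j _ => key j)
        rw [mul_div_assoc', mul_div_assoc', ← add_div]
        exact div_le_div_of_nonneg_right (key j) (by linarith [hst.Φ2 j])
    _ = (1 - t) * (∑ j ∈ st.U1, p j ^ 2 / st.Φ j + ∑ j ∈ low s k \ st.U1, p j ^ 2)
        + t * (∑ j ∈ st.U1, q j ^ 2 / st.Φ j + ∑ j ∈ low s k \ st.U1, q j ^ 2) := by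
        simp only [sum_add_distrib, ← mul_sum]; ring
    _ ≤ (1 - t) * (st.Bud + P.cF * ((low s k \ st.U1).card : ℝ))
        + t * (st.Bud + P.cF * ((low s k \ st.U1).card : ℝ)) :=
        add_le_add (mul_le_mul_of_nonneg_left (hp k) (sub_nonneg.2 h1))
          (mul_le_mul_of_nonneg_left (hq k) h0)
    _ = _ := by ring

lemma split_new {k : ℕ} (hk : lev P s st + 2 * mB P s st ≤ k) :
    low s k \ st.U1 = (U1' P s st \ st.U1) ∪ (low s k \ U1' P s st) := by
  ext j
  simp only [U1', mem_sdiff, mem_union]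
  constructor
  · rintro ⟨h1, h2⟩
    by_cases h : j ∈ low s (lev P s st + 2 * mB P s st) <;> tauto
  · rintro (⟨h1, h2⟩ | ⟨h1, h2⟩)
    · exact ⟨low_mono hk (h1.resolve_left h2), h2⟩
    · exact ⟨h1, fun h => h2 (Or.inl h)⟩

lemma disj_new (k : ℕ) : Disjoint (U1' P s st \ st.U1) (low s k \ U1' P s st) :=
  disjoint_left.2 fun _ h1 h2 => (mem_sdiff.1 h2).2 (mem_sdiff.1 h1).1

lemma low_sdiff_max (k : ℕ) :
    low s (max k (lev P s st + 2 * mB P s st)) \ U1' P s st = low s k \ U1' P s st := by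
  rcases le_total k (lev P s st + 2 * mB P s st) with h | h
  · rw [max_eq_right h]
    have e : ∀ n, n ≤ lev P s st + 2 * mB P s st → low s n \ U1' P s st = ∅ := fun n hn =>
      sdiff_eq_empty_iff_subset.2 ((low_mono hn).trans subset_union_right)
    rw [e _ le_rfl, e _ h]
  · rw [max_eq_left h]

/-- Points moved by small perturbations keep the endpoint condition. -/
lemma ep_core (hP : P.Ok) (hst : st.Ok s) {q m f : γ → ℝ} {k K : ℕ} {F E : ℝ}
    (hq : EP P s st q) (hK : lev P s st + 2 * mB P s st ≤ K)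
    (hU : ∀ j ∈ U1' P s st, |m j| ≤ |q j| + |f j|)
    (hE : ∑ j ∈ U1' P s st, bR P s st j * f j ^ 2 ≤ E)
    (hC : ∑ j ∈ low s k \ U1' P s st, m j ^ 2 + P.cF * ((low s K \ U1' P s st).card : ℝ)
      ≤ ∑ j ∈ low s K \ U1' P s st, q j ^ 2 + F) :
    ∑ j ∈ U1' P s st, m j ^ 2 / (next P s st).Φ j + ∑ j ∈ low s k \ U1' P s st, m j ^ 2
      ≤ st.Bud + P.cF * ((U1' P s st \ st.U1).card : ℝ) + E + F := by
  have h := hq K
  rw [split_new hK, card_union_of_disjoint (disj_new K), sum_union (disj_new K)] at h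
  push_cast at h
  have hsub : st.U1 ⊆ U1' P s st := subset_union_left
  have hm : ∑ j ∈ U1' P s st, m j ^ 2 / (next P s st).Φ j
      ≤ ∑ j ∈ st.U1, q j ^ 2 / st.Φ j + ∑ j ∈ U1' P s st \ st.U1, q j ^ 2
        + ∑ j ∈ U1' P s st, bR P s st j * f j ^ 2 := by
    rw [← sum_sdiff hsub (f := fun j => m j ^ 2 / (next P s st).Φ j),
      ← sum_sdiff hsub (f := fun j => bR P s st j * f j ^ 2)]
    have h1 : ∀ j ∈ U1' P s st, m j ^ 2 ≤ (|q j| + |f j|) ^ 2 := fun j hj => by
      rw [← sq_abs (m j)]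
      exact pow_le_pow_left₀ (abs_nonneg _) (hU j hj) 2
    have e1 : ∑ j ∈ U1' P s st \ st.U1, m j ^ 2 / (next P s st).Φ j
        ≤ ∑ j ∈ U1' P s st \ st.U1, q j ^ 2
          + ∑ j ∈ U1' P s st \ st.U1, bR P s st j * f j ^ 2 := by
      rw [← sum_add_distrib]
      refine sum_le_sum fun j hj => ?_
      obtain ⟨hj1, hj2⟩ := mem_sdiff.1 hj
      simp only [next, if_neg hj2, bR, one_mul]
      have := h1 j hj1
      nlinarith [sq_nonneg (|q j| - |f j|), sq_abs (q j), sq_abs (f j)]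
    have e2 : ∑ j ∈ st.U1, m j ^ 2 / (next P s st).Φ j
        ≤ ∑ j ∈ st.U1, q j ^ 2 / st.Φ j + ∑ j ∈ st.U1, bR P s st j * f j ^ 2 := by
      rw [← sum_add_distrib]
      refine sum_le_sum fun j hj => ?_
      simp only [next, if_pos hj, bR]
      set w := ω' P s st j with hw
      have w1 : 1 ≤ w := one_le_ω' hst j
      have hΦ := hst.Φ2 j
      have hd : 0 < st.Φ j + 1 / w := by positivity
      refine (div_le_div_of_nonneg_right (h1 j (hsub hj)) hd.le).trans ?_
      rw [div_le_iff₀ hd]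
      have e : (q j ^ 2 / st.Φ j + w * f j ^ 2) * (st.Φ j + 1 / w)
          = q j ^ 2 + f j ^ 2 + q j ^ 2 / (st.Φ j * w) + w * st.Φ j * f j ^ 2 := by
        field_simp; ring
      rw [e]
      have hp : 0 < st.Φ j * w := by positivity
      have e2 : q j ^ 2 / (st.Φ j * w) + w * st.Φ j * f j ^ 2 - 2 * (|q j| * |f j|)
          = (|q j| - st.Φ j * w * |f j|) ^ 2 / (st.Φ j * w) := by
        rw [← sq_abs (q j), ← sq_abs (f j)]
        field_simp; ring
      have : 0 ≤ (|q j| - st.Φ j * w * |f j|) ^ 2 / (st.Φ j * w) := by positivity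
      have := sq_abs (q j); have := sq_abs (f j)
      nlinarith
    linarith
  linarith

/-- Endpoints of the previous state. -/
lemma ep_lift (hP : P.Ok) (hst : st.Ok s) {q : γ → ℝ} (hq : EP P s st q)
    (hbud : st.Bud + P.cF * ((U1' P s st \ st.U1).card : ℝ) ≤ (next P s st).Bud) :
    EP P s (next P s st) q := by
  intro k
  show ∑ j ∈ U1' P s st, q j ^ 2 / (next P s st).Φ j + ∑ j ∈ low s k \ U1' P s st, q j ^ 2
    ≤ (next P s st).Bud + P.cF * ((low s k \ U1' P s st).card : ℝ)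
  have h := ep_core hP hst (m := q) (f := 0) (k := k) (E := 0)
    (F := P.cF * ((low s k \ U1' P s st).card : ℝ)) hq
    (le_max_right k _) (fun j _ => by simp) (by simp) (by rw [low_sdiff_max k])
  linarith

lemma cap_pos (hP : P.Ok) {j : γ} (hj : j ∉ U1' P s st) :
    0 < cap P s st j ∧ (2 : ℝ) ^ mB P s st ≤ cap P s st j ^ 2
      ∧ (cap P s st j ^ 2) ^ 2 = Dg s (lev P s st) j := by
  have hh := high_of_not_U1' hj
  have hD : 0 < Dg s (lev P s st) j := (pow_pos two_pos _).trans_le (pow_le_Dg hh)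
  have e : cap P s st j ^ 2 = Real.sqrt (Dg s (lev P s st) j) := Real.sq_sqrt (Real.sqrt_nonneg _)
  refine ⟨Real.sqrt_pos.2 (Real.sqrt_pos.2 hD), ?_, ?_⟩
  · rw [e]
    refine Real.le_sqrt_of_sq_le ?_
    rw [← pow_mul, mul_comm]
    exact pow_le_Dg hh
  · rw [e, Real.sq_sqrt hD.le]

/-- A level just above an absorbed coordinate. -/
lemma exists_level (hP : P.Ok) {j : γ} (hj : j ∉ U1' P s st) :
    ∃ k, lev P s st + 2 * mB P s st ≤ k ∧ s j < 2 ^ k ∧
      ((low s k \ U1' P s st).card : ℝ) ≤ P.θ * (2 * cap P s st j ^ 2) := by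
  have hh := high_of_not_U1' hj
  have hk := pow_unbounded_of_one_lt (s j) (one_lt_two : (1 : ℝ) < 2)
  set k := Nat.find hk
  have hlt : s j < 2 ^ k := Nat.find_spec hk
  have hgt : lev P s st + 2 * mB P s st < k := by
    by_contra h
    push Not at h
    exact absurd ((mem_high.1 hh).trans_lt hlt) (not_lt.2 (pow_le_pow_right₀ one_le_two h))
  have hpred : (2 : ℝ) ^ (k - 1) ≤ s j := not_lt.1 (Nat.find_min hk (show k - 1 < k by omega))
  refine ⟨k, hgt.le, hlt, ?_⟩
  set D := Dg s (lev P s st) j with hD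
  have hD1 : 1 ≤ D := (one_le_pow₀ one_le_two).trans (pow_le_Dg hh)
  have hsub : low s k \ U1' P s st ⊆ high s (lev P s st) := fun i hi =>
    high_anti (Nat.le_add_right _ _) (high_of_not_U1' (mem_sdiff.1 hi).2)
  refine (card_le (sparse (st := st) hP) hsub (X := 2 * D) fun i hi => ?_).trans
    (mul_le_mul_of_nonneg_left ?_ hP.θ0.le)
  · rw [hD, Dg, Dg, ← mul_div_assoc]
    refine div_le_div_of_nonneg_right ?_ (by positivity)
    have h1 := mem_low.1 (mem_sdiff.1 hi).1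
    have e : (2 : ℝ) ^ k = 2 * 2 ^ (k - 1) := by rw [← pow_succ']; congr 1; omega
    linarith
  · obtain ⟨hc, _, hc2⟩ := cap_pos (st := st) hP hj
    have e : cap P s st j ^ 2 = Real.sqrt D := Real.sq_sqrt (Real.sqrt_nonneg _)
    rw [e, Real.mul_rpow zero_le_two (by linarith), Real.sqrt_eq_rpow]
    refine mul_le_mul ?_ (Real.rpow_le_rpow_of_exponent_le hD1 (by norm_num))
      (Real.rpow_nonneg (by linarith) _) zero_le_two
    conv_rhs => rw [← Real.rpow_one (2 : ℝ)]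
    exact Real.rpow_le_rpow_of_exponent_le one_le_two (by norm_num)

/-- New endpoints near a point which satisfied the old condition. -/
lemma ep_step (hP : P.Ok) (hst : st.Ok s) {q m f : γ → ℝ} {cf RL E : ℝ} (hq : EP P s st q)
    (hf : Sm P s st f cf RL E) (hcf0 : 0 ≤ cf) (hcf : cf ≤ P.cF) (hRL0 : 0 ≤ RL)
    (hθ : 16 * P.cF * P.θ ≤ 1) (hRL : 8 * RL ≤ (2 : ℝ) ^ mB P s st)
    (hU : ∀ j ∈ U1' P s st, |m j| ≤ |q j| + |f j|)
    (hC : ∀ j, j ∉ U1' P s st → |m j| ≤ max (|q j| - cap P s st j) 0 + |f j|)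
    (hbud : st.Bud + P.cF * ((U1' P s st \ st.U1).card : ℝ) + E + RL ≤ (next P s st).Bud) :
    EP P s (next P s st) m := by
  intro k
  show ∑ j ∈ U1' P s st, m j ^ 2 / (next P s st).Φ j + ∑ j ∈ low s k \ U1' P s st, m j ^ 2
    ≤ (next P s st).Bud + P.cF * ((low s k \ U1' P s st).card : ℝ)
  have hfsmall : ∀ j, j ∉ U1' P s st → 2 * |f j| ≤ cap P s st j := by
    intro j hj
    obtain ⟨hc, hc1, _⟩ := cap_pos (st := st) hP hj
    obtain ⟨k0, _, hlt, hcard⟩ := exists_level (st := st) hP hj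
    have h1 : f j ^ 2 ≤ cf * ((low s k0 \ U1' P s st).card : ℝ) + RL :=
      (single_le_sum (fun i _ => sq_nonneg (f i)) (mem_sdiff.2 ⟨mem_low.2 hlt, hj⟩)).trans
        (hf.pre k0)
    have h2 := mul_le_mul hcf hcard (Nat.cast_nonneg _) hP.cF0.le
    have h3 := mul_le_mul_of_nonneg_right hθ (sq_nonneg (cap P s st j))
    rw [← sq_abs] at h1
    nlinarith [abs_nonneg (f j)]
  set exc := (low s k \ U1' P s st).filter fun j => cap P s st j < |q j| with hexc
  set n := ((low s k \ U1' P s st).card : ℝ)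
  have hsplit : ∑ j ∈ low s k \ U1' P s st, m j ^ 2
      ≤ ∑ j ∈ exc, (q j ^ 2 - 3 / 4 * cap P s st j ^ 2) + cf * n + RL := by
    rw [← sum_filter_add_sum_filter_not (low s k \ U1' P s st) (fun j => cap P s st j < |q j|),
      add_assoc]
    refine add_le_add (sum_le_sum fun j hj => ?_) ?_
    · obtain ⟨hj1, hj2⟩ := mem_filter.1 hj
      have hj3 := (mem_sdiff.1 hj1).2
      have h := hC j hj3
      rw [max_eq_left (by linarith)] at h
      have hc := (cap_pos (st := st) hP hj3).1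
      have h' : |m j| ≤ |q j| - cap P s st j / 2 := by linarith [hfsmall j hj3]
      rw [← sq_abs (m j), ← sq_abs (q j)]
      refine (pow_le_pow_left₀ (abs_nonneg _) h' 2).trans ?_
      nlinarith
    · refine le_trans (sum_le_sum fun j hj => ?_) ((sum_le_sum_of_subset_of_nonneg
        (filter_subset _ _) fun i _ _ => sq_nonneg (f i)).trans (hf.pre k))
      obtain ⟨hj1, hj2⟩ := mem_filter.1 hj
      have h := hC j (mem_sdiff.1 hj1).2
      rw [max_eq_right (by linarith [not_lt.1 hj2]), zero_add] at h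
      exact sq_le_sq.2 h
  have hn : cf * n ≤ P.cF * n := mul_le_mul_of_nonneg_right hcf (Nat.cast_nonneg _)
  rcases exc.eq_empty_or_nonempty with he | he
  · rw [he, sum_empty, zero_add] at hsplit
    have h := ep_core hP hst (k := k) (F := cf * n + RL) hq le_rfl hU hf.sta (by
      have : low s (lev P s st + 2 * mB P s st) \ U1' P s st = ∅ :=
        sdiff_eq_empty_iff_subset.2 subset_union_right
      rw [this]; simpa using hsplit)
    linarith
  · obtain ⟨j0, hj0, hmax⟩ := exists_max_image exc s he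
    have hj0' := (mem_sdiff.1 (mem_filter.1 hj0).1).2
    obtain ⟨k0, hk0, hlt, hcard⟩ := exists_level (st := st) hP hj0'
    have hsub : exc ⊆ low s k0 \ U1' P s st := fun i hi =>
      mem_sdiff.2 ⟨mem_low.2 ((hmax i hi).trans_lt hlt), (mem_sdiff.1 (mem_filter.1 hi).1).2⟩
    have hcap : P.cF * ((low s k0 \ U1' P s st).card : ℝ) ≤ ∑ j ∈ exc, 3 / 4 * cap P s st j ^ 2 := by
      refine le_trans ?_ (single_le_sum (fun j _ => by positivity) hj0)
      have h2 := mul_le_mul_of_nonneg_left hcard hP.cF0.le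
      have h3 := mul_le_mul_of_nonneg_right hθ (sq_nonneg (cap P s st j0))
      nlinarith
    have hq2 : ∑ j ∈ exc, q j ^ 2 ≤ ∑ j ∈ low s k0 \ U1' P s st, q j ^ 2 :=
      sum_le_sum_of_subset_of_nonneg hsub fun j _ _ => sq_nonneg _
    rw [sum_sub_distrib] at hsplit
    have h := ep_core hP hst (k := k) (F := cf * n + RL) hq hk0 hU hf.sta (by linarith)
    linarith

/-- The endpoint condition bounds the norm. -/
lemma ep_norm (hP : P.Ok) (hst : st.Ok s) {p : γ → ℝ} (h : EP P s st p) :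
    ∑ j, p j ^ 2 ≤ 19 / 2 * (st.Bud + P.cF * (Fintype.card γ : ℝ)) := by
  obtain ⟨k, hk⟩ := exists_all_low s
  have h := h k
  rw [hk, ← compl_eq_univ_sdiff] at h
  rw [← sum_add_sum_compl st.U1]
  have h1 : ∑ j ∈ st.U1, p j ^ 2 ≤ 19 / 2 * ∑ j ∈ st.U1, p j ^ 2 / st.Φ j := by
    rw [mul_sum]
    refine sum_le_sum fun j hj => ?_
    have := hst.Φ2 j
    rw [mul_div_assoc', le_div_iff₀ (by linarith), mul_comm (19/2 : ℝ)]
    exact mul_le_mul_of_nonneg_left (Φ_le hst hj) (sq_nonneg _)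
  have h2 : ((st.U1ᶜ).card : ℝ) ≤ Fintype.card γ := Nat.cast_le.2 (card_le_univ _)
  have h3 : 0 ≤ ∑ j ∈ st.U1ᶜ, p j ^ 2 := sum_nonneg fun j _ => sq_nonneg _
  have := mul_le_mul_of_nonneg_left h2 hP.cF0.le
  linarith

end Vale.Agent.P262.Exact
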