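import Vale.Agent.P262.Exact.Round
import Vale.Agent.P262.Exact.Ep

/-! The layout of one step and bounds for its elementary coefficient vectors. -/

namespace Vale.Agent.P262.Exact

open Finset

set_option linter.unusedSectionVars false

/-- Bound for the number of items set aside. -/
def nZ (P : Cst) : ℝ := P.C0 + 1

/-- Common multiplier of the elementary bounds. -/
def ku (P : Cst) : ℝ := P.K + 24 * P.C0 + nZ P ^ 2 + 1

/-- Multiplier for the static bounds. -/
noncomputable def cU (P : Cst) : ℝ := 20 * ku P * (1 + cN P)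

/-- Bound for the Gram deviations. -/
noncomputable def eps (P : Cst) : ℝ := 64 * ku P * (P.θ + 4 / 2 ^ P.b)

/-- All relations between the constants. -/
structure Cst.Good (P : Cst) : Prop extends P.Ok where
  big1 : 800 * P.K ≤ P.C0
  big2 : 3840000 ≤ P.C0
  θ1 : 10240000 * P.θ ≤ 1
  hcF : P.cF = 256 * (P.K + nZ P ^ 2)
  hθF : 16 * P.cF * P.θ ≤ 1
  hε : 25000 * eps P ≤ 1
  hRL : 4096 * (P.K + 24 * P.C0) ≤ 2 ^ P.c
  b8 : 8 ≤ P.b
  hcE : P.cE = P.cF * cN P + 2048 * cU P + 512 * (P.K + 24 * P.C0)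
  hcW : P.cW = 2 * cN P + 32 * cU P

variable {ι γ : Type} [Fintype ι] [DecidableEq ι] [Fintype γ] [DecidableEq γ]

/-- Layout of the step from `st`. -/
noncomputable def lay (P : Cst) (s : γ → ℝ) (st : St γ) : Lay γ where
  O := st.U0
  R := U1' P s st \ st.U0
  C := (U1' P s st)ᶜ
  A := (U0' P s st)ᶜ
  N := U0' P s st \ st.U0
  key := s
  wO j := 7 / 5 * st.ω j
  bR := bR P s st
  wA j := Dg s (lev P s st) j ^ (-(3 / 4) : ℝ)
  wN _ := 1
  B := 7 / 5 * st.B
  lN := 1
  bmax := min st.B 1 + wsum P s st + min (cost P s st : ℝ) 1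
  amax := ((2 : ℝ) ^ mA P s st) ^ (-(3 / 4) : ℝ)

/-- The layout without absorbed coordinates. -/
noncomputable def lay0 (P : Cst) (s : γ → ℝ) (st : St γ) : Lay γ :=
  { lay P s st with C := ∅ }

/-- Elementary bound. -/
noncomputable def unit (P : Cst) (s : γ → ℝ) (st : St γ) (w : ℝ) : Bd :=
  ⟨P.K + nZ P ^ 2, 2 * (P.K + 24 * P.C0) * ((len P s st - 1 : ℕ) : ℝ), cU P * st.B,
    cU P * (st.B + cost P s st + len P s st * wsum P s st), eps P, w,
    cU P * (cost P s st + 1)⟩

/-- Multiple of a bound. -/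
def Bd.mul (b : Bd) (k : ℝ) : Bd :=
  ⟨k ^ 2 * b.f0, k ^ 2 * b.f1, k ^ 2 * b.o, k ^ 2 * b.r, k ^ 2 * b.g, k * b.w, k * b.n⟩

/-- Componentwise order. -/
structure Bd.Le (a b : Bd) : Prop where
  f0 : a.f0 ≤ b.f0
  f1 : a.f1 ≤ b.f1
  o : a.o ≤ b.o
  r : a.r ≤ b.r
  g : a.g ≤ b.g
  w : a.w ≤ b.w
  n : a.n ≤ b.n

/-- Nonnegative bound. -/
def Bd.Nn (b : Bd) : Prop := Bd.Le ⟨0, 0, 0, 0, 0, 0, 0⟩ b

lemma Dev.mono {v : ι → γ → ℝ} {Y : Lay γ} {c : ι → ℝ} {a b : Bd} (h : Dev v Y c a)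
    (hab : a.Le b) : Dev v Y c b :=
  ⟨fun t => (h.f t).trans (add_le_add (mul_le_mul_of_nonneg_right hab.f0 (Nat.cast_nonneg _)) hab.f1),
    h.o.trans hab.o, h.r.trans hab.r, h.g.trans hab.g, h.w.trans hab.w, h.n.trans hab.n⟩

lemma Bd.mul_le (b : Bd) (hb : b.Nn) {k m : ℝ} (hk : 0 ≤ k) (hkm : k ≤ m) :
    (b.mul k).Le (b.mul m) := by
  have h2 : k ^ 2 ≤ m ^ 2 := pow_le_pow_left₀ hk hkm 2
  constructor <;> simp only [Bd.mul] <;> gcongr
  exacts [hb.f0, hb.f1, hb.o, hb.r, hb.g, hb.w, hb.n]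

lemma Dev.pair {v : ι → γ → ℝ} {Y : Lay γ} (hY : Y.Ok) {c1 c2 : ι → ℝ} {b : Bd} {k : ℝ}
    (h1 : Dev v Y c1 (b.mul k)) (h2 : Dev v Y c2 (b.mul k)) :
    Dev v Y (c1 + c2) (b.mul (2 * k)) :=
  (h1.add hY h2).mono (by constructor <;> simp only [Bd.mul, Bd.join] <;> linarith)

lemma Dev.smul {v : ι → γ → ℝ} {Y : Lay γ} (hY : Y.Ok) {c : ι → ℝ} {b : Bd} (h : Dev v Y c b)
    {a : ℝ} (ha : |a| ≤ 1) : Dev v Y (a • c) b := by
  have ha2 : a ^ 2 ≤ 1 := (sq_le_one_iff_abs_le_one a).2 ha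
  have e : ∀ j, vs v (a • c) j = a * vs v c j := fun j => by simp [vs, mul_sum, mul_assoc]
  have sc : ∀ {κ : Type} (S : Finset κ) (w f : κ → ℝ), (∀ j ∈ S, 0 ≤ w j) →
      ∑ j ∈ S, w j * (a * f j) ^ 2 ≤ ∑ j ∈ S, w j * f j ^ 2 := fun S w f hw =>
    sum_le_sum fun j hj => by
      rw [mul_pow]
      exact mul_le_mul_of_nonneg_left (mul_le_of_le_one_left (sq_nonneg _) ha2) (hw j hj)
  refine ⟨fun t => ?_, ?_, ?_, ?_, ?_, ?_⟩
  · simp only [e]
    have := sc (Y.pre t) (fun _ => 1) (vs v c) (fun _ _ => zero_le_one)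
    simp only [one_mul] at this
    exact this.trans (h.f t)
  · simp only [e]; exact (sc _ _ _ hY.wO_nn).trans h.o
  · simp only [e]; exact (sc _ _ _ fun j hj => (hY.bR_mem j hj).1).trans h.r
  · refine le_trans (sum_le_sum fun j hj => ?_) h.g
    simp only [Pi.smul_apply, smul_eq_mul, mul_assoc a, ← mul_sum]
    exact sc Y.A (fun k => Y.wA j * Y.wA k) (fun k => ∑ i, c i * (v i j * v i k))
      fun k hk => mul_nonneg (hY.wA_mem j hj).1 (hY.wA_mem k hk).1
  · simp only [Pi.smul_apply, smul_eq_mul, mul_assoc a, ← mul_sum, abs_mul]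
    exact (mul_le_of_le_one_left (abs_nonneg _) ha).trans h.w
  · simp only [Pi.smul_apply, smul_eq_mul, mul_assoc a, ← mul_sum, abs_mul]
    exact (mul_le_of_le_one_left (abs_nonneg _) ha).trans h.n

lemma Dev.zero {v : ι → γ → ℝ} {Y : Lay γ} {b : Bd} (hb : b.Nn) : Dev v Y 0 b := by
  refine ⟨fun t => ?_, ?_, ?_, ?_, ?_, ?_⟩ <;> simp [vs]
  exacts [by have := hb.f0; have := hb.f1; positivity, hb.o, hb.r, hb.g, hb.w, hb.n]

variable {P : Cst} {s : γ → ℝ} {st : St γ} {v : ι → γ → ℝ}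

lemma Dev.drop {c : ι → ℝ} {b : Bd} (h : Dev v (lay P s st) c b) (hb : b.Nn) :
    Dev v (lay0 P s st) c b :=
  ⟨fun t => by
    rw [show (lay0 P s st).pre t = ∅ from
      eq_empty_of_forall_notMem fun j hj => notMem_empty j (mem_filter.1 hj).1]
    simp only [sum_empty, card_empty, Nat.cast_zero, mul_zero, zero_add]
    exact hb.f1, h.o, h.r, h.g, h.w, h.n⟩

lemma wsum_nonneg (hst : st.Ok s) : 0 ≤ wsum P s st :=
  sum_nonneg fun j _ => zero_le_one.trans (one_le_ω' hst j)

lemma cN_pos (hP : P.Good) : 1 ≤ cN P := by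
  have := hP.θ0
  unfold cN
  linarith [mul_nonneg (mul_nonneg (show (0:ℝ) ≤ 12000 by norm_num) hP.θ0.le)
    (pow_nonneg (zero_le_two (α := ℝ)) (P.c + P.b + P.b))]

lemma lay_ok (hP : P.Good) (hst : st.Ok s) : (lay P s st).Ok where
  wO_nn j hj := by have := hst.ω1 j hj; simp only [lay]; positivity
  bR_mem j hj := by
    simp only [lay] at hj ⊢
    have hB := hst.B0
    have hw := wsum_nonneg (P := P) hst
    have hpos : 0 ≤ bR P s st j := by
      unfold bR; split_ifs
      · exact zero_le_one.trans (one_le_ω' hst j)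
      · exact zero_le_one
    refine ⟨hpos, ?_⟩
    obtain ⟨h1, h2⟩ := mem_sdiff.1 hj
    have hm : 0 ≤ min st.B 1 := le_min hB.le zero_le_one
    by_cases h : j ∈ st.U1 \ U0' P s st
    · rw [bR, if_pos (mem_sdiff.1 h).1]
      have : ω' P s st j ≤ wsum P s st :=
        single_le_sum (f := ω' P s st) (fun i _ => zero_le_one.trans (one_le_ω' hst i)) h
      have : 0 ≤ min (cost P s st : ℝ) 1 := le_min (Nat.cast_nonneg _) zero_le_one
      linarith
    · have hk : cost P s st ≠ 0 := by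
        intro hk
        obtain ⟨e0, e1⟩ := static_of_cost hP.toOk hst hk
        exact h (mem_sdiff.2 ⟨e1 ▸ h1, e0 ▸ h2⟩)
      have e : min (cost P s st : ℝ) 1 = 1 :=
        min_eq_right (Nat.one_le_cast.2 (Nat.one_le_iff_ne_zero.2 hk))
      have : bR P s st j = 1 := by
        unfold bR
        split_ifs with h'
        · rw [ω', if_neg h2, if_pos]
          by_contra h''
          exact h (mem_sdiff.2 ⟨h', h''⟩)
        · rfl
      rw [this, e]; linarith
  wA_mem j hj := by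
    simp only [lay] at hj ⊢
    have h := high_of_not_U0' (mem_compl.1 hj)
    exact ⟨Real.rpow_nonneg ((pow_pos two_pos _).trans_le (pow_le_Dg h)).le _,
      Real.rpow_le_rpow_of_nonpos (pow_pos two_pos _) (pow_le_Dg h) (by norm_num)⟩
  wN_mem j _ := ⟨zero_le_one, le_rfl⟩
  B_pos := by have := hst.B0; simp only [lay]; positivity
  lN_pos := one_pos
  bmax_pos := by
    have h1 : 0 < min st.B 1 := lt_min hst.B0 one_pos
    have h2 := wsum_nonneg (P := P) hst
    have : 0 ≤ min (cost P s st : ℝ) 1 := le_min (Nat.cast_nonneg _) zero_le_one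
    simp only [lay]; positivity
  amax_pos := Real.rpow_pos_of_pos (pow_pos two_pos _) _

lemma lay0_ok (hP : P.Good) (hst : st.Ok s) : (lay0 P s st).Ok :=
  let h := lay_ok hP hst
  ⟨h.wO_nn, h.bR_mem, h.wA_mem, h.wN_mem, h.B_pos, h.lN_pos, h.bmax_pos, h.amax_pos⟩

lemma sum_rpow_A (hP : P.Good) {p : ℝ} (hp : p ≤ -(1 / 8)) :
    ∑ j ∈ (U0' P s st)ᶜ, Dg s (lev P s st) j ^ p ≤ P.θ :=
  sum_rpow_le (sparse hP.toOk) hp fun _ hj =>
    high_anti (Nat.le_add_right _ _) (high_of_not_U0' (mem_compl.1 hj))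

lemma amax_sq (hP : P.Good) :
    (lay P s st).amax ^ 2 * (1 + len P s st) ≤ 4 / 2 ^ P.b
      ∧ (lay P s st).amax ^ 2 ≤ 4 / 2 ^ P.b := by
  have h1 : (lay P s st).amax ^ 2 ≤ 1 / (2 ^ P.b * 2 ^ gg P s st) := by
    simp only [lay]
    rw [← pow_add, one_div, ← Real.rpow_natCast (2 : ℝ) (mA P s st), ← Real.rpow_mul zero_le_two,
      ← Real.rpow_natCast _ 2, ← Real.rpow_mul zero_le_two, ← Real.rpow_natCast (2 : ℝ) (P.b + _),
      ← Real.rpow_neg zero_le_two]
    refine Real.rpow_le_rpow_of_exponent_le one_le_two ?_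
    have h : (3 : ℝ) * gg P s st ≤ 4 * ((3 * gg P s st / 4 : ℕ) : ℝ) + 3 := by
      exact_mod_cast (by omega : 3 * gg P s st ≤ 4 * (3 * gg P s st / 4) + 3)
    have hb : (8 : ℝ) ≤ P.b := by exact_mod_cast hP.b8
    rw [mA]
    push_cast
    linarith [(Nat.cast_nonneg (gg P s st) : (0 : ℝ) ≤ _)]
  have h2 : (1 + len P s st : ℝ) ≤ 2 * 2 ^ gg P s st := by
    have h3 := len_le_cost (P := P) (s := s) (st := st)
    have h4 := cost_lt_pow (P := P) (s := s) (st := st)
    have h5 : 1 + len P s st ≤ 2 * 2 ^ gg P s st := by omega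
    exact_mod_cast h5
  have h3 : (1 : ℝ) ≤ 2 ^ gg P s st := one_le_pow₀ one_le_two
  have hb : (0 : ℝ) < 2 ^ P.b := by positivity
  constructor
  · refine (mul_le_mul h1 h2 (by positivity) (by positivity)).trans ?_
    field_simp
    norm_num
  · refine h1.trans ?_
    rw [div_le_div_iff₀ (by positivity) hb]
    nlinarith

lemma bmax_len (hst : st.Ok s) :
    (lay P s st).bmax * (1 + len P s st)
      ≤ 4 * (st.B + cost P s st + len P s st * wsum P s st) := by
  have hw := wsum_nonneg (P := P) hst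
  have hL : (1 : ℝ) ≤ len P s st := Nat.one_le_cast.2 len_pos
  have h1 : (len P s st : ℝ) ≤ cost P s st + 1 := by exact_mod_cast len_le_cost
  have h2 : min st.B 1 * (1 + len P s st) ≤ 2 * st.B + cost P s st := by
    have := hst.B0
    calc min st.B 1 * (1 + len P s st) = 2 * min st.B 1 + min st.B 1 * (len P s st - 1) := by ring
      _ ≤ 2 * st.B + 1 * (len P s st - 1) :=
          add_le_add (mul_le_mul_of_nonneg_left (min_le_left _ _) zero_le_two)
            (mul_le_mul_of_nonneg_right (min_le_right _ _) (by linarith))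
      _ ≤ _ := by linarith
  have h3 : min (cost P s st : ℝ) 1 * (1 + len P s st) ≤ 3 * cost P s st := by
    rcases eq_or_ne (cost P s st) 0 with h | h
    · rw [h]; simp
    · have : (1 : ℝ) ≤ cost P s st := by exact_mod_cast Nat.one_le_iff_ne_zero.2 h
      rw [min_eq_right this]; linarith
  have h4 : wsum P s st * (1 + len P s st) ≤ 2 * (len P s st * wsum P s st) := by nlinarith
  simp only [lay]
  nlinarith [hst.B0, (Nat.cast_nonneg (cost P s st) : (0 : ℝ) ≤ _)]

lemma sum_bR (hP : P.Good) (hst : st.Ok s) :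
    ∑ j ∈ (lay P s st).R, (lay P s st).bR j
      ≤ wsum P s st + 2 * cN P * cost P s st := by
  simp only [lay]
  have hsub : U1' P s st \ st.U0
      ⊆ (U0' P s st \ st.U0) ∪ (U1' P s st \ st.U1) ∪ (st.U1 \ U0' P s st) := by
    intro j; simp only [mem_sdiff, mem_union]; tauto
  have hpos : ∀ j, 0 ≤ bR P s st j := fun j => by
    unfold bR; split_ifs
    · exact zero_le_one.trans (one_le_ω' hst j)
    · exact zero_le_one
  refine (sum_le_sum_of_subset_of_nonneg hsub fun j _ _ => hpos j).trans ?_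
  refine (le_trans (sum_union_le hpos) (add_le_add (sum_union_le hpos) le_rfl)).trans ?_
  have h1 : ∑ j ∈ U0' P s st \ st.U0, bR P s st j ≤ cN P * cost P s st := by
    refine (sum_le_sum fun j hj => ?_).trans (new_mass_le hP.toOk hst)
    obtain ⟨a, b⟩ := mem_sdiff.1 hj
    refine le_trans ?_ (le_max_right _ _)
    unfold bR; split_ifs
    · rw [ω', if_neg b, if_pos a]
    · rfl
  have h2 : ∑ j ∈ U1' P s st \ st.U1, bR P s st j ≤ cN P * cost P s st := by
    refine le_trans (le_of_eq ?_) (card_new1_le hP.toOk hst)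
    rw [card_eq_sum_ones, Nat.cast_sum, Nat.cast_one]
    exact sum_congr rfl fun j hj => by rw [bR, if_neg (mem_sdiff.1 hj).2]
  have h3 : ∑ j ∈ st.U1 \ U0' P s st, bR P s st j = wsum P s st :=
    sum_congr rfl fun j hj => by rw [bR, if_pos (mem_sdiff.1 hj).1]
  linarith
where
  sum_union_le {A B : Finset γ} {f : γ → ℝ} (hf : ∀ j, 0 ≤ f j) :
      ∑ j ∈ A ∪ B, f j ≤ ∑ j ∈ A, f j + ∑ j ∈ B, f j := by
    rw [← sum_union_inter]
    exact le_add_of_nonneg_right (sum_nonneg fun j _ => hf j)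

lemma unit_nn (hP : P.Good) (hst : st.Ok s) {w : ℝ} (hw : 0 ≤ w) : (unit P s st w).Nn := by
  have := hP.K1; have := hP.C01; have := hst.B0; have := hP.θ0
  have := cN_pos hP; have := wsum_nonneg (P := P) hst
  constructor <;> simp only [unit, cU, eps, ku, nZ] <;> first | assumption | positivity

lemma ku_bounds (hP : P.Good) :
    P.K ≤ ku P ∧ 24 * P.C0 + 1 ≤ ku P ∧ nZ P ^ 2 ≤ ku P ∧ nZ P ≤ nZ P ^ 2 := by
  have := hP.K1; have := hP.C01
  unfold ku nZ
  refine ⟨?_, ?_, ?_, ?_⟩ <;> nlinarith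

/-- Bounds of light rounding are elementary. -/
lemma light_le (hP : P.Good) (hst : st.Ok s) {Q : ℝ} (h0 : 0 ≤ Q) (hQ : Q ≤ len P s st)
    (hQ1 : Q = 0 ∨ 2 ≤ len P s st) {τ : ℝ} (hτ0 : 0 ≤ τ)
    (hτ : τ * (1 + Q) * P.C0 ≤ 2 * (lay P s st).B) :
    (lightBd (lay P s st) P.K τ Q).Le (unit P s st (1 / 400 * (lay P s st).B)) := by
  obtain ⟨k1, k2, k3, k4⟩ := ku_bounds hP
  have hK := hP.K1; have hC := hP.C01; have hN := cN_pos hP
  have hB := hst.B0; have hw := wsum_nonneg (P := P) hst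
  have hL : (1 : ℝ) ≤ len P s st := Nat.one_le_cast.2 len_pos
  have hc : (0 : ℝ) ≤ cost P s st := Nat.cast_nonneg _
  have hb : (lay P s st).B = 7 / 5 * st.B := rfl
  have hτQ : τ * (1 + Q) ≤ 2 * (lay P s st).B := by
    refine le_trans ?_ hτ
    exact le_mul_of_one_le_right (by positivity) hC
  refine ⟨?_, ?_, ?_, ?_, ?_, ?_, ?_⟩ <;> simp only [lightBd, unit]
  · nlinarith
  · rcases hQ1 with rfl | h2
    · rw [mul_zero]; positivity
    · have : ((len P s st - 1 : ℕ) : ℝ) = len P s st - 1 := by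
        rw [Nat.cast_sub len_pos, Nat.cast_one]
      rw [this]
      have : (2 : ℝ) ≤ len P s st := by exact_mod_cast h2
      nlinarith
  · rw [cU]
    have : P.K * ((lay P s st).B + τ * (1 + Q)) ≤ P.K * (5 * st.B) := by gcongr; linarith
    nlinarith [mul_le_mul_of_nonneg_right k1 hB.le,
      mul_le_mul_of_nonneg_left hN (mul_nonneg (by linarith : (0:ℝ) ≤ ku P) hB.le)]
  · have h1 := sum_bR hP hst
    have h2 := bmax_len (P := P) hst
    have h3 : (lay P s st).bmax * (1 + Q) ≤ (lay P s st).bmax * (1 + len P s st) :=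
      mul_le_mul_of_nonneg_left (by linarith) (lay_ok hP hst).bmax_pos.le
    set Z := st.B + cost P s st + len P s st * wsum P s st
    have hZw : wsum P s st ≤ Z := by
      have : wsum P s st ≤ len P s st * wsum P s st := le_mul_of_one_le_left hw hL
      linarith
    have hZ : ∑ j ∈ (lay P s st).R, (lay P s st).bR j + (lay P s st).bmax * (1 + Q)
        ≤ 7 * cN P * Z := by
      have : cN P * cost P s st ≤ cN P * Z := by
        refine mul_le_mul_of_nonneg_left ?_ (by linarith)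
        have : 0 ≤ len P s st * wsum P s st := by positivity
        linarith
      nlinarith [mul_le_mul_of_nonneg_right hN (hw.trans hZw)]
    rw [cU]
    nlinarith [mul_le_mul_of_nonneg_left hZ (le_trans zero_le_one hK),
      mul_le_mul_of_nonneg_right k1 (mul_nonneg (by linarith : (0:ℝ) ≤ cN P) (hw.trans hZw)),
      mul_nonneg (by linarith : (0:ℝ) ≤ ku P) (hw.trans hZw)]
  · obtain ⟨a1, _⟩ := amax_sq (P := P) (s := s) (st := st) hP
    have hθ := hP.θ0
    have hsum : ∑ j ∈ (lay P s st).A, (lay P s st).wA j ≤ P.θ := sum_rpow_A hP (by norm_num)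
    have h0' : 0 ≤ ∑ j ∈ (lay P s st).A, (lay P s st).wA j :=
      sum_nonneg fun j hj => ((lay_ok hP hst).wA_mem j hj).1
    have h3 : (lay P s st).amax ^ 2 * (1 + Q) ≤ 4 / 2 ^ P.b :=
      (mul_le_mul_of_nonneg_left (by linarith) (sq_nonneg _)).trans a1
    have h4 : (∑ j ∈ (lay P s st).A, (lay P s st).wA j) ^ 2 ≤ P.θ := by nlinarith [hP.θ1]
    have h5 := mul_le_mul k1 (add_le_add h4 h3) (by positivity) (by linarith)
    have h6 : 0 ≤ ku P * (P.θ + 4 / 2 ^ P.b) := by
      have : 0 ≤ ku P := by linarith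
      positivity
    rw [eps]
    linarith
  · have h1 : P.K * 800 * (τ * (1 + Q)) ≤ 2 * (lay P s st).B := by
      refine le_trans ?_ hτ
      have : 0 ≤ τ * (1 + Q) := by positivity
      nlinarith [hP.big1]
    nlinarith
  · simp only [lay, one_mul, cU]
    have h1 : 1 + Q ≤ 2 * (cost P s st + 1) := by
      have : (len P s st : ℝ) ≤ cost P s st + 1 := by exact_mod_cast len_le_cost
      linarith
    nlinarith [mul_le_mul k1 h1 (by linarith) (by linarith : (0:ℝ) ≤ ku P),
      mul_le_mul_of_nonneg_left hN (mul_nonneg (by linarith : (0:ℝ) ≤ ku P)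
        (by linarith : (0:ℝ) ≤ cost P s st + 1))]

/-- Bounds of greedy rounding are elementary. -/
lemma heavy_le (hP : P.Good) (hst : st.Ok s) (h2L : 2 ≤ len P s st) :
    (heavyBd (lay P s st) (P.C0 * len P s st) ((lay P s st).B / P.C0)).Le
      (unit P s st (1 / 400 * (lay P s st).B)) := by
  obtain ⟨k1, k2, k3, k4⟩ := ku_bounds hP
  have hK := hP.K1; have hC := hP.C01; have hN := cN_pos hP
  have hB := hst.B0; have hw := wsum_nonneg (P := P) hst
  have hL : (2 : ℝ) ≤ len P s st := by exact_mod_cast h2L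
  have hc : (0 : ℝ) ≤ cost P s st := Nat.cast_nonneg _
  have hb : (lay P s st).B = 7 / 5 * st.B := rfl
  have hk : 0 ≤ ku P := by linarith
  refine ⟨?_, ?_, ?_, ?_, ?_, ?_, ?_⟩ <;> simp only [heavyBd, unit]
  · positivity
  · have : ((len P s st - 1 : ℕ) : ℝ) = len P s st - 1 := by
      rw [Nat.cast_sub len_pos, Nat.cast_one]
    rw [this]
    nlinarith
  · rw [hb, cU]; nlinarith [mul_nonneg (mul_nonneg hk hB.le) (by linarith : (0:ℝ) ≤ cN P)]
  · have h2 := bmax_len (P := P) hst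
    have h3 := (lay_ok hP hst).bmax_pos.le
    set Z := st.B + cost P s st + len P s st * wsum P s st
    have hZ : 0 ≤ Z := by positivity
    have : 24 * (P.C0 * len P s st) * (lay P s st).bmax ≤ ku P * (4 * Z) := by
      calc 24 * (P.C0 * len P s st) * (lay P s st).bmax
          = 24 * P.C0 * ((lay P s st).bmax * len P s st) := by ring
        _ ≤ ku P * (4 * Z) :=
          mul_le_mul (by linarith) (le_trans (by nlinarith) h2) (by positivity) hk
    rw [cU]
    nlinarith [mul_nonneg (mul_nonneg hk hZ) (by linarith : (0:ℝ) ≤ cN P), mul_nonneg hk hZ]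
  · obtain ⟨a1, _⟩ := amax_sq (P := P) (s := s) (st := st) hP
    have h1 : (lay P s st).amax ^ 2 * len P s st ≤ 4 / 2 ^ P.b := by
      refine le_trans ?_ a1
      nlinarith [sq_nonneg (lay P s st).amax]
    have h3 : 24 * (P.C0 * len P s st) * (lay P s st).amax ^ 2 ≤ ku P * (4 / 2 ^ P.b) := by
      calc 24 * (P.C0 * len P s st) * (lay P s st).amax ^ 2
          = 24 * P.C0 * ((lay P s st).amax ^ 2 * len P s st) := by ring
        _ ≤ _ := mul_le_mul (by linarith) h1 (by positivity) hk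
    have := mul_nonneg hk hP.θ0.le
    have : 0 ≤ ku P * (4 / 2 ^ P.b) := mul_nonneg hk (by positivity)
    rw [eps]
    linarith
  · refine Real.sqrt_le_iff.2 ⟨mul_nonneg (by norm_num) (lay_ok hP hst).B_pos.le, ?_⟩
    have hC2 := hP.big2
    rw [mul_pow, ← mul_div_assoc, div_le_iff₀ (by positivity)]
    nlinarith [mul_le_mul_of_nonneg_left hC2 (sq_nonneg (lay P s st).B)]
  · simp only [lay, one_mul, cU]
    have h1 : (len P s st : ℝ) ≤ cost P s st + 1 := by exact_mod_cast len_le_cost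
    have h3 : 24 * (P.C0 * len P s st) + 1 ≤ ku P * (cost P s st + 1) := by
      refine le_trans ?_ (mul_le_mul k2 h1 (by linarith) hk)
      nlinarith
    nlinarith [mul_nonneg (mul_nonneg hk (by linarith : (0:ℝ) ≤ cost P s st + 1))
      (by linarith : (0:ℝ) ≤ cN P)]

/-- A few items. -/
lemma few_dev (hP : P.Good) (hst : st.Ok s) (hv : ∀ i, ∑ j, v i j ^ 2 ≤ 1) {Z : Finset ι}
    (hZ : (Z.card : ℝ) ≤ nZ P) (hwt : ∑ i ∈ Z, (lay P s st).wt v i ≤ (lay P s st).B) :
    Dev v (lay P s st) (fun i => if i ∈ Z then (1 : ℝ) else 0)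
      (unit P s st (lay P s st).B) := by
  obtain ⟨k1, k2, k3, k4⟩ := ku_bounds hP
  have hY := lay_ok hP hst
  have hN := cN_pos hP
  have hk : 0 ≤ ku P := (sq_nonneg _).trans k3
  set c : ι → ℝ := fun i => if i ∈ Z then (1 : ℝ) else 0
  have hc : ∀ g : ι → ℝ, ∑ i, c i * g i = ∑ i ∈ Z, g i := fun g => by
    simp [c, ite_mul, sum_ite_mem]
  have hsq : ∀ j, vs v c j ^ 2 ≤ nZ P * ∑ i ∈ Z, v i j ^ 2 := fun j => by
    rw [vs, hc]
    exact sq_sum_le_card_mul_sum_sq.trans
      (mul_le_mul_of_nonneg_right hZ (sum_nonneg fun i _ => sq_nonneg _))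
  have h0 : 0 ≤ nZ P := (Nat.cast_nonneg _).trans hZ
  have htot : ∑ j, vs v c j ^ 2 ≤ nZ P ^ 2 := by
    refine (sum_le_sum fun j _ => hsq j).trans ?_
    rw [← mul_sum, sum_comm, sq]
    refine mul_le_mul_of_nonneg_left ((sum_le_sum fun i _ => hv i).trans ?_) h0
    simpa using hZ
  have hB := hY.B_pos
  have hB0 := hst.B0
  have hw0 := wsum_nonneg (P := P) hst
  refine ⟨fun t => ?_, ?_, ?_, ?_, ?_, ?_⟩ <;> simp only [unit]
  · rcases ((lay P s st).pre t).eq_empty_or_nonempty with he | he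
    · rw [he, sum_empty, card_empty]; simp only [Nat.cast_zero, mul_zero, zero_add]
      have := hP.K1; have := hP.C01
      positivity
    · refine ((sum_le_univ_sum_of_nonneg fun j => sq_nonneg _).trans htot).trans ?_
      have : (1 : ℝ) ≤ ((lay P s st).pre t).card := by exact_mod_cast card_pos.2 he
      have := hP.K1; have := hP.C01
      have : 0 ≤ 2 * (P.K + 24 * P.C0) * ((len P s st - 1 : ℕ) : ℝ) := by positivity
      nlinarith [sq_nonneg (nZ P)]
  · refine le_trans (sum_le_sum fun j hj => mul_le_mul_of_nonneg_left (hsq j) (hY.wO_nn j hj)) ?_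
    have e : ∑ j ∈ (lay P s st).O, (lay P s st).wO j * (nZ P * ∑ i ∈ Z, v i j ^ 2)
        = nZ P * ∑ i ∈ Z, (lay P s st).wt v i := by
      simp only [Lay.wt, mul_sum]
      rw [sum_comm]
      exact sum_congr rfl fun i _ => sum_congr rfl fun j _ => by ring
    rw [e]
    have : nZ P * ∑ i ∈ Z, (lay P s st).wt v i ≤ ku P * (7 / 5 * st.B) :=
      mul_le_mul (k4.trans k3) hwt (sum_nonneg fun i _ => wt_nonneg v hY i) hk
    rw [cU]
    nlinarith [mul_nonneg (mul_nonneg hk hB0.le) (by linarith : (0:ℝ) ≤ cN P), mul_nonneg hk hB0.le]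
  · have h1 : ∑ j ∈ (lay P s st).R, (lay P s st).bR j * vs v c j ^ 2
        ≤ (lay P s st).bmax * nZ P ^ 2 := by
      refine le_trans (sum_le_sum fun j hj =>
        mul_le_mul_of_nonneg_right (hY.bR_mem j hj).2 (sq_nonneg _)) ?_
      rw [← mul_sum]
      exact mul_le_mul_of_nonneg_left
        ((sum_le_univ_sum_of_nonneg fun j => sq_nonneg _).trans htot) hY.bmax_pos.le
    refine h1.trans ?_
    have h2 := bmax_len (P := P) hst
    have hL : (0 : ℝ) ≤ len P s st := Nat.cast_nonneg _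
    set Q := st.B + cost P s st + len P s st * wsum P s st
    have hQ : 0 ≤ Q := by positivity
    have h3 : (lay P s st).bmax ≤ 4 * Q := le_trans (le_mul_of_one_le_right hY.bmax_pos.le
      (by linarith)) h2
    have := mul_le_mul h3 k3 (sq_nonneg _) (by linarith)
    rw [cU]
    nlinarith [mul_nonneg (mul_nonneg hk hQ) (by linarith : (0:ℝ) ≤ cN P), mul_nonneg hk hQ]
  · obtain ⟨_, a2⟩ := amax_sq (P := P) (s := s) (st := st) hP
    have hterm : ∀ j k, 0 ≤ (lay P s st).amax ^ 2 * (nZ P * ∑ i ∈ Z, (v i j * v i k) ^ 2) :=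
      fun j k => mul_nonneg (sq_nonneg _) (mul_nonneg h0 (sum_nonneg fun i _ => sq_nonneg _))
    have h1 : ∑ j ∈ (lay P s st).A, ∑ k ∈ (lay P s st).A, (lay P s st).wA j * (lay P s st).wA k *
        (∑ i, c i * (v i j * v i k)) ^ 2 ≤ (lay P s st).amax ^ 2 * nZ P ^ 2 := by
      calc ∑ j ∈ (lay P s st).A, ∑ k ∈ (lay P s st).A, (lay P s st).wA j * (lay P s st).wA k *
            (∑ i, c i * (v i j * v i k)) ^ 2
          ≤ ∑ j, ∑ k, (lay P s st).amax ^ 2 * (nZ P * ∑ i ∈ Z, (v i j * v i k) ^ 2) := by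
            refine le_trans (sum_le_sum fun j hj => sum_le_sum fun k hk => ?_)
              ((sum_le_sum fun j _ => sum_le_univ_sum_of_nonneg fun k => hterm j k).trans
                (sum_le_univ_sum_of_nonneg fun j => sum_nonneg fun k _ => hterm j k))
            rw [hc, sq (lay P s st).amax]
            exact mul_le_mul (mul_le_mul (hY.wA_mem j hj).2 (hY.wA_mem k hk).2 (hY.wA_mem k hk).1
              hY.amax_pos.le) (sq_sum_le_card_mul_sum_sq.trans
                (mul_le_mul_of_nonneg_right hZ (sum_nonneg fun i _ => sq_nonneg _)))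
              (sq_nonneg _) (mul_nonneg hY.amax_pos.le hY.amax_pos.le)
        _ ≤ _ := by
            simp only [← mul_sum]
            refine mul_le_mul_of_nonneg_left ?_ (sq_nonneg _)
            rw [sq (nZ P)]
            refine mul_le_mul_of_nonneg_left ?_ h0
            rw [sum_congr rfl (fun j _ => sum_comm), sum_comm]
            refine (sum_le_sum fun i _ => (?_ : _ ≤ (1 : ℝ))).trans ?_
            · simp only [mul_pow, ← mul_sum, ← sum_mul]
              exact mul_le_one₀ (hv i) (sum_nonneg fun _ _ => sq_nonneg _) (hv i)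
            · simpa using hZ
    refine h1.trans ?_
    have := mul_le_mul a2 k3 (sq_nonneg _) (by positivity)
    have := mul_nonneg hk hP.θ0.le
    have : 0 ≤ ku P * (4 / 2 ^ P.b) := mul_nonneg hk (by positivity)
    rw [eps]
    linarith
  · rw [hc, abs_of_nonneg (sum_nonneg fun i _ => wt_nonneg v hY i)]
    exact hwt
  · rw [hc, abs_of_nonneg (sum_nonneg fun i _ => (wn_le hv hY i).1)]
    refine (sum_le_sum fun i _ => (wn_le hv hY i).2).trans ?_
    simp only [lay, sum_const, nsmul_eq_mul, mul_one]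
    have hc0 : (0 : ℝ) ≤ cost P s st := Nat.cast_nonneg _
    rw [cU]
    nlinarith [mul_nonneg (mul_nonneg hk (by linarith : (0:ℝ) ≤ cost P s st + 1))
      (by linarith : (0:ℝ) ≤ cN P), mul_nonneg hk hc0]

end Vale.Agent.P262.Exact
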