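import Mathlib.Data.List.TakeDrop
import Mathlib.Algebra.Order.Chebyshev
import Mathlib.Algebra.Order.Floor.Semiring
import Mathlib.Data.Real.Basic
import Mathlib.Data.Fintype.Basic
import Mathlib.Tactic.Linarith
import Mathlib.Tactic.FieldSimp
import Mathlib.Tactic.Ring

/-! Greedy spreading of few items. -/

namespace Vale.Agent.P262.Exact

open Finset

set_option linter.unusedSectionVars false

variable {ι β : Type} [Fintype ι] [DecidableEq ι] [Fintype β]

lemma greedy_list (η : ι → β → ℝ) : ∀ (n : ℕ) (S : Finset ι) (p : β → ℝ), S.card = n →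
    (∀ e, ∑ i ∈ S, η i e = -p e) → ∃ l : List ι, l.Nodup ∧ l.toFinset = S ∧
      ∀ k, ∑ e, (p e + ((l.take k).map fun i => η i e).sum) ^ 2
        ≤ ∑ e, p e ^ 2 + ∑ i ∈ S, ∑ e, η i e ^ 2 := by
  intro n
  induction n with
  | zero =>
    intro S p hc _
    refine ⟨[], List.nodup_nil, by simp [card_eq_zero.1 hc], fun k => ?_⟩
    simpa using sum_nonneg fun i (_ : i ∈ S) => sum_nonneg fun e _ => sq_nonneg (η i e)
  | succ n ih =>
    intro S p hc hsum
    have hne : S.Nonempty := card_pos.1 (by omega)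
    have h0 : ∑ i ∈ S, ∑ e, p e * η i e ≤ ∑ _i ∈ S, (0 : ℝ) := by
      rw [sum_comm, sum_const_zero]
      simp only [← mul_sum, hsum, mul_neg, sum_neg_distrib, neg_nonpos]
      exact sum_nonneg fun e _ => mul_self_nonneg _
    obtain ⟨i, hi, hle⟩ := exists_le_of_sum_le hne h0
    have hq : ∑ e, (p e + η i e) ^ 2 ≤ ∑ e, p e ^ 2 + ∑ e, η i e ^ 2 := by
      have : ∑ e, (p e + η i e) ^ 2
          = ∑ e, p e ^ 2 + ∑ e, η i e ^ 2 + 2 * ∑ e, p e * η i e := by
        rw [mul_sum, ← sum_add_distrib, ← sum_add_distrib]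
        exact sum_congr rfl fun e _ => by ring
      linarith
    obtain ⟨l, hnd, hl, hb⟩ := ih (S.erase i) (fun e => p e + η i e)
      (by rw [card_erase_of_mem hi]; omega)
      (fun e => by rw [sum_erase_eq_sub hi, hsum]; ring)
    have hnot : i ∉ l := fun h => by
      have := List.mem_toFinset.2 h
      rw [hl] at this
      simp at this
    refine ⟨i :: l, List.nodup_cons.2 ⟨hnot, hnd⟩, by rw [List.toFinset_cons, hl, insert_erase hi],
      fun k => ?_⟩
    have hS := add_sum_erase S (fun i => ∑ e, η i e ^ 2) hi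
    cases k with
    | zero =>
      simpa using sum_nonneg fun i (_ : i ∈ S) => sum_nonneg fun e _ => sq_nonneg (η i e)
    | succ k =>
      have := hb k
      simp only [List.take_succ_cons, List.map_cons, List.sum_cons, ← add_assoc]
      linarith

/-- Few items can be spread over `M` slots with small prefix deviations. -/
lemma greedy_partition (ξ : ι → β → ℝ) (X : Finset ι) {M : ℕ} (hM : 0 < M) :
    ∃ f : ι → Fin M, ∀ k ≤ M, ∑ e, (∑ i ∈ X with (f i : ℕ) < k, ξ i e
        - (k : ℝ) / M * ∑ i ∈ X, ξ i e) ^ 2 ≤ 4 * ∑ i ∈ X, ∑ e, ξ i e ^ 2 := by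
  rcases X.eq_empty_or_nonempty with rfl | hne
  · exact ⟨fun _ => ⟨0, hM⟩, fun k _ => by simp⟩
  set n := X.card with hn
  have hn0 : 0 < n := card_pos.2 hne
  let μ : β → ℝ := fun e => (∑ i ∈ X, ξ i e) / n
  have hμ : ∀ e, (n : ℝ) * μ e = ∑ i ∈ X, ξ i e := fun e => by
    simp only [μ]; field_simp
  obtain ⟨l, hnd, hl, hb⟩ := greedy_list (fun i e => ξ i e - μ e) n X 0 hn.symm
    (fun e => by simp [sum_sub_distrib, ← hn, hμ])
  have hlen : l.length = n := by rw [← List.toFinset_card_of_nodup hnd, hl]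
  refine ⟨fun i => ⟨min (l.idxOf i * M / n) (M - 1), by omega⟩, fun k hk => ?_⟩
  -- the set below `k` is a prefix of `l`
  set c := (k * n + M - 1) / M with hc
  have hc1 : k * n ≤ c * M := by
    have := Nat.lt_div_mul_add hM (a := k * n + M - 1)
    rw [← hc] at this
    omega
  have hc2 : c * M < k * n + M := by
    have := Nat.div_mul_le_self (k * n + M - 1) M
    rw [← hc] at this
    omega
  have hset : X.filter (fun i => min (l.idxOf i * M / n) (M - 1) < k) = (l.take c).toFinset := by
    ext i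
    simp only [mem_filter, List.mem_toFinset]
    constructor
    · rintro ⟨hiX, hlt⟩
      have hil : i ∈ l := List.mem_toFinset.1 (hl.symm ▸ hiX)
      rw [List.mem_take_iff_getElem]
      have hr : l.idxOf i < l.length := List.idxOf_lt_length_of_mem hil
      refine ⟨l.idxOf i, ?_, List.getElem_idxOf hr⟩
      rw [lt_min_iff]
      refine ⟨?_, hr⟩
      have hq : l.idxOf i * M / n < M := by
        rw [Nat.div_lt_iff_lt_mul hn0]
        rw [hlen] at hr
        nlinarith
      rw [min_eq_left (by omega), Nat.div_lt_iff_lt_mul hn0] at hlt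
      have := hlt.trans_le hc1
      exact Nat.lt_of_mul_lt_mul_right this
    · intro hi
      have hil : i ∈ l := List.mem_of_mem_take hi
      refine ⟨hl ▸ List.mem_toFinset.2 hil, ?_⟩
      rw [List.mem_take_iff_getElem] at hi
      obtain ⟨r, hr, hri⟩ := hi
      rw [lt_min_iff] at hr
      have : l.idxOf i = r := by
        rw [← hri]; exact hnd.idxOf_getElem r hr.2
      rw [this]
      refine lt_of_le_of_lt (min_le_left _ _) ?_
      rw [Nat.div_lt_iff_lt_mul hn0]
      have : (r + 1) * M ≤ c * M := Nat.mul_le_mul_right M hr.1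
      rw [add_one_mul] at this
      omega
  have e : ∀ e, ∑ i ∈ X with min (l.idxOf i * M / n) (M - 1) < k, ξ i e - (k : ℝ) / M * ∑ i ∈ X, ξ i e
      = ((l.take c).map fun i => ξ i e - μ e).sum + (((l.take c).length : ℝ) - (k : ℝ) / M * n) * μ e := by
    intro e
    rw [hset, List.sum_toFinset _ (hnd.sublist (List.take_sublist c l)), ← hμ e]
    have : ((l.take c).map fun i => ξ i e - μ e).sum
        = ((l.take c).map fun i => ξ i e).sum - ((l.take c).length : ℝ) * μ e := by
      induction l.take c with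
      | nil => simp
      | cons a t ih => simp only [List.map_cons, List.sum_cons, List.length_cons, ih]; push_cast; ring
    rw [this]; ring
  have hlc : |((l.take c).length : ℝ) - (k : ℝ) / M * n| ≤ 1 := by
    have hM' : (0 : ℝ) < M := by exact_mod_cast hM
    have hlt : (l.take c).length = c := by
      rw [List.length_take, hlen, min_eq_left]
      have hkn : k * n ≤ n * M := by rw [mul_comm n M]; exact Nat.mul_le_mul_right n hk
      have : c * M < (n + 1) * M := by
        rw [add_one_mul]; omega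
      have := Nat.lt_of_mul_lt_mul_right this
      omega
    have h1 : (k : ℝ) * n ≤ c * M := by exact_mod_cast hc1
    have h2 : (c : ℝ) * M ≤ k * n + M := by exact_mod_cast hc2.le
    have e2 : (c : ℝ) - (k : ℝ) / M * n = ((c : ℝ) * M - k * n) / M := by field_simp
    rw [hlt, e2, abs_div, abs_of_pos hM', div_le_one hM', abs_of_nonneg (by linarith)]
    linarith
  simp only [e]
  calc ∑ e, (((l.take c).map fun i => ξ i e - μ e).sum
        + (((l.take c).length : ℝ) - (k : ℝ) / M * n) * μ e) ^ 2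
      ≤ ∑ e, (2 * ((l.take c).map fun i => ξ i e - μ e).sum ^ 2 + 2 * μ e ^ 2) :=
        sum_le_sum fun e _ => by
          have h1 : (((l.take c).length : ℝ) - (k : ℝ) / M * n) ^ 2 ≤ 1 := (sq_le_one_iff_abs_le_one _).2 hlc
          nlinarith [sq_nonneg (((l.take c).map fun i => ξ i e - μ e).sum
            - (((l.take c).length : ℝ) - (k : ℝ) / M * n) * μ e),
            mul_le_mul_of_nonneg_right h1 (sq_nonneg (μ e))]
    _ ≤ 4 * ∑ i ∈ X, ∑ e, ξ i e ^ 2 := by
      have h1 := hb c
      simp only [Pi.zero_apply, zero_add, ne_eq, OfNat.ofNat_ne_zero, not_false_eq_true, zero_pow,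
        sum_const_zero] at h1
      have h2 : ∑ i ∈ X, ∑ e, (ξ i e - μ e) ^ 2
          = ∑ i ∈ X, ∑ e, ξ i e ^ 2 - n * ∑ e, μ e ^ 2 := by
        rw [sum_comm, sum_comm (s := X), mul_sum, ← sum_sub_distrib]
        refine sum_congr rfl fun e _ => ?_
        simp_rw [sub_sq, sum_add_distrib, sum_sub_distrib, sum_const, nsmul_eq_mul, ← hn,
          mul_assoc, ← mul_sum, ← sum_mul, ← hμ]
        ring
      have h0 : 0 ≤ ∑ i ∈ X, ∑ e, (ξ i e - μ e) ^ 2 :=
        sum_nonneg fun i _ => sum_nonneg fun e _ => sq_nonneg _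
      have h4 : 1 * ∑ e, μ e ^ 2 ≤ (n : ℝ) * ∑ e, μ e ^ 2 :=
        mul_le_mul_of_nonneg_right (by exact_mod_cast hn0) (sum_nonneg fun e _ => sq_nonneg _)
      have h5 : 0 ≤ ∑ e, μ e ^ 2 := sum_nonneg fun e _ => sq_nonneg _
      rw [sum_add_distrib, ← mul_sum, ← mul_sum]
      linarith

end Vale.Agent.P262.Exact
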