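import Mathlib.Analysis.SpecialFunctions.Log.Base
import Mathlib.Analysis.SpecialFunctions.Pow.Real
import Mathlib.Algebra.BigOperators.Fin

/-! Levels of the spectrum: scaled diagonal, sparse levels and the distance between them. -/

namespace Vale.Agent.P262.Exact

open Finset

set_option linter.unusedSectionVars false

variable {γ : Type} [Fintype γ] [DecidableEq γ]

/-- Scaled diagonal at level `l`. -/
noncomputable def Dg (s : γ → ℝ) (l : ℕ) (j : γ) : ℝ := s j / 2 ^ l

/-- Coordinates below one at level `l`. -/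
noncomputable def low (s : γ → ℝ) (l : ℕ) : Finset γ := univ.filter fun j => s j < 2 ^ l

/-- Coordinates at least one at level `l`. -/
noncomputable def high (s : γ → ℝ) (l : ℕ) : Finset γ := univ.filter fun j => 2 ^ l ≤ s j

/-- Weight of a coordinate in the density. -/
noncomputable def lam (s : γ → ℝ) (l : ℕ) (j : γ) : ℝ := Dg s l j ^ (-(1 / 8) : ℝ)

/-- Density of a level. -/
noncomputable def dens (s : γ → ℝ) (l : ℕ) : ℝ := ∑ j ∈ high s l, lam s l j

/-- Potential for counting dense levels. -/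
noncomputable def hpot (s : γ → ℝ) (l : ℕ) (j : γ) : ℝ := if 2 ^ l ≤ s j then lam s l j else 2

/-- `log₂` of the scaled diagonal. -/
noncomputable def yl (s : γ → ℝ) (l : ℕ) (j : γ) : ℝ := Real.logb 2 (Dg s l j)

variable {s : γ → ℝ}

lemma mem_low {l : ℕ} {j : γ} : j ∈ low s l ↔ s j < 2 ^ l := by simp [low]

lemma mem_high {l : ℕ} {j : γ} : j ∈ high s l ↔ 2 ^ l ≤ s j := by simp [high]

lemma not_mem_low {l : ℕ} {j : γ} : j ∉ low s l ↔ j ∈ high s l := by simp [low, high]

lemma low_mono {l k : ℕ} (h : l ≤ k) : low s l ⊆ low s k := fun j hj =>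
  mem_low.2 ((mem_low.1 hj).trans_le (pow_le_pow_right₀ one_le_two h))

lemma high_anti {l k : ℕ} (h : l ≤ k) : high s k ⊆ high s l := fun j hj =>
  mem_high.2 ((pow_le_pow_right₀ one_le_two h).trans (mem_high.1 hj))

lemma one_le_Dg {l : ℕ} {j : γ} (h : j ∈ high s l) : 1 ≤ Dg s l j := by
  rw [Dg, le_div_iff₀ (by positivity)]; simpa using mem_high.1 h

lemma Dg_pos {l : ℕ} {j : γ} (h : j ∈ high s l) : 0 < Dg s l j :=
  zero_lt_one.trans_le (one_le_Dg h)

lemma Dg_add (l n : ℕ) (j : γ) : Dg s l j = 2 ^ n * Dg s (l + n) j := by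
  simp only [Dg, pow_add]; field_simp

lemma Dg_of_le {l k : ℕ} (h : l ≤ k) (j : γ) : Dg s l j = 2 ^ (k - l) * Dg s k j := by
  obtain ⟨n, rfl⟩ := Nat.exists_eq_add_of_le h
  rw [Nat.add_sub_cancel_left]; exact Dg_add l n j

lemma lam_pos {l : ℕ} {j : γ} (h : j ∈ high s l) : 0 < lam s l j :=
  Real.rpow_pos_of_pos (Dg_pos h) _

lemma lam_le_one {l : ℕ} {j : γ} (h : j ∈ high s l) : lam s l j ≤ 1 :=
  Real.rpow_le_one_of_one_le_of_nonpos (one_le_Dg h) (by norm_num)

lemma two_rpow_eighth : (14 / 13 : ℝ) ≤ (2 : ℝ) ^ ((1 / 8) : ℝ) := by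
  have h : (14 / 13 : ℝ) = ((14 / 13 : ℝ) ^ (8 : ℕ)) ^ ((1 / 8) : ℝ) := by
    rw [← Real.rpow_natCast, ← Real.rpow_mul (by norm_num)]; norm_num
  rw [h]
  exact Real.rpow_le_rpow (by positivity) (by norm_num) (by norm_num)

lemma lam_succ {l : ℕ} {j : γ} (h : j ∈ high s (l + 1)) :
    lam s (l + 1) j = (2 : ℝ) ^ ((1 / 8) : ℝ) * lam s l j := by
  have h0 := Dg_pos h
  rw [lam, lam, Dg_add l 1 j, pow_one, Real.mul_rpow zero_le_two h0.le, ← mul_assoc,
    ← Real.rpow_add zero_lt_two]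
  norm_num

lemma hpot_step (l : ℕ) (j : γ) :
    (if 2 ^ l ≤ s j then lam s l j else 0) ≤ 13 * (hpot s (l + 1) j - hpot s l j) := by
  unfold hpot
  by_cases h : 2 ^ (l + 1) ≤ s j
  · have h' : 2 ^ l ≤ s j := (pow_le_pow_right₀ one_le_two (Nat.le_succ l)).trans h
    rw [if_pos h', if_pos h, if_pos h', lam_succ (mem_high.2 h)]
    nlinarith [two_rpow_eighth, lam_pos (mem_high.2 h')]
  · rw [if_neg h]
    by_cases h' : 2 ^ l ≤ s j
    · rw [if_pos h', if_pos h']
      linarith [lam_le_one (mem_high.2 h')]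
    · rw [if_neg h', if_neg h']; norm_num

lemma dens_sum_le (l n : ℕ) :
    ∑ t ∈ range n, dens s (l + t) ≤ 13 * ∑ j, (hpot s (l + n) j - hpot s l j) := by
  induction n with
  | zero => simp
  | succ n ih =>
    rw [sum_range_succ]
    have h : dens s (l + n) ≤ 13 * ∑ j, (hpot s (l + n + 1) j - hpot s (l + n) j) := by
      rw [dens, high, sum_filter, mul_sum]
      exact sum_le_sum fun j _ => hpot_step _ j
    have e : ∑ j, (hpot s (l + (n + 1)) j - hpot s l j)
        = ∑ j, (hpot s (l + n + 1) j - hpot s (l + n) j)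
          + ∑ j, (hpot s (l + n) j - hpot s l j) := by
      rw [← sum_add_distrib]
      exact sum_congr rfl fun j _ => by rw [← add_assoc]; ring
    rw [e]; linarith

lemma dens_nonneg (l : ℕ) : 0 ≤ dens s l := sum_nonneg fun _ h => (lam_pos h).le

lemma exists_all_low (s : γ → ℝ) : ∃ t, low s t = univ := by
  choose f hf using fun j => pow_unbounded_of_one_lt (s j) (one_lt_two : (1 : ℝ) < 2)
  refine ⟨∑ j, f j, eq_univ_of_forall fun j => mem_low.2 ((hf j).trans_le ?_)⟩
  exact pow_le_pow_right₀ one_le_two (single_le_sum (fun j _ => Nat.zero_le (f j)) (mem_univ j))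

lemma exists_sparse (s : γ → ℝ) {θ : ℝ} (hθ : 0 < θ) (l : ℕ) :
    ∃ t, l < t ∧ dens s t < θ := by
  obtain ⟨t, ht⟩ := exists_all_low s
  refine ⟨max t (l + 1), by omega, ?_⟩
  have : high s (max t (l + 1)) = ∅ := by
    refine eq_empty_of_forall_notMem fun j hj => ?_
    exact not_mem_low.2 hj (low_mono (le_max_left _ _) (ht ▸ mem_univ j))
  rwa [dens, this, sum_empty]

open Classical in
/-- The next sparse level. -/
noncomputable def nxt (s : γ → ℝ) (θ : ℝ) (l : ℕ) : ℕ :=
  if h : ∃ t, l < t ∧ dens s t < θ then Nat.find h else l + 1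

lemma lt_nxt (θ : ℝ) (l : ℕ) : l < nxt s θ l := by
  classical
  unfold nxt
  split
  · next h => exact (Nat.find_spec h).1
  · omega

lemma dens_nxt {θ : ℝ} (hθ : 0 < θ) (l : ℕ) : dens s (nxt s θ l) < θ := by
  classical
  unfold nxt
  rw [dif_pos (exists_sparse s hθ l)]
  exact (Nat.find_spec (exists_sparse s hθ l)).2

lemma dens_before {θ : ℝ} (hθ : 0 < θ) {l t : ℕ} (h1 : l < t) (h2 : t < nxt s θ l) :
    θ ≤ dens s t := by
  classical
  unfold nxt at h2
  rw [dif_pos (exists_sparse s hθ l)] at h2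
  have := Nat.find_min (exists_sparse s hθ l) h2
  push Not at this
  exact this h1

/-- Number of coordinates that fell below one. -/
noncomputable def fall (s : γ → ℝ) (l l' : ℕ) : ℕ := (low s l' \ low s l).card

lemma hpot_diff {l l' : ℕ} (h : l ≤ l') :
    ∑ j, (hpot s l' j - hpot s l j) ≤ 2 * fall s l l' + dens s l' := by
  have hcard : (2 : ℝ) * fall s l l' = ∑ j, if j ∈ low s l' \ low s l then (2 : ℝ) else 0 := by
    rw [sum_ite_mem, univ_inter, sum_const, nsmul_eq_mul, fall]; ring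
  rw [hcard, dens, high, sum_filter, ← sum_add_distrib]
  refine sum_le_sum fun j _ => ?_
  unfold hpot
  by_cases h' : 2 ^ l' ≤ s j
  · have h0 : 2 ^ l ≤ s j := (pow_le_pow_right₀ one_le_two h).trans h'
    rw [if_pos h', if_pos h0, if_pos h', if_neg (fun hm => not_le.2 (mem_low.1 (mem_sdiff.1 hm).1) h')]
    linarith [lam_pos (mem_high.2 h0)]
  · by_cases h0 : 2 ^ l ≤ s j
    · rw [if_neg h', if_pos h0, if_neg h',
        if_pos (mem_sdiff.2 ⟨mem_low.2 (not_le.1 h'), fun hm => not_le.2 (mem_low.1 hm) h0⟩)]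
      linarith [lam_pos (mem_high.2 h0)]
    · rw [if_neg h', if_neg h0, if_neg h']
      split_ifs <;> norm_num

/-- Dense stretches are short. -/
lemma gap_le {θ : ℝ} (hθ : 0 < θ) (l : ℕ) :
    θ * ((nxt s θ l - l - 1 : ℕ) : ℝ) ≤ 26 * fall s l (nxt s θ l) + 13 * θ := by
  set l' := nxt s θ l with hl'
  have hlt : l < l' := lt_nxt θ l
  set n := l' - l - 1
  have h1 : θ * (n : ℝ) ≤ ∑ t ∈ range n, dens s (l + 1 + t) := by
    calc θ * (n : ℝ) = ∑ _t ∈ range n, θ := by simp; ring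
      _ ≤ _ := sum_le_sum fun t ht => by
            have ht' := mem_range.1 ht
            exact dens_before hθ (l := l) (by omega) (by omega)
  have e : l + 1 + n = l' := by omega
  have h2 := dens_sum_le (s := s) (l + 1) n
  rw [e] at h2
  have h3 := hpot_diff (s := s) (show l + 1 ≤ l' by omega)
  have h4 : (fall s (l + 1) l' : ℝ) ≤ fall s l l' := by
    exact_mod_cast card_le_card (sdiff_subset_sdiff (subset_refl _) (low_mono (Nat.le_succ l)))
  have h5 := dens_nxt (s := s) hθ l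
  rw [← hl'] at h5
  linarith

/-- A long step drops a coordinate, unless it starts at a dense level. -/
lemma fall_pos {θ : ℝ} (hθ : 0 < θ) {l : ℕ} (hl : l + 1 < nxt s θ l) :
    0 < fall s l (nxt s θ l) := by
  by_contra hk
  set l' := nxt s θ l with hl'
  have hk0 : low s l' \ low s l = ∅ := by
    rw [fall] at hk; exact card_eq_zero.1 (by omega)
  have hsame : high s (l + 1) = high s l' := by
    refine subset_antisymm (fun j hj => ?_) (high_anti hl.le)
    refine not_mem_low.1 fun hm => ?_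
    have : j ∈ low s l := by
      by_contra h'
      exact notMem_empty j (hk0 ▸ mem_sdiff.2 ⟨hm, h'⟩)
    exact not_mem_low.2 hj (low_mono (Nat.le_succ l) this)
  have h1 := dens_before (s := s) hθ (Nat.lt_succ_self l) hl
  have h2 := dens_nxt (s := s) hθ l
  rw [← hl'] at h2
  have h3 : dens s (l + 1) ≤ dens s l' := by
    rw [dens, dens, hsame]
    refine sum_le_sum fun j hj => ?_
    refine Real.rpow_le_rpow_of_nonpos (Dg_pos hj) ?_ (by norm_num)
    rw [Dg_of_le hl.le j]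
    exact le_mul_of_one_le_left (Dg_pos hj).le (one_le_pow₀ one_le_two)
  linarith

lemma sum_rpow_le {θ : ℝ} {l : ℕ} (h : dens s l ≤ θ) {p : ℝ} (hp : p ≤ -(1 / 8))
    {A : Finset γ} (hA : A ⊆ high s l) : ∑ j ∈ A, Dg s l j ^ p ≤ θ := by
  refine le_trans ?_ h
  refine (sum_le_sum fun j hj => ?_).trans
    (sum_le_sum_of_subset_of_nonneg hA fun j hj _ => (lam_pos hj).le)
  exact Real.rpow_le_rpow_of_exponent_le (one_le_Dg (hA hj)) hp

lemma card_le {θ : ℝ} {l : ℕ} (h : dens s l ≤ θ) {X : ℝ} {A : Finset γ} (hA : A ⊆ high s l)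
    (hX : ∀ j ∈ A, Dg s l j ≤ X) : (A.card : ℝ) ≤ θ * X ^ ((1 / 8) : ℝ) := by
  rcases A.eq_empty_or_nonempty with rfl | ⟨j0, hj0⟩
  · rcases le_or_gt 0 X with hX0 | hX0
    · simp only [card_empty, CharP.cast_eq_zero]
      exact mul_nonneg ((dens_nonneg l).trans h) (Real.rpow_nonneg hX0 _)
    · have : 0 ≤ X ^ ((1 / 8) : ℝ) := by
        rw [Real.rpow_def_of_neg hX0]
        refine mul_nonneg (Real.exp_nonneg _) (Real.cos_nonneg_of_neg_pi_div_two_le_of_le ?_ ?_)
        all_goals nlinarith [Real.pi_pos]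
      simpa using mul_nonneg ((dens_nonneg l).trans h) this
  · have X0 : 0 < X := (Dg_pos (hA hj0)).trans_le (hX j0 hj0)
    have h1 : (A.card : ℝ) * X ^ (-(1 / 8) : ℝ) ≤ θ := by
      refine le_trans ?_ (sum_rpow_le h le_rfl hA)
      rw [← nsmul_eq_mul, ← sum_const]
      exact sum_le_sum fun j hj =>
        Real.rpow_le_rpow_of_nonpos (Dg_pos (hA hj)) (hX j hj) (by norm_num)
    rw [Real.rpow_neg X0.le, mul_inv_le_iff₀ (Real.rpow_pos_of_pos X0 _)] at h1
    linarith

lemma sparse_big {θ : ℝ} {l : ℕ} (h : dens s l ≤ θ) {j : γ} (hj : j ∈ high s l) :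
    1 ≤ θ * Dg s l j ^ ((1 / 8) : ℝ) := by
  simpa using card_le h (A := {j}) (X := Dg s l j) (by simpa using hj) (by simp)

lemma yl_nonneg {l : ℕ} {j : γ} (h : j ∈ high s l) : 0 ≤ yl s l j :=
  Real.logb_nonneg one_lt_two (one_le_Dg h)

lemma yl_of_le {l k : ℕ} (h : l ≤ k) {j : γ} (hj : j ∈ high s k) :
    yl s l j = ((k - l : ℕ) : ℝ) + yl s k j := by
  rw [yl, yl, Dg_of_le h j, Real.logb_mul (by positivity) (Dg_pos hj).ne', Real.logb_pow,
    Real.logb_self_eq_one one_lt_two, mul_one]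

lemma yl_lt {l m : ℕ} {j : γ} (hj : j ∈ high s l) (hm : j ∈ low s (l + m)) : yl s l j < m := by
  rw [yl, Real.logb_lt_iff_lt_rpow one_lt_two (Dg_pos hj), Real.rpow_natCast, Dg,
    div_lt_iff₀ (by positivity), ← pow_add, add_comm m l]
  exact mem_low.1 hm

end Vale.Agent.P262.Exact
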