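import Vale.Agent.P262.Exact.Step
import Mathlib.Data.List.OfFn
import Mathlib.Algebra.BigOperators.Fin

/-! The Euclidean Steinitz constant is of order `√d`. -/

namespace Vale.Agent.P262.Exact

open Finset

set_option linter.unusedSectionVars false

/-- Constants satisfying all the relations exist for every rounding constant. -/
lemma exists_cst {K : ℝ} (hK : 1 ≤ K) : ∃ P : Cst, P.Good ∧ P.K = K := by
  set C0 : ℝ := 800 * K + 3840000 with hC0
  set cF : ℝ := 256 * (K + (C0 + 1) ^ 2) with hcF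
  set k : ℝ := K + 24 * C0 + (C0 + 1) ^ 2 + 1 with hk
  have hC : 1 ≤ C0 := by linarith
  have k0 : 0 < k := by positivity
  have f0 : 0 < cF := by positivity
  obtain ⟨b0, hb0⟩ := pow_unbounded_of_one_lt (12800000 * k) (one_lt_two : (1 : ℝ) < 2)
  set b := b0 + 8 with hb
  obtain ⟨c0, hc0⟩ := pow_unbounded_of_one_lt (4096 * (K + 24 * C0)) (one_lt_two : (1 : ℝ) < 2)
  set c := b + c0 with hc
  set D : ℝ := 10240000 + 2 ^ (c + 2) + 16 * cF + 3200000 * k with hD
  have p0 : (0 : ℝ) < 2 ^ (c + 2) := by positivity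
  have D0 : 0 < D := by positivity
  set θ : ℝ := 1 / D with hθ
  have θ0 : 0 < θ := by positivity
  have hmul : ∀ x : ℝ, 0 ≤ x → x ≤ D → x * θ ≤ 1 := fun x _ hx => by
    rw [hθ, mul_one_div, div_le_one D0]; exact hx
  let P0 : Cst := ⟨K, C0, θ, b, c, cF, 0, 0⟩
  let P : Cst := ⟨K, C0, θ, b, c, cF,
    cF * cN P0 + 2048 * cU P0 + 512 * (K + 24 * C0), 2 * cN P0 + 32 * cU P0⟩
  have n0 : 1 ≤ cN P0 := le_add_of_nonneg_right (by simp only [P0]; positivity)
  have hu : ku P0 = k := rfl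
  have u0 : 0 < cU P0 := by rw [cU, hu]; positivity
  have h2 : (2 : ℝ) ^ (c + 1) * θ < 1 := by
    rw [hθ, mul_one_div, div_lt_one D0]
    have : (2 : ℝ) ^ (c + 2) = 2 * 2 ^ (c + 1) := by ring
    have : (0 : ℝ) < 2 ^ (c + 1) := by positivity
    linarith
  refine ⟨P, ⟨⟨hK, hC, (by omega : 3 ≤ b), (by omega : b ≤ c), θ0, ?_, ?_, ?_, f0⟩, ?_, ?_, ?_, rfl, ?_, ?_, ?_, ?_,
    rfl, rfl⟩, rfl⟩
  · show θ * 2 ^ (c + 1) < 1
    linarith
  · show 0 < cF * cN P0 + 2048 * cU P0 + 512 * (K + 24 * C0)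
    positivity
  · show 0 < 2 * cN P0 + 32 * cU P0
    positivity
  · show 800 * K ≤ C0
    linarith
  · show (3840000 : ℝ) ≤ C0
    linarith
  · exact hmul 10240000 (by norm_num) (by linarith)
  · exact hmul (16 * cF) (by positivity) (by linarith)
  · show 25000 * (64 * ku P * (θ + 4 / 2 ^ b)) ≤ 1
    have hu' : ku P = k := rfl
    rw [hu']
    have h1 := hmul (3200000 * k) (by positivity) (by linarith)
    have h4 : 12800000 * k * (1 / 2 ^ b) ≤ 1 := by
      rw [mul_one_div, div_le_one (by positivity)]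
      exact hb0.le.trans (pow_le_pow_right₀ one_le_two (by omega))
    ring_nf at h1 h4 ⊢
    linarith
  · show 4096 * (K + 24 * C0) ≤ 2 ^ c
    exact hc0.le.trans (pow_le_pow_right₀ one_le_two (by omega))
  · show 8 ≤ b
    omega

/-- Radius of the traversal per coordinate. -/
noncomputable def radius (P : Cst) : ℝ := 19 / 2 * (2 * (cA P + 25 / 4 * P.cE) + P.cF)

variable {ι γ : Type} [Fintype ι] [DecidableEq ι] [Fintype γ] [DecidableEq γ]
variable {v : ι → γ → ℝ} {P : Cst} {s : γ → ℝ}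

lemma cA_nonneg (hP : P.Good) : 0 ≤ cA P := by
  have := hP.cE0; have := hP.cW0; have := hP.θ0; have := cN_pos hP
  unfold cA; positivity

lemma norm_of_acc (hP : P.Good) {st : St γ} (hst : st.Ok s)
    (hacc : acc P s st
      ≤ (cA P + 25 / 4 * P.cE) * (Fintype.card γ + (low s st.l).card : ℝ))
    {p : γ → ℝ} (hp : EP P s st p) : ∑ j, p j ^ 2 ≤ radius P * Fintype.card γ := by
  refine (ep_norm hP.toOk hst hp).trans ?_
  have h1 := hP.cE0
  have h2 := mul_nonneg (mul_nonneg (by norm_num : (0:ℝ) ≤ 25 / 4) h1.le) hst.B0.le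
  have h3 := mul_nonneg h1.le (pot_nonneg hst)
  have h4 : ((low s st.l).card : ℝ) ≤ Fintype.card γ := Nat.cast_le.2 (card_le_univ _)
  have h5 := mul_le_mul_of_nonneg_left h4
    (add_nonneg (cA_nonneg hP) (by positivity : 0 ≤ 25 / 4 * P.cE))
  simp only [acc] at hacc
  rw [radius]
  nlinarith

/-- Recursive traversal of a node. -/
theorem good_node (hP : P.Good) (hv : ∀ i, ∑ j, v i j ^ 2 ≤ 1)
    (hK : ∀ st : St γ, st.Ok s → ∀ (X : Finset ι) (τ : ℝ), 0 < τ →
      (∀ i ∈ X, (lay P s st).wt v i ≤ τ) → ∑ i ∈ X, (lay P s st).wt v i ≤ (lay P s st).B →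
      (∀ x : ι → ℝ, (∀ i ∈ X, 0 ≤ x i ∧ x i ≤ 1) → ∃ Q ⊆ X,
        Dev v (lay P s st) (fun i => if i ∈ X then (if i ∈ Q then 1 else 0) - x i else 0)
          (lightBd (lay P s st) P.K τ 0)) ∧
      ∀ (M : ℕ) (p : ℝ), 0 ≤ p → 0 < M → Even M → (M : ℝ) ≤ Real.exp p →
        ∃ f : ι → Fin M, ∀ k ≤ M, Dev v (lay P s st)
          (fun i => if i ∈ X then (if (f i : ℕ) < k then 1 else 0) - (k : ℝ) / M else 0)
          (lightBd (lay P s st) P.K τ p))
    (S : Finset ι) : ∀ (st : St γ) (a b : γ → ℝ), st.Ok s → Node P s v st S a b →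
      acc P s st ≤ (cA P + 25 / 4 * P.cE) * (Fintype.card γ + (low s st.l).card : ℝ) →
      Good v (radius P * Fintype.card γ) a S := by
  induction S using Finset.strongInductionOn with
  | _ S ih =>
    intro st a b hst hN hacc
    rcases S.eq_empty_or_nonempty with rfl | hS
    · exact good_empty (norm_of_acc hP hst hacc hN.epa)
    have hst' := next_ok (P := P) hP.toOk hst
    have hacc' : acc P s (next P s st)
        ≤ (cA P + 25 / 4 * P.cE) * (Fintype.card γ + (low s (next P s st).l).card : ℝ) := by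
      refine (acc_next hP.toOk hst).trans ?_
      have e : fall s st.l (lev P s st) + (low s st.l).card = (low s (lev P s st)).card :=
        card_sdiff_add_card_eq_card (low_mono (lt_lev (P := P) (s := s) (st := st)).le)
      have e' : ((low s (next P s st).l).card : ℝ)
          = fall s st.l (lev P s st) + (low s st.l).card := by
        rw [← Nat.cast_add, e]; rfl
      rw [e']
      have := mul_nonneg (by have := hP.cE0; positivity : (0:ℝ) ≤ 25 / 4 * P.cE)
        (Nat.cast_nonneg (fall s st.l (lev P s st)))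
      linarith
    exact good_step hP hst hv (hK st hst) hN hS (fun p hp => norm_of_acc hP hst' hacc' hp)
      fun Q a' b' hQ hN' => ih Q hQ (next P s st) a' b' hst' hN' hacc'

/-- Ordering in a basis diagonalising the Gram matrix. -/
lemma good_root (hP : P.Good) (hv : ∀ i, ∑ j, v i j ^ 2 ≤ 1) (hd : 1 ≤ Fintype.card γ)
    (hsum : ∀ j, ∑ i, v i j = 0) (hdiag : ∀ k j, k ≠ j → ∑ i, v i k * v i j = 0)
    (hK : ∀ Y : Lay γ, Y.Ok → ∀ (X : Finset ι) (τ : ℝ), 0 < τ → (∀ i ∈ X, Y.wt v i ≤ τ) →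
      ∑ i ∈ X, Y.wt v i ≤ Y.B →
      (∀ x : ι → ℝ, (∀ i ∈ X, 0 ≤ x i ∧ x i ≤ 1) → ∃ Q ⊆ X,
        Dev v Y (fun i => if i ∈ X then (if i ∈ Q then 1 else 0) - x i else 0)
          (lightBd Y P.K τ 0)) ∧
      ∀ (M : ℕ) (p : ℝ), 0 ≤ p → 0 < M → Even M → (M : ℝ) ≤ Real.exp p →
        ∃ f : ι → Fin M, ∀ k ≤ M,
          Dev v Y (fun i => if i ∈ X then (if (f i : ℕ) < k then 1 else 0) - (k : ℝ) / M else 0)
            (lightBd Y P.K τ p)) :
    Good v (radius P * Fintype.card γ) (fun _ => 0) univ := by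
  set s : γ → ℝ := fun j => ∑ i, v i j ^ 2 with hs
  let st : St γ := ⟨0, low s 0, low s 0, fun _ => 1, fun _ => 2, Fintype.card γ, 0⟩
  have hd' : (1 : ℝ) ≤ Fintype.card γ := by exact_mod_cast hd
  have hep : EP P s st fun _ => 0 := fun k => by
    have := hP.cF0
    simp only [st, ne_eq, OfNat.ofNat_ne_zero, not_false_eq_true, zero_pow, zero_div,
      sum_const_zero, add_zero, zero_add]
    positivity
  have hst : st.Ok s := by
    refine ⟨subset_refl _, subset_refl _, fun _ _ => le_rfl, fun _ => le_rfl, fun j _ => ?_,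
      fun j hj => absurd hj (by simp [st]), ?_⟩
    · norm_num [st]
    · show (0 : ℝ) < Fintype.card γ
      linarith
  refine good_node (s := s) hP hv (fun st hst => hK _ (lay_ok hP hst)) univ st _ (fun _ => 0) hst
    ⟨fun j => by simp [hsum], ?_, ?_, hep, hep⟩ ?_
  · refine le_of_eq_of_le (sum_eq_zero fun j _ => sum_eq_zero fun k _ => ?_) zero_le_one
    have : (∑ i, v i j * v i k - if j = k then Dg s st.l j else 0) = 0 := by
      split_ifs with h
      · subst h; simp [Dg, st, hs, sq]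
      · simp [hdiag j k h]
    rw [this]; simp
  · simp only [st, one_mul]
    rw [sum_comm]
    refine (sum_le_sum fun j hj => (?_ : _ ≤ (1 : ℝ))).trans ?_
    · have h := mem_low.1 hj
      rw [pow_zero] at h
      exact h.le
    · simp only [sum_const, nsmul_eq_mul, mul_one]
      exact_mod_cast card_le_univ _
  · simp only [acc, pot, st, sdiff_self, bot_eq_empty, sum_empty, mul_zero, add_zero, zero_add]
    have h1 := cA_nonneg hP
    have h2 := hP.cE0
    have h3 : (0 : ℝ) ≤ ((low s 0).card : ℝ) := Nat.cast_nonneg _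
    nlinarith

/-- The Euclidean Steinitz constant is `O(√d)`. -/
theorem steinitz_sqrt : ∃ C : ℝ, 0 < C ∧ ∀ d N : ℕ, 1 ≤ d →
    ∀ v : Fin N → EuclideanSpace ℝ (Fin d), (∀ i, ‖v i‖ ≤ 1) → ∑ i, v i = 0 →
      ∃ π : Equiv.Perm (Fin N), ∀ k : ℕ,
        ‖∑ i with i.val < k, v (π i)‖ ≤ C * Real.sqrt d := by
  classical
  obtain ⟨K, hK1, hK⟩ := exists_rounding
  obtain ⟨P, hP, hPK⟩ := exists_cst hK1
  have hr : 0 < radius P := by
    have := cA_nonneg hP; have := hP.cE0; have := hP.cF0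
    unfold radius; positivity
  refine ⟨Real.sqrt (radius P), Real.sqrt_pos.2 hr, fun d N hd v hv hsum => ?_⟩
  obtain ⟨b, hb⟩ := exists_diag v univ
  let u : Fin N → Fin d → ℝ := fun i j => inner ℝ (b j) (v i)
  have hpar : ∀ x, ∑ j, inner ℝ (b j) x ^ 2 = ‖x‖ ^ 2 := fun x => by
    rw [basis_parseval, EuclideanSpace.real_norm_sq_eq]
  have hu : ∀ i, ∑ j, u i j ^ 2 ≤ 1 := fun i => by
    rw [hpar]; exact pow_le_one₀ (norm_nonneg _) (hv i)
  obtain ⟨l, hnd, huniv, hl⟩ := good_root (v := u) hP hu (by simpa using hd)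
    (fun j => by simp only [u, ← inner_sum, hsum, inner_zero_right]) hb
    (by rw [hPK]; exact hK (Fin N) (Fin d) u hu)
  have hlen : l.length = N := by
    have := List.toFinset_card_of_nodup hnd
    rw [huniv] at this
    simpa using this.symm
  let f : Fin N → Fin N := fun k => l.get (Fin.cast hlen.symm k)
  have hf : Function.Bijective f :=
    (Finite.injective_iff_bijective).1 fun x y h =>
      Fin.cast_injective _ (List.nodup_iff_injective_get.1 hnd h)
  refine ⟨Equiv.ofBijective f hf, fun k => ?_⟩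
  have hof : List.ofFn f = l := by
    apply List.ext_get (by simp [hlen])
    intro i h1 h2
    simp [f]
  have e : ∑ i with i.val < k, v (Equiv.ofBijective f hf i) = ((l.take k).map v).sum := by
    rw [← hof, List.map_take, List.map_ofFn, List.sum_take_ofFn]
    rfl
  rw [e, ← Real.sqrt_mul hr.le]
  refine Real.le_sqrt_of_sq_le ?_
  rw [← hpar]
  refine le_trans (le_of_eq ?_) (le_of_le_of_eq (hl k) (by simp))
  refine sum_congr rfl fun j _ => ?_
  congr 1
  rw [zero_add]
  have := map_list_sum (innerₛₗ ℝ (b j)) ((l.take k).map v)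
  simpa [List.map_map, Function.comp_def, u] using this

end Vale.Agent.P262.Exact
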