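import Mathlib.Analysis.InnerProductSpace.Spectrum
import Mathlib.Analysis.InnerProductSpace.PiL2
import Mathlib.Algebra.Order.Chebyshev

/-! Diagonalisation and whitening of a finite family of vectors. -/

namespace Vale.Agent.P262.Exact

open Finset

set_option linter.unusedSectionVars false

variable {ι γ : Type} [Fintype γ] [DecidableEq γ]

/-- An orthonormal basis diagonalising the Gram operator of a finite family. -/
lemma exists_diag (z : ι → EuclideanSpace ℝ γ) (X : Finset ι) :
    ∃ b : OrthonormalBasis γ ℝ (EuclideanSpace ℝ γ), ∀ k j, k ≠ j →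
      ∑ i ∈ X, inner ℝ (b k) (z i) * inner ℝ (b j) (z i) = 0 := by
  classical
  let T : EuclideanSpace ℝ γ →ₗ[ℝ] EuclideanSpace ℝ γ :=
    ∑ i ∈ X, ((innerₛₗ ℝ (z i)).smulRight (z i))
  have hTx : ∀ x, T x = ∑ i ∈ X, inner ℝ (z i) x • z i := fun x => by simp [T]
  have hT : T.IsSymmetric := fun x y => by
    simp only [hTx, sum_inner, inner_sum, inner_smul_left, inner_smul_right, conj_trivial]
    exact sum_congr rfl fun i _ => by rw [real_inner_comm x (z i)]; ring
  let b0 := hT.eigenvectorBasis (finrank_euclideanSpace (𝕜 := ℝ) (ι := γ))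
  refine ⟨b0.reindex (Fintype.equivFin γ).symm, fun k j hkj => ?_⟩
  set e := Fintype.equivFin γ
  have h : inner ℝ (b0 (e k)) (T (b0 (e j)))
      = ∑ i ∈ X, inner ℝ (b0 (e k)) (z i) * inner ℝ (b0 (e j)) (z i) := by
    simp only [hTx, inner_sum, inner_smul_right]
    exact sum_congr rfl fun i _ => by rw [real_inner_comm (b0 (e j))]; ring
  simp only [OrthonormalBasis.reindex_apply, Equiv.symm_symm]
  rw [← h, hT.apply_eigenvectorBasis, inner_smul_right]
  simp [b0.orthonormal.2 (e.injective.ne hkj), b0]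

lemma basis_parseval (b : OrthonormalBasis γ ℝ (EuclideanSpace ℝ γ)) (x : EuclideanSpace ℝ γ) :
    ∑ e, inner ℝ (b e) x ^ 2 = ∑ j, x j ^ 2 := by
  rw [← EuclideanSpace.real_norm_sq_eq, ← real_inner_self_eq_norm_sq, ← b.sum_inner_mul_inner x x]
  exact sum_congr rfl fun j _ => by rw [sq, real_inner_comm x]

/-- Whitened coordinates with unit cap. -/
lemma whiten (z : ι → γ → ℝ) (X : Finset ι) (hz : ∀ i ∈ X, ∑ j, z i j ^ 2 ≤ 1) :
    ∃ (a : γ → ℝ) (u : ι → γ → ℝ), (∀ e, 0 ≤ a e ∧ a e ≤ 1) ∧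
      ∑ e, a e ≤ ∑ i ∈ X, ∑ j, z i j ^ 2 ∧ (∀ i ∈ X, ∑ e, u i e ^ 2 ≤ 2) ∧
      ∀ c : ι → ℝ, ∑ j, (∑ i ∈ X, c i * z i j) ^ 2
        = ∑ e, a e * (∑ i ∈ X, c i * u i e) ^ 2 := by
  classical
  let Z : ι → EuclideanSpace ℝ γ := fun i => WithLp.toLp 2 (z i)
  obtain ⟨b, hb⟩ := exists_diag Z X
  let p : ι → γ → ℝ := fun i e => inner ℝ (b e) (Z i)
  let m : γ → ℝ := fun e => ∑ i ∈ X, p i e ^ 2
  have hm : ∀ e, 0 ≤ m e := fun e => sum_nonneg fun i _ => sq_nonneg _
  have hp : ∀ i, ∑ e, p i e ^ 2 = ∑ j, z i j ^ 2 := fun i => basis_parseval b (Z i)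
  have hp0 : ∀ i ∈ X, ∀ e, m e = 0 → p i e = 0 := fun i hi e he => by
    have := (sum_eq_zero_iff_of_nonneg (fun i _ => sq_nonneg (p i e))).1 he i hi
    exact pow_eq_zero_iff two_ne_zero |>.1 this
  let a : γ → ℝ := fun e => min 1 (m e)
  let u : ι → γ → ℝ := fun i e => p i e / Real.sqrt (a e)
  refine ⟨a, u, fun e => ⟨le_min zero_le_one (hm e), min_le_left _ _⟩, ?_, fun i hi => ?_, fun c => ?_⟩
  · refine (sum_le_sum fun e _ => min_le_right _ _).trans_eq ?_
    simp only [m]
    rw [sum_comm]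
    exact sum_congr rfl fun i _ => hp i
  · have key : ∀ e, u i e ^ 2 ≤ p i e ^ 2 + p i e ^ 2 / m e := by
      intro e
      rcases (hm e).eq_or_lt with he | he
      · simp [u, hp0 i hi e he.symm]
      · simp only [u, div_pow, a]
        rw [Real.sq_sqrt (le_min zero_le_one he.le)]
        rcases le_total 1 (m e) with h | h
        · rw [min_eq_left h, div_one]
          exact le_add_of_nonneg_right (div_nonneg (sq_nonneg _) he.le)
        · rw [min_eq_right h]
          exact le_add_of_nonneg_left (sq_nonneg _)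
    have lev : ∑ e, p i e ^ 2 / m e ≤ 1 := by
      set ℓ := ∑ e, p i e ^ 2 / m e with hℓ
      have h0 : 0 ≤ ℓ := sum_nonneg fun e _ => div_nonneg (sq_nonneg _) (hm e)
      have e2 : ∑ k ∈ X, (∑ e, p k e * (p i e / m e)) ^ 2 = ℓ := by
        simp_rw [sq (∑ e, _), sum_mul_sum]
        rw [sum_comm, hℓ]
        refine sum_congr rfl fun e _ => ?_
        rw [sum_comm, sum_eq_single e (fun f _ hf => ?_) (by simp)]
        · rcases (hm e).eq_or_lt with he | he
          · simp [hp0 i hi e he.symm]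
          · calc ∑ k ∈ X, p k e * (p i e / m e) * (p k e * (p i e / m e))
                = (p i e / m e) ^ 2 * m e := by
                  simp only [m]; rw [mul_sum]; exact sum_congr rfl fun k _ => by ring
              _ = p i e ^ 2 / m e := by field_simp
        · calc ∑ k ∈ X, p k e * (p i e / m e) * (p k f * (p i f / m f))
              = (p i e / m e) * (p i f / m f) * ∑ k ∈ X, p k e * p k f := by
                rw [mul_sum]; exact sum_congr rfl fun k _ => by ring
            _ = 0 := by rw [hb e f (Ne.symm hf), mul_zero]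
      have e3 : ∑ e, p i e * (p i e / m e) = ℓ :=
        sum_congr rfl fun e _ => by ring
      have h1 : ℓ ^ 2 ≤ ℓ := by
        have := single_le_sum (f := fun k => (∑ e, p k e * (p i e / m e)) ^ 2)
          (fun k _ => sq_nonneg _) hi
        simp only [e2, e3] at this
        exact this
      nlinarith
    calc ∑ e, u i e ^ 2 ≤ ∑ e, (p i e ^ 2 + p i e ^ 2 / m e) := sum_le_sum fun e _ => key e
      _ ≤ 2 := by rw [sum_add_distrib, hp]; linarith [hz i hi]
  · have e1 : ∀ e, inner ℝ (b e) (∑ i ∈ X, c i • Z i) = ∑ i ∈ X, c i * p i e := fun e => by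
      simp only [inner_sum, inner_smul_right, p]
    have h1 := basis_parseval b (∑ i ∈ X, c i • Z i)
    simp only [e1, WithLp.ofLp_sum, WithLp.ofLp_smul, Finset.sum_apply, Pi.smul_apply,
      smul_eq_mul, Z] at h1
    rw [← h1]
    refine sum_congr rfl fun e _ => ?_
    rcases (hm e).eq_or_lt with he | he
    · have : ∑ i ∈ X, c i * p i e = 0 := sum_eq_zero fun i hi => by simp [hp0 i hi e he.symm]
      simp [a, ← he, this]
    · have ha : 0 < a e := lt_min zero_lt_one he
      simp only [u, mul_div_assoc', ← sum_div, div_pow, Real.sq_sqrt ha.le]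
      rw [mul_comm (a e), mul_div_cancel_right₀ _ ha.ne']

end Vale.Agent.P262.Exact
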