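import Vale.Agent.P262.Exact.BalanceRound
import Vale.Agent.P262.Exact.BalanceTail
import Vale.Agent.P262.Exact.Spectral
import Vale.Agent.P262.Exact.Greedy

/-! Rounding inside the forms needed by one step. -/

namespace Vale.Agent.P262.Exact

open Finset
open scoped Pointwise

set_option linter.unusedSectionVars false

/-- Coordinate classes and weights of one step. -/
structure Lay (γ : Type) where
  /-- old static coordinates -/
  O : Finset γ
  /-- other static coordinates -/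
  R : Finset γ
  /-- absorbed coordinates -/
  C : Finset γ
  /-- coordinates of the Gram invariant -/
  A : Finset γ
  /-- coordinates entering the energy -/
  N : Finset γ
  key : γ → ℝ
  wO : γ → ℝ
  bR : γ → ℝ
  wA : γ → ℝ
  wN : γ → ℝ
  B : ℝ
  lN : ℝ
  bmax : ℝ
  amax : ℝ

/-- Sign conditions of a layout. -/
structure Lay.Ok {γ : Type} (Y : Lay γ) : Prop where
  wO_nn : ∀ j ∈ Y.O, 0 ≤ Y.wO j
  bR_mem : ∀ j ∈ Y.R, 0 ≤ Y.bR j ∧ Y.bR j ≤ Y.bmax
  wA_mem : ∀ j ∈ Y.A, 0 ≤ Y.wA j ∧ Y.wA j ≤ Y.amax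
  wN_mem : ∀ j ∈ Y.N, 0 ≤ Y.wN j ∧ Y.wN j ≤ Y.lN
  B_pos : 0 < Y.B
  lN_pos : 0 < Y.lN
  bmax_pos : 0 < Y.bmax
  amax_pos : 0 < Y.amax

/-- Numeric bounds. -/
structure Bd where
  f0 : ℝ
  f1 : ℝ
  o : ℝ
  r : ℝ
  g : ℝ
  w : ℝ
  n : ℝ

variable {ι γ : Type} [Fintype ι] [DecidableEq ι] [Fintype γ] [DecidableEq γ]

/-- A linear combination of the vectors. -/
def vs (v : ι → γ → ℝ) (c : ι → ℝ) (j : γ) : ℝ := ∑ i, c i * v i j

/-- Old energy weight. -/
def Lay.wt (Y : Lay γ) (v : ι → γ → ℝ) (i : ι) : ℝ := ∑ j ∈ Y.O, Y.wO j * v i j ^ 2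

/-- New energy weight. -/
def Lay.wn (Y : Lay γ) (v : ι → γ → ℝ) (i : ι) : ℝ := ∑ j ∈ Y.N, Y.wN j * v i j ^ 2

/-- Absorbed coordinates below a threshold. -/
noncomputable def Lay.pre (Y : Lay γ) (t : ℝ) : Finset γ := Y.C.filter fun j => Y.key j < t

/-- All deviations of a coefficient vector are within the bounds. -/
structure Dev (v : ι → γ → ℝ) (Y : Lay γ) (c : ι → ℝ) (b : Bd) : Prop where
  f : ∀ t, ∑ j ∈ Y.pre t, vs v c j ^ 2 ≤ b.f0 * (Y.pre t).card + b.f1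
  o : ∑ j ∈ Y.O, Y.wO j * vs v c j ^ 2 ≤ b.o
  r : ∑ j ∈ Y.R, Y.bR j * vs v c j ^ 2 ≤ b.r
  g : ∑ j ∈ Y.A, ∑ k ∈ Y.A, Y.wA j * Y.wA k * (∑ i, c i * (v i j * v i k)) ^ 2 ≤ b.g
  w : |∑ i, c i * Y.wt v i| ≤ b.w
  n : |∑ i, c i * Y.wn v i| ≤ b.n

/-- Bounds for a sum. -/
def Bd.join (a b : Bd) : Bd :=
  ⟨2 * (a.f0 + b.f0), 2 * (a.f1 + b.f1), 2 * (a.o + b.o), 2 * (a.r + b.r), 2 * (a.g + b.g),
    a.w + b.w, a.n + b.n⟩

lemma sum_add_sq {κ : Type} (S : Finset κ) (w f g : κ → ℝ) (hw : ∀ j ∈ S, 0 ≤ w j) :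
    ∑ j ∈ S, w j * (f j + g j) ^ 2
      ≤ 2 * (∑ j ∈ S, w j * f j ^ 2 + ∑ j ∈ S, w j * g j ^ 2) := by
  rw [mul_add, mul_sum, mul_sum, ← sum_add_distrib]
  refine sum_le_sum fun j hj => ?_
  nlinarith [hw j hj, mul_nonneg (hw j hj) (sq_nonneg (f j - g j))]

lemma Dev.add {v : ι → γ → ℝ} {Y : Lay γ} (hY : Y.Ok) {c1 c2 : ι → ℝ} {b1 b2 : Bd}
    (h1 : Dev v Y c1 b1) (h2 : Dev v Y c2 b2) : Dev v Y (c1 + c2) (b1.join b2) := by
  have e : ∀ j, vs v (c1 + c2) j = vs v c1 j + vs v c2 j := fun j => by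
    simp [vs, add_mul, sum_add_distrib]
  refine ⟨fun t => ?_, ?_, ?_, ?_, ?_, ?_⟩
  · simp only [e, Bd.join]
    have h3 := sum_add_sq (Y.pre t) (fun _ => (1 : ℝ)) (vs v c1) (vs v c2)
      (fun _ _ => zero_le_one)
    simp only [one_mul] at h3
    linarith [h1.f t, h2.f t]
  · simp only [e, Bd.join]
    linarith [sum_add_sq Y.O Y.wO (vs v c1) (vs v c2) hY.wO_nn, h1.o, h2.o]
  · simp only [e, Bd.join]
    linarith [sum_add_sq Y.R Y.bR (vs v c1) (vs v c2) (fun j hj => (hY.bR_mem j hj).1), h1.r, h2.r]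
  · simp only [Pi.add_apply, add_mul, sum_add_distrib, Bd.join]
    simp only [← sum_product']
    have h3 := sum_add_sq (Y.A ×ˢ Y.A) (fun p => Y.wA p.1 * Y.wA p.2)
      (fun p => ∑ i, c1 i * (v i p.1 * v i p.2)) (fun p => ∑ i, c2 i * (v i p.1 * v i p.2))
      (fun p hp => mul_nonneg (hY.wA_mem _ (mem_product.1 hp).1).1
        (hY.wA_mem _ (mem_product.1 hp).2).1)
    have g1 := h1.g; have g2 := h2.g
    simp only [← sum_product'] at g1 g2
    linarith
  · simp only [Pi.add_apply, add_mul, sum_add_distrib, Bd.join]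
    exact (abs_add_le _ _).trans (add_le_add h1.w h2.w)
  · simp only [Pi.add_apply, add_mul, sum_add_distrib, Bd.join]
    exact (abs_add_le _ _).trans (add_le_add h1.n h2.n)

lemma wn_le {v : ι → γ → ℝ} (hv : ∀ i, ∑ j, v i j ^ 2 ≤ 1) {Y : Lay γ} (hY : Y.Ok) (i : ι) :
    0 ≤ Y.wn v i ∧ Y.wn v i ≤ Y.lN := by
  refine ⟨sum_nonneg fun j hj => mul_nonneg (hY.wN_mem j hj).1 (sq_nonneg _), ?_⟩
  calc Y.wn v i ≤ ∑ j ∈ Y.N, Y.lN * v i j ^ 2 :=
        sum_le_sum fun j hj => mul_le_mul_of_nonneg_right (hY.wN_mem j hj).2 (sq_nonneg _)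
    _ ≤ Y.lN * ∑ j, v i j ^ 2 := by
        rw [← mul_sum]
        exact mul_le_mul_of_nonneg_left (sum_le_univ_sum_of_nonneg fun j => sq_nonneg _) hY.lN_pos.le
    _ ≤ Y.lN := mul_le_of_le_one_right hY.lN_pos.le (hv i)

lemma wt_nonneg (v : ι → γ → ℝ) {Y : Lay γ} (hY : Y.Ok) (i : ι) : 0 ≤ Y.wt v i :=
  sum_nonneg fun j hj => mul_nonneg (hY.wO_nn j hj) (sq_nonneg _)

/-! ### Few items -/

/-- Bounds after greedy spreading of at most `n` items. -/
noncomputable def heavyBd (Y : Lay γ) (n τ : ℝ) : Bd :=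
  ⟨0, 24 * n, 24 * Y.B, 24 * n * Y.bmax, 24 * n * Y.amax ^ 2, Real.sqrt (24 * Y.B * τ),
    Y.lN * (24 * n + 1)⟩

lemma heavy_partition (v : ι → γ → ℝ) (hv : ∀ i, ∑ j, v i j ^ 2 ≤ 1) (Y : Lay γ) (hY : Y.Ok)
    (X : Finset ι) {n τ : ℝ} (hn : (X.card : ℝ) ≤ n) (hn1 : 1 ≤ n) (hτ : 0 < τ)
    (hwt : ∀ i ∈ X, Y.wt v i ≤ τ) (hsum : ∑ i ∈ X, Y.wt v i ≤ Y.B) {M : ℕ} (hM : 0 < M) :
    ∃ f : ι → Fin M, ∀ k ≤ M,
      Dev v Y (fun i => if i ∈ X then (if (f i : ℕ) < k then 1 else 0) - (k : ℝ) / M else 0)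
        (heavyBd Y n τ) := by
  classical
  let q : γ ⊕ γ ⊕ γ ⊕ (γ × γ) ⊕ Fin 2 → ℝ :=
    Sum.elim (fun _ => 1 / n) (Sum.elim (fun j => if j ∈ Y.O then Y.wO j / Y.B else 0)
      (Sum.elim (fun j => if j ∈ Y.R then Y.bR j / (n * Y.bmax) else 0)
        (Sum.elim (fun p => if p ∈ Y.A ×ˢ Y.A then Y.wA p.1 * Y.wA p.2 / (n * Y.amax ^ 2) else 0)
          ![1 / (Y.B * τ), 1 / (n * Y.lN ^ 2)])))
  let lift : ι → γ ⊕ γ ⊕ γ ⊕ (γ × γ) ⊕ Fin 2 → ℝ := fun i =>
    Sum.elim (v i) (Sum.elim (v i) (Sum.elim (v i)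
      (Sum.elim (fun p => v i p.1 * v i p.2) ![Y.wt v i, Y.wn v i])))
  have hn0 : 0 < n := by linarith
  have hB := hY.B_pos
  have hb := hY.bmax_pos
  have ha := hY.amax_pos
  have hl := hY.lN_pos
  have q0 : ∀ e, 0 ≤ q e := by
    rintro (j | j | j | p | a) <;> simp only [q, Sum.elim_inl, Sum.elim_inr]
    · positivity
    · split_ifs with h
      · exact div_nonneg (hY.wO_nn j h) hB.le
      · rfl
    · split_ifs with h
      · exact div_nonneg (hY.bR_mem j h).1 (by positivity)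
      · rfl
    · split_ifs with h
      · exact div_nonneg (mul_nonneg (hY.wA_mem _ (mem_product.1 h).1).1
          (hY.wA_mem _ (mem_product.1 h).2).1) (by positivity)
      · rfl
    · fin_cases a <;> simp <;> positivity
  obtain ⟨f, hf⟩ := greedy_partition (fun i e => Real.sqrt (q e) * lift i e) X hM
  refine ⟨f, fun k hk => ?_⟩
  set c : ι → ℝ := fun i => if i ∈ X then (if (f i : ℕ) < k then 1 else 0) - (k : ℝ) / M else 0
  have hc : ∀ g : ι → ℝ, ∑ i, c i * g i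
      = ∑ i ∈ X with (f i : ℕ) < k, g i - (k : ℝ) / M * ∑ i ∈ X, g i := by
    intro g
    simp only [c, ite_mul, zero_mul, sum_ite_mem, univ_inter, sub_mul, one_mul, sum_sub_distrib,
      sum_filter, mul_sum]
  have key : ∑ e, q e * (∑ i, c i * lift i e) ^ 2 ≤ 4 * ∑ i ∈ X, ∑ e, q e * lift i e ^ 2 := by
    refine le_trans (le_of_eq ?_) ((hf k hk).trans_eq ?_)
    · refine sum_congr rfl fun e _ => ?_
      rw [← hc fun i => Real.sqrt (q e) * lift i e,
        show ∑ i, c i * (Real.sqrt (q e) * lift i e) = Real.sqrt (q e) * ∑ i, c i * lift i e by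
          rw [mul_sum]; exact sum_congr rfl fun i _ => by ring,
        mul_pow, Real.sq_sqrt (q0 e)]
    · simp only [mul_pow, Real.sq_sqrt (q0 _)]
  have rhs : ∑ i ∈ X, ∑ e, q e * lift i e ^ 2 ≤ 6 := by
    have item : ∀ i ∈ X, ∑ e, q e * lift i e ^ 2
        ≤ 4 / n + Y.wt v i / Y.B + Y.wt v i / Y.B := by
      intro i hi
      simp only [Fintype.sum_sum_type, Fin.sum_univ_two, q, lift, Sum.elim_inl, Sum.elim_inr,
        Matrix.cons_val_zero, Matrix.cons_val_one, ite_mul, zero_mul, sum_ite_mem, univ_inter]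
      have e1 : ∑ j, 1 / n * v i j ^ 2 ≤ 1 / n := by
        rw [← mul_sum]; exact mul_le_of_le_one_right (by positivity) (hv i)
      have e2 : ∑ j ∈ Y.O, Y.wO j / Y.B * v i j ^ 2 = Y.wt v i / Y.B := by
        rw [Lay.wt, sum_div]; exact sum_congr rfl fun j _ => by ring
      have e3 : ∑ j ∈ Y.R, Y.bR j / (n * Y.bmax) * v i j ^ 2 ≤ 1 / n := by
        calc ∑ j ∈ Y.R, Y.bR j / (n * Y.bmax) * v i j ^ 2
            ≤ ∑ j ∈ Y.R, 1 / n * v i j ^ 2 := sum_le_sum fun j hj => by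
              refine mul_le_mul_of_nonneg_right ?_ (sq_nonneg _)
              rw [div_le_div_iff₀ (by positivity) hn0]
              nlinarith [(hY.bR_mem j hj).2]
          _ ≤ 1 / n := (sum_le_univ_sum_of_nonneg fun j => by positivity).trans e1
      have e4 : ∑ p ∈ Y.A ×ˢ Y.A, Y.wA p.1 * Y.wA p.2 / (n * Y.amax ^ 2) * (v i p.1 * v i p.2) ^ 2
          ≤ 1 / n := by
        calc ∑ p ∈ Y.A ×ˢ Y.A, Y.wA p.1 * Y.wA p.2 / (n * Y.amax ^ 2) * (v i p.1 * v i p.2) ^ 2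
            ≤ ∑ p : γ × γ, 1 / n * (v i p.1 ^ 2 * v i p.2 ^ 2) := by
              refine (sum_le_sum fun p hp => ?_).trans
                (sum_le_univ_sum_of_nonneg fun p => by positivity)
              rw [mul_pow]
              refine mul_le_mul_of_nonneg_right ?_ (by positivity)
              rw [div_le_div_iff₀ (by positivity) hn0, one_mul, sq Y.amax]
              have h1 := hY.wA_mem _ (mem_product.1 hp).1
              have h2 := hY.wA_mem _ (mem_product.1 hp).2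
              nlinarith [mul_le_mul h1.2 h2.2 h2.1 ha.le]
          _ = 1 / n * ((∑ j, v i j ^ 2) * ∑ j, v i j ^ 2) := by
              rw [sum_mul_sum, ← mul_sum, Fintype.sum_prod_type]
          _ ≤ 1 / n := mul_le_of_le_one_right (by positivity)
              (mul_le_one₀ (hv i) (sum_nonneg fun j _ => sq_nonneg _) (hv i))
      have e5 : 1 / (Y.B * τ) * Y.wt v i ^ 2 ≤ Y.wt v i / Y.B := by
        rw [sq, one_div_mul_eq_div, div_le_div_iff₀ (by positivity) hB]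
        nlinarith [mul_le_mul_of_nonneg_left (hwt i hi) (mul_nonneg hB.le (wt_nonneg v hY i))]
      have e6 : 1 / (n * Y.lN ^ 2) * Y.wn v i ^ 2 ≤ 1 / n := by
        rw [one_div_mul_eq_div, div_le_div_iff₀ (by positivity) hn0]
        nlinarith [mul_le_mul_of_nonneg_left (pow_le_pow_left₀ (wn_le hv hY i).1 (wn_le hv hY i).2 2)
          hn0.le]
      have e : (4 : ℝ) / n = 1 / n + 1 / n + 1 / n + 1 / n := by ring
      linarith
    refine (sum_le_sum item).trans ?_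
    rw [sum_add_distrib, sum_add_distrib, ← sum_div, sum_const, nsmul_eq_mul]
    have h1 : (∑ i ∈ X, Y.wt v i) / Y.B ≤ 1 := (div_le_one hB).2 hsum
    have h2 : (X.card : ℝ) * (4 / n) ≤ 4 := by
      rw [mul_div_assoc', div_le_iff₀ hn0]; linarith
    rw [sum_div] at h1
    rw [mul_div_assoc'] at *
    rw [← sum_div] at *
    linarith
  have key' : ∑ e, q e * (∑ i, c i * lift i e) ^ 2 ≤ 24 := by linarith
  simp only [Fintype.sum_sum_type, Fin.sum_univ_two, q, lift, Sum.elim_inl, Sum.elim_inr,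
    Matrix.cons_val_zero, Matrix.cons_val_one, ite_mul, zero_mul, sum_ite_mem, univ_inter] at key'
  set T1 := ∑ j, 1 / n * (∑ i, c i * v i j) ^ 2 with hT1
  set T2 := ∑ j ∈ Y.O, Y.wO j / Y.B * (∑ i, c i * v i j) ^ 2 with hT2
  set T3 := ∑ j ∈ Y.R, Y.bR j / (n * Y.bmax) * (∑ i, c i * v i j) ^ 2 with hT3
  set T4 := ∑ p ∈ Y.A ×ˢ Y.A, Y.wA p.1 * Y.wA p.2 / (n * Y.amax ^ 2)
    * (∑ i, c i * (v i p.1 * v i p.2)) ^ 2 with hT4
  set T5 := 1 / (Y.B * τ) * (∑ i, c i * Y.wt v i) ^ 2 with hT5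
  set T6 := 1 / (n * Y.lN ^ 2) * (∑ i, c i * Y.wn v i) ^ 2 with hT6
  have n1 : 0 ≤ T1 := sum_nonneg fun j _ => by positivity
  have n2 : 0 ≤ T2 := sum_nonneg fun j hj => by
    have := hY.wO_nn j hj; positivity
  have n3 : 0 ≤ T3 := sum_nonneg fun j hj => by
    have := (hY.bR_mem j hj).1; positivity
  have n4 : 0 ≤ T4 := sum_nonneg fun p hp => by
    have := (hY.wA_mem _ (mem_product.1 hp).1).1
    have := (hY.wA_mem _ (mem_product.1 hp).2).1
    positivity
  have n5 : 0 ≤ T5 := by positivity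
  have n6 : 0 ≤ T6 := by positivity
  refine ⟨fun t => ?_, ?_, ?_, ?_, ?_, ?_⟩
  · simp only [heavyBd, vs, zero_mul, zero_add]
    refine (sum_le_univ_sum_of_nonneg fun j => sq_nonneg _).trans ?_
    rw [hT1, ← mul_sum] at key'
    have h : 1 / n * ∑ j, (∑ i, c i * v i j) ^ 2 ≤ 24 := by linarith
    rw [one_div_mul_eq_div, div_le_iff₀ hn0] at h
    linarith
  · have h : T2 ≤ 24 := by linarith
    rw [hT2] at h
    simp only [div_mul_eq_mul_div, ← sum_div] at h
    rw [div_le_iff₀ hB] at h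
    exact h
  · have h : T3 ≤ 24 := by linarith
    rw [hT3] at h
    simp only [div_mul_eq_mul_div, ← sum_div] at h
    rw [div_le_iff₀ (by positivity)] at h
    simp only [heavyBd, vs]
    linarith
  · have h : T4 ≤ 24 := by linarith
    rw [hT4] at h
    simp only [div_mul_eq_mul_div, ← sum_div] at h
    rw [div_le_iff₀ (by positivity)] at h
    rw [← sum_product']
    simp only [heavyBd]
    linarith
  · have h : T5 ≤ 24 := by linarith
    rw [hT5, one_div_mul_eq_div, div_le_iff₀ (by positivity)] at h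
    exact Real.abs_le_sqrt (by linarith)
  · have h : T6 ≤ 24 := by linarith
    rw [hT6, one_div_mul_eq_div, div_le_iff₀ (by positivity)] at h
    refine abs_le_of_sq_le_sq ?_ (by simp only [heavyBd]; positivity)
    simp only [heavyBd]
    calc (∑ i, c i * Y.wn v i) ^ 2 ≤ 24 * (n * Y.lN ^ 2) := h
      _ ≤ (Y.lN * (24 * n + 1)) ^ 2 := by
        rw [mul_pow]
        nlinarith [mul_nonneg hn0.le (sq_nonneg Y.lN), mul_nonneg (mul_nonneg hn0.le hn0.le) (sq_nonneg Y.lN), sq_nonneg Y.lN]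

/-! ### Many light items -/

/-- Bounds after balancing light items. -/
noncomputable def lightBd (Y : Lay γ) (K τ P : ℝ) : Bd :=
  ⟨K, K * P, K * (Y.B + τ * (1 + P)), K * (∑ j ∈ Y.R, Y.bR j + Y.bmax * (1 + P)),
    K * ((∑ j ∈ Y.A, Y.wA j) ^ 2 + Y.amax ^ 2 * (1 + P)), K * (τ * (1 + P)),
    K * (Y.lN * (1 + P))⟩

/-- Index of the lifted space. -/
abbrev LIdx (γ : Type) := γ ⊕ γ ⊕ (γ × γ) ⊕ Fin 2

/-- Membership in an ellipsoid. -/
def ell {α : Type} [Fintype α] (a : α → ℝ) (R : ℝ) : Set (EuclideanSpace ℝ α) :=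
  {y | ∑ e, a e * y e ^ 2 ≤ R}

lemma ell_body {α : Type} [Fintype α] (a : α → ℝ) (ha : ∀ e, 0 ≤ a e) (R : ℝ) :
    Body (ell a R) := by
  refine ⟨?_, ?_, fun y hy => by simpa [ell] using hy⟩
  · exact isClosed_le (by fun_prop) continuous_const
  · intro y hy z hz p q hp hq hpq
    simp only [ell, Set.mem_ofPred_eq, PiLp.add_apply, PiLp.smul_apply, smul_eq_mul] at hy hz ⊢
    have h : ∀ e, (p * y e + q * z e) ^ 2 ≤ p * y e ^ 2 + q * z e ^ 2 := fun e => by
      obtain rfl : q = 1 - p := by linarith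
      nlinarith [mul_nonneg (mul_nonneg hp hq) (sq_nonneg (y e - z e))]
    calc ∑ e, a e * (p * y e + q * z e) ^ 2
        ≤ ∑ e, a e * (p * y e ^ 2 + q * z e ^ 2) :=
          sum_le_sum fun e _ => mul_le_mul_of_nonneg_left (h e) (ha e)
      _ = p * ∑ e, a e * y e ^ 2 + q * ∑ e, a e * z e ^ 2 := by
          simp_rw [mul_sum, ← sum_add_distrib]; exact sum_congr rfl fun e _ => by ring
      _ ≤ p * R + q * R := add_le_add (mul_le_mul_of_nonneg_left hy hp) (mul_le_mul_of_nonneg_left hz hq)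
      _ = R := by rw [← add_mul, hpq, one_mul]

lemma sum_exp_neg_le (d : ℕ) : ∑ r : Fin (d + 1), Real.exp (-(r : ℝ)) ≤ 2 := by
  have h : Real.exp (-1) ≤ 1 / 2 := by
    rw [Real.exp_neg, one_div]
    exact inv_anti₀ two_pos (by linarith [Real.add_one_le_exp 1])
  calc ∑ r : Fin (d + 1), Real.exp (-(r : ℝ)) ≤ ∑ r : Fin (d + 1), (1 / 2 : ℝ) ^ (r : ℕ) :=
        sum_le_sum fun r _ => by
          rw [show (-(r : ℝ)) = (r : ℕ) * (-1 : ℝ) by push_cast; ring, Real.exp_nat_mul]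
          exact pow_le_pow_left₀ (Real.exp_nonneg _) h _
    _ ≤ 2 := by
      rw [Fin.sum_univ_eq_sum_range (fun r => (1 / 2 : ℝ) ^ r)]
      exact sum_geometric_two_le _

/-- The bodies, and how membership bounds the deviations. -/
lemma bodies_exist {c0 η : ℝ} (hc0 : 0 < c0) (hη : 0 < η) : ∃ K : ℝ, 1 ≤ K ∧
    ∀ (ι γ : Type) [Fintype ι] [DecidableEq ι] [Fintype γ] [DecidableEq γ] (v : ι → γ → ℝ),
      (∀ i, ∑ j, v i j ^ 2 ≤ 1) → ∀ (Y : Lay γ), Y.Ok → ∀ (X : Finset ι) (τ P : ℝ), 0 < τ →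
        0 ≤ P → (∀ i ∈ X, Y.wt v i ≤ τ) → ∑ i ∈ X, Y.wt v i ≤ Y.B →
        ∃ (lf : ι → EuclideanSpace ℝ (LIdx γ))
          (Q : Fin (Fintype.card γ + 1) ⊕ Fin 5 → Set (EuclideanSpace ℝ (LIdx γ))),
          (∀ i ∈ X, ‖lf i‖ ≤ 3 * η) ∧ (∀ s, Body (Q s)) ∧
          ∑ s, gfail (Q s) ≤ c0 * Real.exp (-P) ∧
          ∀ c : ι → ℝ, (∀ i, i ∉ X → c i = 0) →
            (∀ s, ∑ i, c i • lf i ∈ (2 : ℝ) • Q s) → Dev v Y c (lightBd Y K τ P) := by
  classical
  set T0 : ℝ := max 0 (Real.log (7 / c0)) with hT0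
  have T00 : 0 ≤ T0 := le_max_left _ _
  have hexp : 7 * Real.exp (-T0) ≤ c0 := by
    have : Real.exp (-T0) ≤ Real.exp (-Real.log (7 / c0)) :=
      Real.exp_le_exp.2 (neg_le_neg (le_max_right _ _))
    rw [Real.exp_neg (Real.log (7 / c0)), Real.exp_log (by positivity), inv_div] at this
    linarith
  set K : ℝ := 1 + (32 + 16 * T0) / η ^ 2 with hK
  have K1 : 1 ≤ K := le_add_of_nonneg_right (by positivity)
  refine ⟨K, K1, ?_⟩
  intro ι γ _ _ _ _ v hv Y hY X τ P hτ hP hwt hsum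
  have hl := hY.lN_pos
  let z : ι → γ → ℝ := fun i j => if j ∈ Y.O then Real.sqrt (Y.wO j / τ) * v i j else 0
  have zsq : ∀ i, ∑ j, z i j ^ 2 = Y.wt v i / τ := fun i => by
    simp only [z, ite_pow, zero_pow two_ne_zero, sum_ite_mem, univ_inter, Lay.wt, sum_div]
    exact sum_congr rfl fun j hj => by
      rw [mul_pow, Real.sq_sqrt (div_nonneg (hY.wO_nn j hj) hτ.le)]; ring
  obtain ⟨a, u, ha, hasum, hu, hau⟩ := whiten z X (fun i hi => by
    rw [zsq, div_le_one hτ]; exact hwt i hi)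
  let lr : ι → LIdx γ → ℝ := fun i => Sum.elim (v i)
    (Sum.elim (u i) (Sum.elim (fun p => v i p.1 * v i p.2) ![Y.wt v i / τ, Y.wn v i / Y.lN]))
  let lf : ι → EuclideanSpace ℝ (LIdx γ) := fun i => WithLp.toLp 2 fun e => η * lr i e
  let pre : ℕ → Finset γ := fun r =>
    if h : ∃ t, (Y.pre t).card = r then Y.pre h.choose else ∅
  have hpre : ∀ t, pre (Y.pre t).card = Y.pre t := by
    intro t
    have h : ∃ t', (Y.pre t').card = (Y.pre t).card := ⟨t, rfl⟩
    simp only [pre, dif_pos h]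
    rcases le_total h.choose t with hle | hle
    · exact eq_of_subset_of_card_le (monotone_filter_right _ fun j _ hj => lt_of_lt_of_le hj hle)
        h.choose_spec.ge
    · exact (eq_of_subset_of_card_le (monotone_filter_right _ fun j _ hj => lt_of_lt_of_le hj hle)
        h.choose_spec.le).symm
  have hprecard : ∀ r, (pre r).card ≤ r := fun r => by
    simp only [pre]; split
    · next h => exact h.choose_spec.le
    · simp
  let co : Fin (Fintype.card γ + 1) ⊕ Fin 5 → LIdx γ → ℝ :=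
    Sum.elim (fun r => Sum.elim (fun j => if j ∈ pre r then 1 else 0) (fun _ => 0))
      ![Sum.elim (fun j => if j ∈ Y.R then Y.bR j else 0) (fun _ => 0),
        Sum.elim (fun _ => 0) (Sum.elim a (fun _ => 0)),
        Sum.elim (fun _ => 0) (Sum.elim (fun _ => 0)
          (Sum.elim (fun p => if p ∈ Y.A ×ˢ Y.A then Y.wA p.1 * Y.wA p.2 else 0) (fun _ => 0))),
        Sum.elim (fun _ => 0) (Sum.elim (fun _ => 0) (Sum.elim (fun _ => 0) ![1, 0])),
        Sum.elim (fun _ => 0) (Sum.elim (fun _ => 0) (Sum.elim (fun _ => 0) ![0, 1]))]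
  let mx : Fin (Fintype.card γ + 1) ⊕ Fin 5 → ℝ :=
    Sum.elim (fun _ => 1) ![Y.bmax, 1, Y.amax ^ 2, 1, 1]
  let TT : Fin (Fintype.card γ + 1) ⊕ Fin 5 → ℝ :=
    Sum.elim (fun r => T0 + P + (r : ℕ)) (fun _ => T0 + P)
  let Q := fun s => ell (co s) (4 * ∑ e, co s e + 4 * mx s * TT s)
  have hco : ∀ s e, 0 ≤ co s e ∧ co s e ≤ mx s := by
    have hb := hY.bmax_pos.le
    rintro (r | b) (j | e | p | b')
    all_goals first
      | (fin_cases b <;> simp [co, mx, hb, ha, sq_nonneg])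
      | (simp [co, mx, apply_ite])
    all_goals try fin_cases b'
    all_goals try simp
    all_goals try
      split_ifs with h
    all_goals first
      | exact ⟨(hY.bR_mem j h).1, (hY.bR_mem j h).2⟩
      | exact ⟨le_rfl, hb⟩
      | exact ⟨mul_nonneg (hY.wA_mem _ h.1).1 (hY.wA_mem _ h.2).1,
          (mul_le_mul (hY.wA_mem _ h.1).2 (hY.wA_mem _ h.2).2 (hY.wA_mem _ h.2).1
            hY.amax_pos.le).trans_eq (sq _).symm⟩
      | exact ⟨le_rfl, sq_nonneg _⟩
      | norm_num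
  have mx0 : ∀ s, 0 ≤ mx s := by
    have := hY.bmax_pos.le
    rintro (r | b) <;> [skip; fin_cases b] <;> simp [mx, this, sq_nonneg]
  have TT0 : ∀ s, 0 ≤ TT s := by rintro (r | b) <;> simp only [TT, Sum.elim_inl, Sum.elim_inr] <;> positivity
  refine ⟨lf, Q, fun i hi => ?_, fun s => ell_body _ (fun e => (hco s e).1) _, ?_, ?_⟩
  · rw [← abs_of_pos (show (0:ℝ) < 3 * η by positivity)]
    refine (abs_norm (lf i)).symm.trans_le (sq_le_sq.1 ?_)
    rw [EuclideanSpace.real_norm_sq_eq]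
    simp only [lf, mul_pow, ← mul_sum]
    have hl1 : ∑ e, lr i e ^ 2 ≤ 9 := by
      simp only [lr, Fintype.sum_sum_type, Fin.sum_univ_two, Sum.elim_inl, Sum.elim_inr,
        Matrix.cons_val_zero, Matrix.cons_val_one]
      have e1 : ∑ p : γ × γ, (v i p.1 * v i p.2) ^ 2 ≤ 1 := by
        simp only [mul_pow, Fintype.sum_prod_type, ← mul_sum, ← sum_mul]
        exact mul_le_one₀ (hv i) (sum_nonneg fun j _ => sq_nonneg _) (hv i)
      have e2 : (Y.wt v i / τ) ^ 2 ≤ 1 :=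
        pow_le_one₀ (div_nonneg (wt_nonneg v hY i) hτ.le) ((div_le_one hτ).2 (hwt i hi))
      have e3 : (Y.wn v i / Y.lN) ^ 2 ≤ 1 :=
        pow_le_one₀ (div_nonneg (wn_le hv hY i).1 hl.le) ((div_le_one hl).2 (wn_le hv hY i).2)
      linarith [hv i, hu i hi]
    nlinarith
  · have hfail : ∀ s, gfail (Q s) ≤ Real.exp (-TT s) := fun s =>
      gauss_tail (co s) (mx s) (TT s) (fun e => (hco s e).1) (fun e => (hco s e).2) (mx0 s) (TT0 s)
    refine (sum_le_sum fun s _ => hfail s).trans ?_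
    simp only [Fintype.sum_sum_type, TT, Sum.elim_inl, Sum.elim_inr]
    have e : ∀ r : Fin (Fintype.card γ + 1), Real.exp (-(T0 + P + (r : ℕ)))
        = Real.exp (-(T0 + P)) * Real.exp (-(r : ℝ)) := fun r => by
      rw [← Real.exp_add]; congr 1; push_cast; ring
    simp only [e, ← mul_sum, sum_const, card_univ, Fintype.card_fin, nsmul_eq_mul]
    have h1 := sum_exp_neg_le (Fintype.card γ)
    rw [neg_add, Real.exp_add]
    calc Real.exp (-T0) * Real.exp (-P) * ∑ r : Fin (Fintype.card γ + 1), Real.exp (-(r : ℝ))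
          + ((5 : ℕ) : ℝ) * (Real.exp (-T0) * Real.exp (-P))
        ≤ Real.exp (-T0) * Real.exp (-P) * 2 + 5 * (Real.exp (-T0) * Real.exp (-P)) := by
          push_cast
          gcongr
      _ = 7 * Real.exp (-T0) * Real.exp (-P) := by ring
      _ ≤ c0 * Real.exp (-P) := mul_le_mul_of_nonneg_right hexp (Real.exp_nonneg _)
  intro c hcX hmem
  have hq : ∀ s, ∑ e, co s e * (∑ i, c i * lr i e) ^ 2
      ≤ 4 / η ^ 2 * (4 * ∑ e, co s e + 4 * mx s * TT s) := by
    intro s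
    obtain ⟨y, hy, hye⟩ := hmem s
    simp only [Q, ell, Set.mem_ofPred_eq] at hy
    have hcoord : ∀ e, 2 * y e = η * ∑ i, c i * lr i e := fun e => by
      have := congrArg (fun w : EuclideanSpace ℝ (LIdx γ) => w e) hye
      simp only [PiLp.smul_apply, smul_eq_mul, WithLp.ofLp_sum, WithLp.ofLp_smul, Finset.sum_apply,
        Pi.smul_apply, lf] at this
      rw [this, mul_sum]
      exact sum_congr rfl fun i _ => by ring
    calc ∑ e, co s e * (∑ i, c i * lr i e) ^ 2 = 4 / η ^ 2 * ∑ e, co s e * y e ^ 2 := by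
          rw [mul_sum]
          refine sum_congr rfl fun e _ => ?_
          have : ∑ i, c i * lr i e = 2 * y e / η := by rw [hcoord e]; field_simp
          rw [this]; field_simp; ring
      _ ≤ _ := mul_le_mul_of_nonneg_left hy (by positivity)
  set η2 := (η ^ 2)⁻¹ with hη2
  have η20 : 0 ≤ η2 := by positivity
  have hKe : K = 1 + (32 + 16 * T0) * η2 := by rw [hK, hη2]; ring
  have h4 : 4 / η ^ 2 = 4 * η2 := by rw [hη2]; ring
  simp only [h4] at hq
  refine ⟨fun t => ?_, ?_, ?_, ?_, ?_, ?_⟩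
  · rcases eq_or_ne (Y.pre t).card 0 with h0 | h0
    · simp only [lightBd, card_eq_zero.1 h0, sum_empty, card_empty, CharP.cast_eq_zero, mul_zero,
        zero_add]
      positivity
    have := hq (Sum.inl ⟨(Y.pre t).card, Nat.lt_succ_of_le (card_le_univ _)⟩)
    simp only [co, mx, TT, lr, Sum.elim_inl, Fintype.sum_sum_type, Sum.elim_inr, zero_mul,
      sum_const_zero, add_zero, ite_mul, one_mul, sum_ite_mem, univ_inter, hpre] at this
    simp only [lightBd, vs]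
    refine this.trans ?_
    simp only [sum_const, nsmul_eq_mul, mul_one]
    have hc : (1 : ℝ) ≤ (Y.pre t).card := by exact_mod_cast Nat.one_le_iff_ne_zero.2 h0
    rw [hKe]
    nlinarith [mul_nonneg η20 (mul_nonneg T00 (sub_nonneg.2 hc)), mul_nonneg η20 hP,
      mul_nonneg (mul_nonneg η20 T00) hP, mul_nonneg η20 (le_trans zero_le_one hc)]
  · have := hq (Sum.inr 1)
    simp only [co, mx, TT, lr, Sum.elim_inl, Fintype.sum_sum_type, Sum.elim_inr, zero_mul,
      sum_const_zero, add_zero, zero_add, Matrix.cons_val_one, Matrix.cons_val_zero] at this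
    have hc : ∀ e, ∑ i, c i * u i e = ∑ i ∈ X, c i * u i e := fun e =>
      (sum_subset (subset_univ X) fun i _ hi => by simp [hcX i hi]).symm
    simp only [hc, ← hau c] at this
    have e : ∑ j, (∑ i ∈ X, c i * z i j) ^ 2 = (∑ j ∈ Y.O, Y.wO j * vs v c j ^ 2) / τ := by
      simp only [z, mul_ite, mul_zero, sum_div]
      have : ∀ j, (∑ i ∈ X, if j ∈ Y.O then c i * (Real.sqrt (Y.wO j / τ) * v i j) else 0) ^ 2
          = if j ∈ Y.O then Y.wO j * vs v c j ^ 2 / τ else 0 := by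
        intro j
        by_cases h : j ∈ Y.O
        · rw [if_pos h, sum_congr rfl fun i _ => if_pos h]
          rw [show ∑ i ∈ X, c i * (Real.sqrt (Y.wO j / τ) * v i j)
              = Real.sqrt (Y.wO j / τ) * vs v c j by
            rw [vs, ← sum_subset (subset_univ X) (fun i _ hi => by simp [hcX i hi]), mul_sum]
            exact sum_congr rfl fun i _ => by ring]
          rw [mul_pow, Real.sq_sqrt (div_nonneg (hY.wO_nn j h) hτ.le)]
          ring
        · rw [if_neg h, sum_congr rfl fun i _ => if_neg h]; simp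
      simp only [this, sum_ite_mem, univ_inter]
    have hs : ∑ e, a e ≤ Y.B / τ := hasum.trans (by
      simp only [zsq, ← sum_div]; exact div_le_div_of_nonneg_right hsum hτ.le)
    rw [e, div_le_iff₀ hτ] at this
    refine this.trans ?_
    have hBt : ∑ e, a e * τ ≤ Y.B := by rw [← sum_mul, ← le_div_iff₀ hτ]; exact hs
    rw [← sum_mul] at hBt
    simp only [lightBd]
    rw [hKe]
    nlinarith [mul_nonneg η20 (mul_nonneg T00 hY.B_pos.le), mul_nonneg η20 hY.B_pos.le,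
      mul_nonneg (mul_nonneg η20 T00) (mul_nonneg hτ.le hP), hY.B_pos,
      mul_le_mul_of_nonneg_left hBt η20, mul_nonneg η20 (mul_nonneg hτ.le hP), mul_nonneg hτ.le hP]
  · have := hq (Sum.inr 0)
    simp only [co, mx, TT, lr, Sum.elim_inl, Fintype.sum_sum_type, Sum.elim_inr, zero_mul,
      sum_const_zero, add_zero, Matrix.cons_val_zero, ite_mul, sum_ite_mem, univ_inter] at this
    simp only [lightBd, vs]
    refine this.trans ?_
    have hb := hY.bmax_pos.le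
    have hs : 0 ≤ ∑ j ∈ Y.R, Y.bR j := sum_nonneg fun j hj => (hY.bR_mem j hj).1
    rw [hKe]
    nlinarith [mul_nonneg η20 hs, mul_nonneg (mul_nonneg η20 T00) hs, mul_nonneg hb hP,
      mul_nonneg η20 (mul_nonneg hb hP), mul_nonneg (mul_nonneg η20 T00) (mul_nonneg hb hP)]
  · have := hq (Sum.inr 2)
    simp only [co, mx, TT, lr, Sum.elim_inl, Fintype.sum_sum_type, Sum.elim_inr, zero_mul,
      sum_const_zero, add_zero, zero_add, Matrix.cons_val_two, Matrix.tail_cons, Matrix.head_cons,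
      Matrix.cons_val, ite_mul, sum_ite_mem, univ_inter] at this
    rw [← sum_product']
    refine this.trans ?_
    rw [show ∑ p ∈ Y.A ×ˢ Y.A, Y.wA p.1 * Y.wA p.2 = (∑ j ∈ Y.A, Y.wA j) ^ 2 by
      rw [sq, sum_mul_sum, Finset.sum_product]]
    simp only [lightBd]
    have hs := sq_nonneg (∑ j ∈ Y.A, Y.wA j)
    have ha2 := sq_nonneg Y.amax
    rw [hKe]
    nlinarith [mul_nonneg η20 hs, mul_nonneg (mul_nonneg η20 T00) hs, mul_nonneg ha2 hP,
      mul_nonneg η20 (mul_nonneg ha2 hP), mul_nonneg (mul_nonneg η20 T00) (mul_nonneg ha2 hP)]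
  · have := hq (Sum.inr 3)
    simp only [co, mx, TT, lr, Sum.elim_inl, Fintype.sum_sum_type, Sum.elim_inr, zero_mul,
      sum_const_zero, add_zero, zero_add, Matrix.cons_val, Fin.sum_univ_two,
      Matrix.cons_val_zero, Matrix.cons_val_one, one_mul] at this
    have e : ∑ i, c i * Y.wt v i = τ * ∑ i, c i * (Y.wt v i / τ) := by
      rw [mul_sum]; exact sum_congr rfl fun i _ => by field_simp
    simp only [lightBd]
    refine abs_le_of_sq_le_sq ?_ (by positivity)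
    rw [e, mul_pow, show (K * (τ * (1 + P))) ^ 2 = τ ^ 2 * (K * (1 + P)) ^ 2 by ring]
    refine mul_le_mul_of_nonneg_left (this.trans ?_) (sq_nonneg τ)
    have h1 : 1 ≤ K * (1 + P) := one_le_mul_of_one_le_of_one_le K1 (by linarith)
    have h2 : 4 * η2 * (4 * 1 + 4 * 1 * (T0 + P)) ≤ K * (1 + P) := by
      rw [hKe]; nlinarith [mul_nonneg η20 hP, mul_nonneg (mul_nonneg η20 T00) hP]
    nlinarith
  · have := hq (Sum.inr 4)
    simp only [co, mx, TT, lr, Sum.elim_inl, Fintype.sum_sum_type, Sum.elim_inr, zero_mul,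
      sum_const_zero, add_zero, zero_add, Matrix.cons_val, Fin.sum_univ_two,
      Matrix.cons_val_zero, Matrix.cons_val_one, one_mul] at this
    have e : ∑ i, c i * Y.wn v i = Y.lN * ∑ i, c i * (Y.wn v i / Y.lN) := by
      rw [mul_sum]; exact sum_congr rfl fun i _ => by field_simp
    simp only [lightBd]
    refine abs_le_of_sq_le_sq ?_ (by positivity)
    rw [e, mul_pow, show (K * (Y.lN * (1 + P))) ^ 2 = Y.lN ^ 2 * (K * (1 + P)) ^ 2 by ring]
    refine mul_le_mul_of_nonneg_left (this.trans ?_) (sq_nonneg _)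
    have h1 : 1 ≤ K * (1 + P) := one_le_mul_of_one_le_of_one_le K1 (by linarith)
    have h2 : 4 * η2 * (4 * 1 + 4 * 1 * (T0 + P)) ≤ K * (1 + P) := by
      rw [hKe]; nlinarith [mul_nonneg η20 hP, mul_nonneg (mul_nonneg η20 T00) hP]
    nlinarith

/-- Balancing of light items: one cut, and ordered partitions. -/
theorem exists_rounding : ∃ K : ℝ, 1 ≤ K ∧
    ∀ (ι γ : Type) [Fintype ι] [DecidableEq ι] [Fintype γ] [DecidableEq γ] (v : ι → γ → ℝ),
      (∀ i, ∑ j, v i j ^ 2 ≤ 1) → ∀ (Y : Lay γ), Y.Ok → ∀ (X : Finset ι) (τ : ℝ), 0 < τ →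
        (∀ i ∈ X, Y.wt v i ≤ τ) → ∑ i ∈ X, Y.wt v i ≤ Y.B →
        (∀ x : ι → ℝ, (∀ i ∈ X, 0 ≤ x i ∧ x i ≤ 1) → ∃ S ⊆ X,
          Dev v Y (fun i => if i ∈ X then (if i ∈ S then 1 else 0) - x i else 0)
            (lightBd Y K τ 0)) ∧
        ∀ (M : ℕ) (P : ℝ), 0 ≤ P → 0 < M → Even M → (M : ℝ) ≤ Real.exp P →
          ∃ f : ι → Fin M, ∀ k ≤ M,
            Dev v Y (fun i => if i ∈ X then (if (f i : ℕ) < k then 1 else 0) - (k : ℝ) / M else 0)
              (lightBd Y K τ P) := by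
  classical
  obtain ⟨δ1, c1, hδ1, hc1, hround⟩ := balance_round
  obtain ⟨δ2, c2, hδ2, hc2, hpart⟩ := balance_partition
  set δ := min δ1 δ2 with hδ
  have δ0 : 0 < δ := lt_min hδ1 hδ2
  obtain ⟨K, K1, hK⟩ := bodies_exist (lt_min hc1 hc2) (show 0 < δ / 3 by positivity)
  refine ⟨K, K1, ?_⟩
  intro ι γ _ _ _ _ v hv Y hY X τ hτ hwt hsum
  have zero_mem : ∀ {α : Type} [Fintype α] {Q : Set (EuclideanSpace ℝ α)}, Body Q →
      ∀ y ∈ Q, (0 : EuclideanSpace ℝ α) ∈ Q := fun hQ y hy => by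
    have := hQ.convex hy (hQ.symm y hy) (show (0:ℝ) ≤ 1/2 by norm_num) (show (0:ℝ) ≤ 1/2 by norm_num) (by norm_num)
    simpa using this
  refine ⟨fun x hx => ?_, fun M P hP hM hev hMP => ?_⟩
  · obtain ⟨lf, Q, hlf, hQ, hfail, hdev⟩ := hK ι γ v hv Y hY X τ 0 hτ le_rfl hwt hsum
    rw [neg_zero, Real.exp_zero, mul_one] at hfail
    obtain ⟨S, hS⟩ := hround (LIdx γ) ↥X (Fin (Fintype.card γ + 1) ⊕ Fin 5)
      (fun i => lf i) Q (fun i => x i) (fun i => ((hlf i i.2).trans_eq (by ring)).trans (min_le_left δ1 δ2))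
      hQ (fun i => hx i i.2) (hfail.trans (min_le_left _ _))
    refine ⟨S.map ⟨Subtype.val, Subtype.val_injective⟩, fun i hi => ?_, hdev _ (fun i hi => if_neg hi) fun s => ?_⟩
    · obtain ⟨a, _, rfl⟩ := Finset.mem_map.1 hi; exact a.2
    refine ⟨(2 : ℝ)⁻¹ • (∑ i ∈ S, lf i - ∑ i : ↥X, x i • lf i), ?_, ?_⟩
    · have h0 := zero_mem (hQ s) _ (hS s)
      have := (hQ s).convex (hS s) h0 (show (0:ℝ) ≤ 2⁻¹ by norm_num) (show (0:ℝ) ≤ 2⁻¹ by norm_num) (by norm_num)
      simpa using this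
    · simp only [smul_smul, mul_inv_cancel₀ (two_ne_zero (α := ℝ)), one_smul]
      rw [← Finset.sum_subset (subset_univ X) (fun i _ hi => by simp [hi]), ← sum_coe_sort X]
      simp only [mem_map, Function.Embedding.coeFn_mk, Subtype.val_inj, exists_eq_right, coe_mem,
        if_true, sub_smul, ite_smul, one_smul, zero_smul, sum_sub_distrib, sum_ite_mem, univ_inter]
  · obtain ⟨lf, Q, hlf, hQ, hfail, hdev⟩ := hK ι γ v hv Y hY X τ P hτ hP hwt hsum
    have hMfail : (M : ℝ) * ∑ s, gfail (Q s) ≤ c2 := by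
      calc (M : ℝ) * ∑ s, gfail (Q s) ≤ Real.exp P * (min c1 c2 * Real.exp (-P)) :=
            mul_le_mul hMP hfail (sum_nonneg fun s _ => ENNReal.toReal_nonneg) (Real.exp_nonneg _)
        _ = min c1 c2 := by rw [Real.exp_neg]; field_simp
        _ ≤ c2 := min_le_right _ _
    obtain ⟨f, hf⟩ := hpart (LIdx γ) ↥X (Fin (Fintype.card γ + 1) ⊕ Fin 5)
      (fun i => lf i) Q M (fun i => ((hlf i i.2).trans_eq (by ring)).trans (min_le_right δ1 δ2))
      hQ hM hev hMfail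
    refine ⟨fun i => if h : i ∈ X then f ⟨i, h⟩ else ⟨0, hM⟩, fun k hk => hdev _ (fun i hi => if_neg hi) fun s => ?_⟩
    convert hf s k hk using 1
    rw [← Finset.sum_subset (subset_univ X) (fun i _ hi => by simp [hi]), ← sum_coe_sort X,
      smul_sum, sum_filter, ← sum_sub_distrib]
    refine sum_congr rfl fun i _ => ?_
    simp [sub_smul, ite_smul, i.2]

end Vale.Agent.P262.Exact
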