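import Vale.Agent.P262.Exact.Levels
import Mathlib.Analysis.Complex.ExponentialBounds

/-! The states of the recursion and the accounting between two sparse levels. -/

namespace Vale.Agent.P262.Exact

open Finset

set_option linter.unusedSectionVars false

/-- Constants of the construction. -/
structure Cst where
  K : ℝ
  C0 : ℝ
  θ : ℝ
  b : ℕ
  c : ℕ
  cF : ℝ
  cE : ℝ
  cW : ℝ

/-- Relations between the constants. -/
structure Cst.Ok (P : Cst) : Prop where
  K1 : 1 ≤ P.K
  C01 : 1 ≤ P.C0
  b3 : 3 ≤ P.b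
  bc : P.b ≤ P.c
  θ0 : 0 < P.θ
  gap : P.θ * 2 ^ (P.c + 1) < 1
  cE0 : 0 < P.cE
  cW0 : 0 < P.cW
  cF0 : 0 < P.cF

/-- A state: a level, the static classes, their weights and the budgets. -/
structure St (γ : Type) where
  l : ℕ
  U0 : Finset γ
  U1 : Finset γ
  ω : γ → ℝ
  Φ : γ → ℝ
  B : ℝ
  Bud : ℝ

variable {γ : Type} [Fintype γ] [DecidableEq γ]

/-- Structural properties of a state. -/
structure St.Ok (s : γ → ℝ) (st : St γ) : Prop where
  sub : st.U0 ⊆ st.U1
  low_sub : low s st.l ⊆ st.U0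
  ω1 : ∀ j ∈ st.U0, 1 ≤ st.ω j
  Φ2 : ∀ j, 2 ≤ st.Φ j
  Φ0 : ∀ j ∈ st.U0, st.Φ j + (5 / 2) / st.ω j ≤ 19 / 2
  Φ1 : ∀ j ∈ st.U1 \ st.U0, st.Φ j + 4 * yl s st.l j / (1 + yl s st.l j) ≤ 6
  B0 : 0 < st.B

variable (P : Cst) (s : γ → ℝ) (st : St γ)

/-- Next level. -/
noncomputable def lev : ℕ := nxt s P.θ st.l

/-- Length of the step. -/
noncomputable def len : ℕ := lev P s st - st.l

/-- Cost of the step. -/
noncomputable def cost : ℕ := fall s st.l (lev P s st) + (len P s st - 1)

/-- Logarithmic scale of the step. -/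
noncomputable def gg : ℕ := Nat.log 2 (cost P s st + 1) + 1

/-- Threshold of the energy class. -/
noncomputable def mA : ℕ := P.b + 3 * gg P s st / 4

/-- Half of the threshold of the static class. -/
noncomputable def mB : ℕ := P.c + gg P s st

/-- The new energy class. -/
noncomputable def U0' : Finset γ := st.U0 ∪ low s (lev P s st + mA P s st)

/-- The new static class. -/
noncomputable def U1' : Finset γ := st.U1 ∪ low s (lev P s st + 2 * mB P s st)

/-- New weights. -/
noncomputable def ω' (j : γ) : ℝ :=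
  if j ∈ st.U0 then 7 / 5 * st.ω j
  else if j ∈ U0' P s st then 1 else 1 + yl s (lev P s st) j ^ 2

/-- Total weight of the static coordinates outside the energy class. -/
noncomputable def wsum : ℝ := ∑ j ∈ st.U1 \ U0' P s st, ω' P s st j

/-- The next state. -/
noncomputable def next : St γ where
  l := lev P s st
  U0 := U0' P s st
  U1 := U1' P s st
  ω := ω' P s st
  Φ j := if j ∈ st.U1 then st.Φ j + 1 / ω' P s st j else 2
  B := 21 / 25 * st.B + P.cW * cost P s st
  Bud := st.Bud + P.cE * (st.B + cost P s st + len P s st * wsum P s st)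

/-- Potential of the static coordinates. -/
noncomputable def pot : ℝ := ∑ j ∈ st.U1 \ st.U0, (yl s st.l j ^ 3 + yl s st.l j)

variable {P s st}

lemma lt_lev : st.l < lev P s st := lt_nxt _ _

lemma len_pos : 1 ≤ len P s st := by have := lt_lev (P := P) (s := s) (st := st); unfold len; omega

lemma len_spec : st.l + len P s st = lev P s st := by
  have := lt_lev (P := P) (s := s) (st := st); unfold len; omega

lemma len_le_cost : len P s st ≤ cost P s st + 1 := by unfold cost; omega

lemma cost_lt_pow : cost P s st + 1 < 2 ^ gg P s st := Nat.lt_pow_succ_log_self one_lt_two _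

lemma one_le_gg : 1 ≤ gg P s st := by unfold gg; omega

lemma pow_gg_le : (2 : ℝ) ^ gg P s st ≤ 2 * (cost P s st + 1 : ℕ) := by
  have h := Nat.pow_log_le_self 2 (x := cost P s st + 1) (by omega)
  have e : (2:ℝ) ^ gg P s st = 2 * ((2 ^ Nat.log 2 (cost P s st + 1) : ℕ) : ℝ) := by
    rw [gg, pow_succ]; push_cast; ring
  rw [e]
  have : ((2 ^ Nat.log 2 (cost P s st + 1) : ℕ) : ℝ) ≤ (cost P s st + 1 : ℕ) := by exact_mod_cast h
  linarith

lemma pow_gg_le_cost (h : cost P s st ≠ 0) : (2 : ℝ) ^ gg P s st ≤ 4 * cost P s st := by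
  have : (1 : ℝ) ≤ cost P s st := by exact_mod_cast Nat.one_le_iff_ne_zero.2 h
  have := pow_gg_le (P := P) (s := s) (st := st)
  push_cast at this
  linarith

lemma mA_le (hP : P.Ok) : mA P s st ≤ 2 * mB P s st := by
  have := hP.bc
  unfold mA mB; omega

lemma sparse (hP : P.Ok) : dens s (lev P s st) ≤ P.θ := (dens_nxt hP.θ0 _).le

lemma U0_sub' (hP : P.Ok) (hst : st.Ok s) : U0' P s st ⊆ U1' P s st :=
  union_subset_union hst.sub (low_mono (by have := mA_le (s := s) (st := st) hP; omega))

lemma low_sub' : low s (lev P s st) ⊆ U0' P s st :=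
  (low_mono (Nat.le_add_right _ _)).trans subset_union_right

lemma high_of_not_U0' {j : γ} (h : j ∉ U0' P s st) :
    j ∈ high s (lev P s st + mA P s st) :=
  not_mem_low.1 fun hm => h (mem_union_right _ hm)

lemma high_of_not_U1' {j : γ} (h : j ∉ U1' P s st) :
    j ∈ high s (lev P s st + 2 * mB P s st) :=
  not_mem_low.1 fun hm => h (mem_union_right _ hm)

lemma high_of_not_U0 (hst : st.Ok s) {j : γ} (h : j ∉ st.U0) : j ∈ high s st.l :=
  not_mem_low.1 fun hm => h (hst.low_sub hm)

lemma pow_le_Dg {l m : ℕ} {j : γ} (h : j ∈ high s (l + m)) : (2 : ℝ) ^ m ≤ Dg s l j := by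
  rw [Dg_add l m]
  exact le_mul_of_one_le_right (by positivity) (one_le_Dg h)

lemma Dg_lt_pow {l m : ℕ} {j : γ} (h : j ∈ low s (l + m)) : Dg s l j < 2 ^ m := by
  rw [Dg, div_lt_iff₀ (by positivity), ← pow_add, add_comm m l]
  exact mem_low.1 h

lemma cost_le (hP : P.Ok) :
    (cost P s st : ℝ) ≤ (14 + 26 / P.θ) * fall s st.l (lev P s st) := by
  have h := gap_le (s := s) hP.θ0 st.l
  have hk : (cost P s st : ℝ) = fall s st.l (lev P s st) + ((len P s st - 1 : ℕ) : ℝ) := by
    rw [cost, Nat.cast_add]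
  rw [hk]
  have hθ : 0 ≤ 26 / P.θ := by have := hP.θ0; positivity
  by_cases hl : len P s st ≤ 1
  · rw [Nat.sub_eq_zero_of_le hl, Nat.cast_zero, add_zero]
    exact le_mul_of_one_le_left (Nat.cast_nonneg _) (by linarith)
  · have hf : 1 ≤ fall s st.l (lev P s st) := fall_pos hP.θ0 (by
      unfold len lev at hl; omega)
    have hf' : (1 : ℝ) ≤ fall s st.l (lev P s st) := by exact_mod_cast hf
    have e : lev P s st - st.l - 1 = len P s st - 1 := rfl
    unfold lev at e
    rw [e] at h
    have h2 : ((len P s st - 1 : ℕ) : ℝ) ≤ 26 / P.θ * fall s st.l (lev P s st) + 13 := by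
      rw [div_mul_eq_mul_div, div_add' _ _ _ hP.θ0.ne', le_div_iff₀ hP.θ0]
      unfold lev at *
      linarith
    nlinarith

lemma len_one_of_cost (h : cost P s st = 0) : len P s st = 1 := by
  have := len_pos (P := P) (s := s) (st := st); unfold cost at h; omega

lemma static_of_cost (hP : P.Ok) (hst : st.Ok s) (h : cost P s st = 0) :
    U0' P s st = st.U0 ∧ U1' P s st = st.U1 := by
  have hf : low s (lev P s st) \ low s st.l = ∅ := by
    have : fall s st.l (lev P s st) = 0 := by unfold cost at h; omega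
    exact card_eq_zero.1 this
  have hlow : low s (lev P s st + 2 * mB P s st) ⊆ st.U0 := by
    intro j hj
    apply hst.low_sub
    by_contra hl
    have hhigh : j ∈ high s (lev P s st) :=
      not_mem_low.1 fun hm => notMem_empty j (hf ▸ mem_sdiff.2 ⟨hm, hl⟩)
    have h1 := sparse_big (sparse (st := st) hP) hhigh
    have h2 : Dg s (lev P s st) j ^ ((1 / 8) : ℝ) ≤ (2 : ℝ) ^ (P.c + 1) := by
      have hg : gg P s st = 1 := by rw [gg, h]; simp
      have h3 := (Dg_lt_pow hj).le
      rw [mB, hg] at h3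
      refine (Real.rpow_le_rpow (Dg_pos hhigh).le h3 (by norm_num)).trans ?_
      rw [← Real.rpow_natCast 2 (2 * _), ← Real.rpow_mul zero_le_two, ← Real.rpow_natCast 2 (P.c + 1)]
      refine Real.rpow_le_rpow_of_exponent_le one_le_two ?_
      push_cast
      linarith [(Nat.cast_nonneg P.c : (0 : ℝ) ≤ _)]
    have := mul_le_mul_of_nonneg_left h2 hP.θ0.le
    linarith [hP.gap]
  constructor
  · exact union_eq_left.2 (fun j hj => hlow (low_mono (by
      have := mA_le (s := s) (st := st) hP; omega) hj))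
  · exact union_eq_left.2 fun j hj => hst.sub (hlow hj)

lemma one_le_ω' (hst : st.Ok s) (j : γ) : 1 ≤ ω' P s st j := by
  unfold ω'
  split_ifs with h1 h2
  · linarith [hst.ω1 j h1]
  · rfl
  · nlinarith [sq_nonneg (yl s (lev P s st) j)]

lemma next_ok (hP : P.Ok) (hst : st.Ok s) : (next P s st).Ok s where
  sub := U0_sub' hP hst
  low_sub := low_sub'
  ω1 j _ := one_le_ω' hst j
  Φ2 j := by
    simp only [next]
    split_ifs with h
    · have := one_le_ω' (P := P) hst j
      have : 0 ≤ 1 / ω' P s st j := by positivity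
      linarith [hst.Φ2 j]
    · rfl
  Φ0 j hj := by
    simp only [next] at hj ⊢
    by_cases h0 : j ∈ st.U0
    · rw [if_pos (hst.sub h0), ω', if_pos h0]
      have h := hst.Φ0 j h0
      have : 0 < st.ω j := by linarith [hst.ω1 j h0]
      have e : 1 / (7 / 5 * st.ω j) + 5 / 2 / (7 / 5 * st.ω j) = 5 / 2 / st.ω j := by
        field_simp; norm_num
      linarith
    · rw [ω', if_neg h0, if_pos hj]
      split_ifs with h1
      · have h := hst.Φ1 j (mem_sdiff.2 ⟨h1, h0⟩)
        have hy := yl_nonneg (high_of_not_U0 hst h0)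
        have : 0 ≤ 4 * yl s st.l j / (1 + yl s st.l j) := by positivity
        norm_num
        linarith
      · norm_num
  Φ1 j hj := by
    simp only [next, mem_sdiff] at hj ⊢
    have hn0 : j ∉ st.U0 := fun h => hj.2 (mem_union_left _ h)
    have hh : j ∈ high s (lev P s st) := not_mem_low.1 fun hm => hj.2 (low_sub' hm)
    have hy := yl_nonneg hh
    rw [ω', if_neg hn0, if_neg hj.2]
    split_ifs with h1
    · have h := hst.Φ1 j (mem_sdiff.2 ⟨h1, hn0⟩)
      rw [yl_of_le lt_lev.le hh] at h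
      set y := yl s (lev P s st) j
      set L := ((lev P s st - st.l : ℕ) : ℝ)
      have hL : 1 ≤ L := by
        have : 1 ≤ lev P s st - st.l := len_pos
        exact Nat.one_le_cast.2 this
      have key : 1 / (1 + y ^ 2) + 4 * y / (1 + y) ≤ 4 * (L + y) / (1 + (L + y)) := by
        refine le_trans ?_ (show 4 * (1 + y) / (1 + (1 + y)) ≤ _ by
          rw [div_le_div_iff₀ (by positivity) (by positivity)]; nlinarith)
        rw [div_add_div _ _ (by positivity) (by positivity),
          div_le_div_iff₀ (by positivity) (by positivity)]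
        nlinarith [sq_nonneg (2 * y - 1), sq_nonneg y, mul_nonneg hy (sq_nonneg (2 * y - 1))]
      linarith
    · have : 4 * yl s (lev P s st) j / (1 + yl s (lev P s st) j) ≤ 4 := by
        rw [div_le_iff₀ (by positivity)]; linarith
      linarith
  B0 := by
    simp only [next]
    have := hst.B0
    have := hP.cW0
    positivity

lemma nat_le_rpow (m : ℕ) : (m : ℝ) ≤ 6 * (2 : ℝ) ^ ((m : ℝ) / 4) := by
  rw [Real.rpow_def_of_pos zero_lt_two]
  have h := Real.add_one_le_exp (Real.log 2 * ((m : ℝ) / 4))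
  have := Real.log_two_gt_d9
  nlinarith [(Nat.cast_nonneg m : (0 : ℝ) ≤ _)]

/-- Coordinates entering the static class. -/
lemma card_new1 (hP : P.Ok) (hst : st.Ok s) :
    ((U1' P s st \ st.U1).card : ℝ)
      ≤ fall s st.l (lev P s st) + P.θ * (2 : ℝ) ^ ((mB P s st : ℝ) / 4) := by
  have hsub : U1' P s st \ st.U1 ⊆ (low s (lev P s st) \ low s st.l)
      ∪ (low s (lev P s st + 2 * mB P s st) ∩ high s (lev P s st)) := by
    intro j hj
    obtain ⟨h1, h2⟩ := mem_sdiff.1 hj
    have h3 := (mem_union.1 h1).resolve_left h2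
    by_cases h : j ∈ low s (lev P s st)
    · exact mem_union_left _ (mem_sdiff.2 ⟨h, fun hm => h2 (hst.sub (hst.low_sub hm))⟩)
    · exact mem_union_right _ (mem_inter.2 ⟨h3, not_mem_low.1 h⟩)
  have h1 : ((U1' P s st \ st.U1).card : ℝ) ≤ fall s st.l (lev P s st)
      + ((low s (lev P s st + 2 * mB P s st) ∩ high s (lev P s st)).card : ℝ) := by
    exact_mod_cast (card_le_card hsub).trans (card_union_le _ _)
  refine h1.trans (add_le_add le_rfl ((card_le (sparse (st := st) hP) inter_subset_right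
    fun j hj => (Dg_lt_pow (mem_inter.1 hj).1).le).trans (mul_le_mul_of_nonneg_left ?_ hP.θ0.le)))
  rw [← Real.rpow_natCast, ← Real.rpow_mul zero_le_two]
  refine le_of_eq (congrArg _ ?_)
  push_cast; ring

/-- Constant in the count of entering coordinates. -/
noncomputable def cN (P : Cst) : ℝ := 1 + 12000 * P.θ * 2 ^ (P.c + P.b + P.b)

lemma card_new1_le (hP : P.Ok) (hst : st.Ok s) :
    ((U1' P s st \ st.U1).card : ℝ) ≤ cN P * cost P s st := by
  rcases eq_or_ne (cost P s st) 0 with h | h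
  · rw [(static_of_cost hP hst h).2, sdiff_self, h]; simp
  have h2 : (2 : ℝ) ^ ((mB P s st : ℝ) / 4) ≤ 4 * 2 ^ (P.c + P.b + P.b) * cost P s st := by
    calc (2 : ℝ) ^ ((mB P s st : ℝ) / 4) ≤ (2 : ℝ) ^ (mB P s st : ℝ) :=
          Real.rpow_le_rpow_of_exponent_le one_le_two
            (by linarith [(Nat.cast_nonneg (mB P s st) : (0 : ℝ) ≤ _)])
      _ = 2 ^ P.c * 2 ^ gg P s st := by rw [Real.rpow_natCast, mB, pow_add]
      _ ≤ 2 ^ (P.c + P.b + P.b) * (4 * cost P s st) :=
          mul_le_mul (pow_le_pow_right₀ one_le_two (by omega)) (pow_gg_le_cost h) (by positivity)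
            (by positivity)
      _ = _ := by ring
  have hk : (fall s st.l (lev P s st) : ℝ) ≤ cost P s st := by
    exact_mod_cast Nat.le_add_right _ _
  have := mul_le_mul_of_nonneg_left h2 hP.θ0.le
  have h3 : (0 : ℝ) ≤ P.θ * 2 ^ (P.c + P.b + P.b) * cost P s st := by
    have := hP.θ0; positivity
  have := card_new1 hP hst
  rw [cN]
  linarith

/-- Mean energy of the coordinates entering the energy class. -/
lemma new_mass_le (hP : P.Ok) (hst : st.Ok s) :
    ∑ j ∈ U0' P s st \ st.U0, max (Dg s (lev P s st) j) 1 ≤ cN P * cost P s st := by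
  rcases eq_or_ne (cost P s st) 0 with h | h
  · rw [(static_of_cost hP hst h).1, sdiff_self, h]; simp
  set l' := lev P s st
  set m := mA P s st
  have hk : (fall s st.l l' : ℝ) ≤ cost P s st := by exact_mod_cast Nat.le_add_right _ _
  have hsub : U0' P s st \ st.U0 ⊆ (low s l' \ low s st.l) ∪ (low s (l' + m) ∩ high s l') := by
    intro j hj
    obtain ⟨h1, h2⟩ := mem_sdiff.1 hj
    have h3 := (mem_union.1 h1).resolve_left h2
    by_cases h : j ∈ low s l'
    · exact mem_union_left _ (mem_sdiff.2 ⟨h, fun hm => h2 (hst.low_sub hm)⟩)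
    · exact mem_union_right _ (mem_inter.2 ⟨h3, not_mem_low.1 h⟩)
  refine (sum_le_sum_of_subset_of_nonneg hsub fun j _ _ =>
    zero_le_one.trans (le_max_right _ _)).trans ?_
  rw [sum_union]
  swap
  · exact disjoint_left.2 fun j hj hj' => not_mem_low.2 (mem_inter.1 hj').2 (mem_sdiff.1 hj).1
  have h1 : ∑ j ∈ low s l' \ low s st.l, max (Dg s l' j) 1 ≤ fall s st.l l' := by
    rw [fall, card_eq_sum_ones, Nat.cast_sum, Nat.cast_one]
    refine sum_le_sum fun j hj => max_le ?_ le_rfl
    rw [Dg, div_le_one (by positivity)]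
    exact (mem_low.1 (mem_sdiff.1 hj).1).le
  have h2 : ∑ j ∈ low s (l' + m) ∩ high s l', max (Dg s l' j) 1
      ≤ P.θ * ((2 : ℝ) ^ m) ^ ((1 / 8) : ℝ) * 2 ^ m := by
    have hc := card_le (sparse (st := st) hP) (inter_subset_right (s₁ := low s (l' + m)))
      fun j hj => (Dg_lt_pow (mem_inter.1 hj).1).le
    refine le_trans (sum_le_card_nsmul _ _ ((2:ℝ) ^ m) fun j hj => max_le
      (Dg_lt_pow (mem_inter.1 hj).1).le (one_le_pow₀ one_le_two)) ?_
    rw [nsmul_eq_mul]
    exact mul_le_mul_of_nonneg_right hc (by positivity)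
  have h3 : ((2 : ℝ) ^ m) ^ ((1 / 8) : ℝ) * 2 ^ m ≤ 4 * 2 ^ (P.c + P.b + P.b) * cost P s st := by
    calc ((2 : ℝ) ^ m) ^ ((1 / 8) : ℝ) * 2 ^ m ≤ (2 : ℝ) ^ (2 * P.b + gg P s st) := by
          rw [← Real.rpow_natCast, ← Real.rpow_mul zero_le_two, ← Real.rpow_add zero_lt_two,
            ← Real.rpow_natCast]
          refine Real.rpow_le_rpow_of_exponent_le one_le_two ?_
          have h4 : (4 : ℝ) * ((3 * gg P s st / 4 : ℕ) : ℝ) ≤ 3 * gg P s st := by
            exact_mod_cast Nat.mul_div_le _ _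
          have h5 : (m : ℝ) = P.b + ((3 * gg P s st / 4 : ℕ) : ℝ) := by simp [m, mA]
          push_cast
          linarith [(Nat.cast_nonneg (gg P s st) : (0 : ℝ) ≤ _),
            (Nat.cast_nonneg P.b : (0 : ℝ) ≤ _)]
      _ ≤ 2 ^ (P.c + P.b + P.b) * (4 * cost P s st) := by
          rw [pow_add]
          exact mul_le_mul (pow_le_pow_right₀ one_le_two (by omega)) (pow_gg_le_cost h)
            (by positivity) (by positivity)
      _ = _ := by ring
  have := mul_le_mul_of_nonneg_left h3 hP.θ0.le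
  have h4 : (0 : ℝ) ≤ P.θ * 2 ^ (P.c + P.b + P.b) * cost P s st := by
    have := hP.θ0; positivity
  rw [cN]
  linarith

/-- Change of the potential. -/
lemma pot_next (hP : P.Ok) (hst : st.Ok s) :
    pot s (next P s st) + len P s st * wsum P s st ≤ pot s st + cN P * cost P s st := by
  set l' := lev P s st
  let H : γ → ℝ := fun j => yl s l' j ^ 3 + yl s l' j
  have hold : ∑ j ∈ st.U1 \ U0' P s st, (H j + len P s st * ω' P s st j) ≤ pot s st := by
    refine le_trans (sum_le_sum fun j hj => ?_) (sum_le_sum_of_subset_of_nonneg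
      (sdiff_subset_sdiff (subset_refl _) subset_union_left) fun j hj _ => ?_)
    · obtain ⟨_, h0⟩ := mem_sdiff.1 hj
      have hn0 : j ∉ st.U0 := fun h => h0 (mem_union_left _ h)
      have hh : j ∈ high s l' := not_mem_low.1 fun hm => h0 (low_sub' hm)
      rw [ω', if_neg hn0, if_neg h0, yl_of_le lt_lev.le hh]
      have hy := yl_nonneg hh
      have hL : (0 : ℝ) ≤ ((lev P s st - st.l : ℕ) : ℝ) := Nat.cast_nonneg _
      simp only [H, len]
      nlinarith [mul_nonneg hL (sq_nonneg (yl s l' j)), mul_nonneg (mul_nonneg hL hL) hy,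
        mul_nonneg (mul_nonneg hL hL) hL]
    · have := yl_nonneg (high_of_not_U0 hst (mem_sdiff.1 hj).2)
      positivity
  have hnew : ∑ j ∈ (U1' P s st \ U0' P s st) \ st.U1, H j ≤ cN P * cost P s st := by
    rcases eq_or_ne (cost P s st) 0 with h | h
    · rw [(static_of_cost hP hst h).2, h]
      have : (st.U1 \ U0' P s st) \ st.U1 = ∅ := by ext; simp
      simp [this]
    set m := mB P s st
    have hsub : (U1' P s st \ U0' P s st) \ st.U1 ⊆ low s (l' + 2 * m) ∩ high s l' := by
      intro j hj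
      obtain ⟨h12, h3⟩ := mem_sdiff.1 hj
      obtain ⟨h1, h2⟩ := mem_sdiff.1 h12
      exact mem_inter.2 ⟨(mem_union.1 h1).resolve_left h3, not_mem_low.1 fun hm => h2 (low_sub' hm)⟩
    have hm1 : (1 : ℝ) ≤ m := by
      have : 1 ≤ mB P s st := by have := one_le_gg (P := P) (s := s) (st := st); unfold mB; omega
      exact Nat.one_le_cast.2 this
    set X := (2 : ℝ) ^ ((m : ℝ) / 4)
    have hX : 0 < X := Real.rpow_pos_of_pos two_pos _
    have hc : (((U1' P s st \ U0' P s st) \ st.U1).card : ℝ) ≤ P.θ * X := by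
      refine (Nat.cast_le.2 (card_le_card hsub)).trans ((card_le (sparse (st := st) hP)
        inter_subset_right fun j hj => (Dg_lt_pow (mem_inter.1 hj).1).le).trans (le_of_eq ?_))
      rw [← Real.rpow_natCast, ← Real.rpow_mul zero_le_two]
      refine congrArg _ (congrArg _ ?_)
      push_cast; ring
    have hH : ∀ j ∈ (U1' P s st \ U0' P s st) \ st.U1, H j ≤ 10 * (m : ℝ) ^ 3 := by
      intro j hj
      obtain ⟨h1, h2⟩ := mem_inter.1 (hsub hj)
      have hy0 := yl_nonneg h2
      have hy : yl s l' j ≤ 2 * (m : ℝ) := by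
        have := (yl_lt h2 h1).le; push_cast at this; exact this
      have h3 := pow_le_pow_left₀ hy0 hy 3
      have h4 : (m : ℝ) ≤ (m : ℝ) ^ 3 := le_self_pow₀ hm1 (by norm_num)
      simp only [H]
      nlinarith
    refine (sum_le_card_nsmul _ _ _ hH).trans ?_
    rw [nsmul_eq_mul]
    refine (mul_le_mul_of_nonneg_right hc (by positivity)).trans ?_
    have h6 : (m : ℝ) ^ 3 ≤ 216 * X ^ 3 := by
      have := pow_le_pow_left₀ (Nat.cast_nonneg m) (nat_le_rpow m) 3
      rw [mul_pow] at this; norm_num at this; exact this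
    have hX4 : X ^ 4 = 2 ^ m := by
      rw [← Real.rpow_natCast X 4, ← Real.rpow_mul zero_le_two, ← Real.rpow_natCast 2 m]
      congr 1; push_cast; ring
    have h7 : (2 : ℝ) ^ m ≤ 2 ^ (P.c + P.b + P.b) * (4 * cost P s st) := by
      simp only [m, mB]
      rw [pow_add]
      exact mul_le_mul (pow_le_pow_right₀ one_le_two (by omega)) (pow_gg_le_cost h)
        (by positivity) (by positivity)
    have hθ := hP.θ0.le
    have : (0 : ℝ) ≤ cost P s st := Nat.cast_nonneg _
    calc P.θ * X * (10 * (m : ℝ) ^ 3) ≤ P.θ * X * (10 * (216 * X ^ 3)) := by gcongr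
      _ = 2160 * P.θ * X ^ 4 := by ring
      _ ≤ 2160 * P.θ * (2 ^ (P.c + P.b + P.b) * (4 * cost P s st)) := by
          rw [hX4]; gcongr
      _ ≤ cN P * cost P s st := by
          rw [cN]
          nlinarith [mul_nonneg (mul_nonneg hθ (pow_nonneg zero_le_two (P.c + P.b + P.b))) this]
  have hsplit : pot s (next P s st) = ∑ j ∈ (U1' P s st \ U0' P s st) \ st.U1, H j
      + ∑ j ∈ st.U1 \ U0' P s st, H j := by
    rw [pot]
    simp only [next]
    rw [← sum_sdiff (show st.U1 \ U0' P s st ⊆ U1' P s st \ U0' P s st from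
      sdiff_subset_sdiff subset_union_left (subset_refl _))]
    refine congrArg₂ (· + ·) (sum_congr ?_ fun _ _ => rfl) rfl
    ext j; simp; tauto
  rw [hsplit]
  simp only [sum_add_distrib, ← mul_sum] at hold
  rw [wsum]
  linarith

/-- Total accounting quantity. -/
noncomputable def acc (P : Cst) (s : γ → ℝ) (st : St γ) : ℝ :=
  st.Bud + 25 / 4 * P.cE * st.B + P.cE * pot s st

/-- Growth of the accounting quantity per dropped coordinate. -/
noncomputable def cA (P : Cst) : ℝ :=
  P.cE * (1 + 25 / 4 * P.cW + cN P) * (14 + 26 / P.θ)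

lemma acc_next (hP : P.Ok) (hst : st.Ok s) :
    acc P s (next P s st) ≤ acc P s st + cA P * fall s st.l (lev P s st) := by
  have h1 := mul_le_mul_of_nonneg_left (pot_next hP hst) hP.cE0.le
  have h2 : 0 ≤ P.cE * (1 + 25 / 4 * P.cW + cN P) := by
    have := hP.cE0; have := hP.cW0
    have : 0 ≤ cN P := by have := hP.θ0; unfold cN; positivity
    positivity
  have h3 := mul_le_mul_of_nonneg_left (cost_le (s := s) (st := st) hP) h2
  simp only [acc, cA, next] at *
  nlinarith

lemma pot_nonneg (hst : st.Ok s) : 0 ≤ pot s st :=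
  sum_nonneg fun j hj => by
    have := yl_nonneg (high_of_not_U0 hst (mem_sdiff.1 hj).2)
    positivity

lemma Φ_le (hst : st.Ok s) {j : γ} (hj : j ∈ st.U1) : st.Φ j ≤ 19 / 2 := by
  by_cases h : j ∈ st.U0
  · have := hst.Φ0 j h
    have : 0 ≤ (5 / 2) / st.ω j := by have := hst.ω1 j h; positivity
    linarith
  · have := hst.Φ1 j (mem_sdiff.2 ⟨hj, h⟩)
    have hy := yl_nonneg (high_of_not_U0 hst h)
    have : 0 ≤ 4 * yl s st.l j / (1 + yl s st.l j) := by positivity
    linarith

end Vale.Agent.P262.Exact
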