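import Vale.Agent.P262.Exact.Child

/-! One step of the recursion. -/

namespace Vale.Agent.P262.Exact

open Finset

set_option linter.unusedSectionVars false

variable {ι γ : Type} [Fintype ι] [DecidableEq ι] [Fintype γ] [DecidableEq γ]
variable {v : ι → γ → ℝ} {P : Cst} {s : γ → ℝ} {st : St γ} {S : Finset ι} {a b : γ → ℝ}

/-- Clipping to an interval around zero. -/
noncomputable def clip (c x : ℝ) : ℝ := max (-c) (min c x)

lemma abs_clip {c : ℝ} (hc : 0 ≤ c) (x : ℝ) : |clip c x| ≤ c :=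
  abs_le.2 ⟨le_max_left _ _, max_le (by linarith) (min_le_left _ _)⟩

lemma abs_sub_clip {c : ℝ} (hc : 0 ≤ c) (x : ℝ) : |x - clip c x| ≤ max (|x| - c) 0 := by
  unfold clip
  rcases le_or_gt x (-c) with h | h
  · rw [min_eq_right (by linarith), max_eq_left h, abs_of_nonpos (by linarith : x - -c ≤ 0),
      abs_of_nonpos (by linarith : x ≤ 0)]
    exact le_max_of_le_left (by linarith)
  · rcases le_or_gt x c with h' | h'
    · rw [min_eq_right h', max_eq_right h.le, sub_self, abs_zero]; exact le_max_right _ _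
    · rw [min_eq_left h'.le, max_eq_right (by linarith), abs_of_pos (by linarith : 0 < x - c),
        abs_of_pos (by linarith : 0 < x)]
      exact le_max_left _ _

lemma cap_nonneg (j : γ) : 0 ≤ cap P s st j := Real.sqrt_nonneg _

lemma Dev.to_mul (hP : P.Good) (hst : st.Ok s) {Y : Lay γ} {c : ι → ℝ} {w : ℝ}
    (hw : 0 ≤ w) (h : Dev v Y c (unit P s st w)) {k : ℝ} (hk : 1 ≤ k) :
    Dev v Y c ((unit P s st w).mul k) := by
  have h' : Dev v Y c ((unit P s st w).mul 1) := by rwa [Bd.mul_one]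
  exact h'.mono (Bd.mul_le _ (unit_nn hP hst hw) zero_le_one hk)

lemma Dev.raise {Y : Lay γ} {c : ι → ℝ} {u : Bd} (hu : u.Nn) {k m : ℝ}
    (h : Dev v Y c (u.mul k)) (hk : 0 ≤ k) (hkm : k ≤ m) : Dev v Y c (u.mul m) :=
  h.mono (Bd.mul_le u hu hk hkm)

lemma Dev.widen (hP : P.Good) (hst : st.Ok s) {Y : Lay γ} {c : ι → ℝ} {k : ℝ} (hk : 0 ≤ k)
    (h : Dev v Y c ((unit P s st (1 / 400 * (lay P s st).B)).mul k)) :
    Dev v Y c ((unit P s st (lay P s st).B).mul k) := by
  obtain ⟨a1, a2, a3, a4, a5, a6, a7⟩ := unit_le hP hst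
  refine h.mono ⟨?_, ?_, ?_, ?_, ?_, ?_, ?_⟩ <;> simp only [Bd.mul] <;> gcongr

/-- Everything produced by one absorption and rounding. -/
lemma exists_carve (hP : P.Good) (hst : st.Ok s) (hv : ∀ i, ∑ j, v i j ^ 2 ≤ 1)
    (hK : ∀ (X : Finset ι) (τ : ℝ), 0 < τ → (∀ i ∈ X, (lay P s st).wt v i ≤ τ) →
      ∑ i ∈ X, (lay P s st).wt v i ≤ (lay P s st).B →
      ∀ x : ι → ℝ, (∀ i ∈ X, 0 ≤ x i ∧ x i ≤ 1) → ∃ Q ⊆ X,
        Dev v (lay P s st) (fun i => if i ∈ X then (if i ∈ Q then 1 else 0) - x i else 0)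
          (lightBd (lay P s st) P.K τ 0))
    (hN : Node P s v st S a b) {X : Finset ι} (hX : X ⊆ S)
    (hτ : ∀ i ∈ X, (lay P s st).wt v i ≤ (lay P s st).B / P.C0) {W r : ℝ}
    (hW : 3 / 4 * 2 ^ len P s st ≤ W) (hr : r * W = 1) (hW2 : W ≤ 2 ^ len P s st) (hr2 : r ≤ 1 / 2)
    (hG : gerr P s v st X W ≤ 4 * W ^ 2) (c : γ → ℝ)
    (hc : ∀ j, j ∉ U1' P s st → |c j| ≤ 2 * cap P s st j)
    (hc0 : ∀ j ∈ U1' P s st, c j = 0) :
    ∃ Q ⊆ X, ∃ z d : ι → ℝ, chi Q = r • chi X + (z + d) ∧
      (∀ j, j ∉ U1' P s st → vs v z j = c j) ∧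
      Dev v (lay0 P s st) z (unit P s st (1 / 400 * (lay P s st).B)) ∧
      Dev v (lay P s st) d (unit P s st (1 / 400 * (lay P s st).B)) := by
  obtain ⟨z, hz0, hzc, hzs, hzd⟩ := exists_bias hP hst hv hN hX hW hG c hc hc0
  have hY := lay_ok hP hst
  have hC := hP.C01
  have hW0 : 0 < W := lt_of_lt_of_le (by positivity) hW
  have hyr : (1 / 2 : ℝ) ^ len P s st ≤ r := by
    rw [one_div_pow, div_le_iff₀ (by positivity)]
    have : 0 ≤ r := by nlinarith
    calc 1 = r * W := hr.symm
      _ ≤ r * 2 ^ len P s st := mul_le_mul_of_nonneg_left hW2 this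
  obtain ⟨Q, hQ, hQd⟩ := hK X ((lay P s st).B / P.C0) (div_pos hY.B_pos (by linarith)) hτ
    (wt_sum_le hP hst hN hX) (fun i => r + z i) fun i _ => by
      have h := hzs i
      have h2 := (abs_le.1 (le_refl |z i|))
      have h3 : 0 ≤ |z i| := abs_nonneg _
      constructor <;> linarith
  refine ⟨Q, hQ, z, fun i => if i ∈ X then (if i ∈ Q then 1 else 0) - (r + z i) else 0, ?_,
    fun j hj => hzc j fun h => hj (U0_sub' hP.toOk hst h), hzd,
    hQd.mono (light_le hP hst le_rfl (Nat.cast_nonneg _) (Or.inl rfl)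
      (div_nonneg hY.B_pos.le (by linarith)) ?_)⟩
  · funext i
    simp only [chi, Pi.add_apply, Pi.smul_apply, smul_eq_mul]
    by_cases h : i ∈ X
    · simp only [if_pos h]; ring
    · simp only [if_neg h, if_neg fun h' => h (hQ h'), hz0 i h]; ring
  · rw [add_zero, mul_one, div_mul_cancel₀ _ (by linarith : P.C0 ≠ 0)]
    linarith [hY.B_pos]

/-- The middle pieces of a long step. -/
lemma good_middle (hP : P.Good) (hst : st.Ok s) (hv : ∀ i, ∑ j, v i j ^ 2 ≤ 1)
    (hK : ∀ (X : Finset ι) (τ : ℝ), 0 < τ → (∀ i ∈ X, (lay P s st).wt v i ≤ τ) →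
      ∑ i ∈ X, (lay P s st).wt v i ≤ (lay P s st).B →
      ∀ (M : ℕ) (p : ℝ), 0 ≤ p → 0 < M → Even M → (M : ℝ) ≤ Real.exp p →
        ∃ f : ι → Fin M, ∀ k ≤ M, Dev v (lay P s st)
          (fun i => if i ∈ X then (if (f i : ℕ) < k then 1 else 0) - (k : ℝ) / M else 0)
          (lightBd (lay P s st) P.K τ p))
    (hN : Node P s v st S a b) (hL2 : 2 ≤ len P s st) {Z X3 : Finset ι} (hZS : Z ⊆ S)
    (hZ : (Z.card : ℝ) ≤ nZ P) (hX : X3 ⊆ S \ Z)
    (hss : ∀ {Q : Finset ι}, Q ⊆ S \ Z → Q ⊂ S)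
    (hτX : ∀ i ∈ X3, (lay P s st).wt v i ≤ (lay P s st).B / P.C0) {w : ι → ℝ}
    (hcoef : chi X3 = (1 - 2 * (1 / 2 : ℝ) ^ len P s st) • chi (S \ Z) + w)
    (hw : Dev v (lay0 P s st) w ((unit P s st (1 / 400 * (lay P s st).B)).mul 4))
    {m2 m3 : γ → ℝ} (hm3 : ∀ j, m3 j = m2 j + ∑ i ∈ X3, v i j) (hep2 : EP P s (next P s st) m2)
    (hends : ∀ d, Dev v (lay P s st) d ((unit P s st (lay P s st).B).mul 4) →
      EP P s (next P s st) (fun j => m2 j + vs v d j) ∧
        EP P s (next P s st) (fun j => m3 j + vs v d j))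
    {R : ℝ} (hR : ∀ p, EP P s (next P s st) p → ∑ j, p j ^ 2 ≤ R)
    (IH : ∀ (Q : Finset ι) (a' b' : γ → ℝ), Q ⊂ S → Node P s v (next P s st) Q a' b' →
      Good v R a' Q) :
    Good v R m2 X3 := by
  classical
  set Y := lay P s st with hYdef
  have hY := lay_ok hP hst
  have hY0 := lay0_ok hP hst
  have hC := hP.C01
  have hB := hY.B_pos
  set y := (1 / 2 : ℝ) ^ len P s st with hy
  set T := (2 : ℝ) ^ len P s st with hT
  have hyT : y * T = 1 := by rw [hy, hT, ← mul_pow]; norm_num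
  have hT4 : 4 ≤ T := by
    rw [hT]
    calc (4 : ℝ) = 2 ^ 2 := by norm_num
      _ ≤ _ := pow_le_pow_right₀ one_le_two hL2
  set uE := unit P s st (1 / 400 * Y.B) with huE
  set uP := unit P s st Y.B with huP
  have hEn : uE.Nn := unit_nn hP hst (by positivity)
  have hPn : uP.Nn := unit_nn hP hst hB.le
  set M : ℕ := 2 ^ len P s st - 2 with hM
  have hM4 : 4 ≤ 2 ^ len P s st := (pow_le_pow_right₀ (by norm_num) hL2 : 2 ^ 2 ≤ _)
  have hMT : (M : ℝ) = T - 2 := by
    rw [hM, Nat.cast_sub (by omega)]; push_cast; rw [hT]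
  have hMpos : 0 < M := by omega
  have hMev : Even M := by
    rw [hM, Nat.even_sub (by omega)]
    simp [Nat.even_pow]; omega
  have hMexp : (M : ℝ) ≤ Real.exp (len P s st : ℝ) := by
    rw [hMT, ← Real.exp_one_pow]
    have := pow_le_pow_left₀ zero_le_two (show (2:ℝ) ≤ Real.exp 1 by
      have := Real.add_one_le_exp (1:ℝ); linarith) (len P s st)
    rw [← hT] at this
    linarith
  set H := X3.filter fun i => Y.B / (P.C0 * len P s st) < Y.wt v i with hH
  have hX3S : X3 ⊆ S := hX.trans sdiff_subset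
  have hLr : (2 : ℝ) ≤ len P s st := by exact_mod_cast hL2
  have hτ2 : 0 < Y.B / (P.C0 * len P s st) := by positivity
  have hHc : (H.card : ℝ) ≤ P.C0 * len P s st := by
    have h1 : (H.card : ℝ) * (Y.B / (P.C0 * len P s st)) ≤ Y.B := by
      rw [← nsmul_eq_mul, ← sum_const]
      exact (sum_le_sum fun i hi => (mem_filter.1 hi).2.le).trans
        (wt_sum_le hP hst hN ((filter_subset _ _).trans hX3S))
    rw [mul_div_assoc', div_le_iff₀ (by positivity), mul_comm Y.B] at h1
    exact le_of_mul_le_mul_right h1 hB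
  obtain ⟨fH, hfH⟩ := heavy_partition v hv Y hY H hHc (by nlinarith)
    (div_pos hB (by linarith : (0:ℝ) < P.C0))
    (fun i hi => hτX i (mem_filter.1 hi).1) (wt_sum_le hP hst hN ((filter_subset _ _).trans hX3S))
    hMpos
  obtain ⟨fL, hfL⟩ := (hK (X3 \ H) _ hτ2
    (fun i hi => not_lt.1 fun h => (mem_sdiff.1 hi).2 (mem_filter.2 ⟨(mem_sdiff.1 hi).1, h⟩))
    (wt_sum_le hP hst hN (sdiff_subset.trans hX3S))) M (len P s st) (Nat.cast_nonneg _) hMpos
    hMev hMexp
  set f : ι → Fin M := fun i => if i ∈ H then fH i else fL i with hf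
  set d : ℕ → ι → ℝ := fun k i =>
    if i ∈ X3 then (if (f i : ℕ) < k then 1 else 0) - (k : ℝ) / M else 0 with hd
  have hdd : ∀ k ≤ M, Dev v Y (d k) (uE.mul 2) := by
    intro k hk
    have h1 := (hfH k hk).mono (heavy_le hP hst hL2)
    have h2 := (hfL k hk).mono (light_le hP hst (Nat.cast_nonneg _) le_rfl (Or.inr hL2) hτ2.le (by
      rw [div_mul_eq_mul_div, div_mul_eq_mul_div, div_le_iff₀ (by positivity)]
      nlinarith [mul_le_mul_of_nonneg_left hLr (mul_nonneg hB.le (by linarith : (0:ℝ) ≤ P.C0))]))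
    have := (h1.to_mul hP hst (by positivity) le_rfl).pair hY (h2.to_mul hP hst (by positivity) le_rfl)
    norm_num at this
    convert this using 1
    funext i
    simp only [hd, hf, Pi.add_apply, hH, mem_sdiff, mem_filter]
    by_cases hi : i ∈ X3 <;> by_cases hw : Y.B / (P.C0 * len P s st) < Y.wt v i <;> simp [hi, hw]
  set pts : ℕ → γ → ℝ := fun k j =>
    m2 j + ∑ i ∈ X3.filter (fun i => (f i : ℕ) < k), v i j with hpts
  have hdvs : ∀ k j, ∑ i ∈ X3.filter (fun i => (f i : ℕ) < k), v i j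
      = (k : ℝ) / M * (∑ i ∈ X3, v i j) + vs v (d k) j := by
    intro k j
    simp only [vs, hd, ite_mul, zero_mul, sum_ite_mem, univ_inter, sub_mul, one_mul,
      sum_sub_distrib, ← mul_sum, sum_filter]
    ring
  have hepp : ∀ k ≤ M, EP P s (next P s st) (pts k) := by
    intro k hk
    have hdP : Dev v Y (d k) (uP.mul 4) :=
      (Dev.widen hP hst (by norm_num) (hdd k hk)).raise hPn (by norm_num) (by norm_num)
    obtain ⟨hA, hB'⟩ := hends (d k) hdP
    have hkM : (k : ℝ) / M ≤ 1 :=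
      (div_le_one (by exact_mod_cast hMpos)).2 (by exact_mod_cast hk)
    refine ep_convex (next_ok hP.toOk hst) (by positivity) hkM hA hB' fun j => ?_
    simp only [hpts, hdvs, hm3 j]
    ring
  have hblock : ∀ k < M, Good v R (pts k) (X3.filter fun i => (f i : ℕ) = k) := by
    intro k hk
    set c : ℝ := 1 / (T - 2) with hc
    have hT2 : 0 < T - 2 := by linarith
    have hc1' : c ≤ 1 := by rw [hc, div_le_one hT2]; linarith
    have hc0 : 0 ≤ c := by positivity
    have hcy : c * (1 - 2 * y) = y := by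
      rw [hc, one_div_mul_eq_div, div_eq_iff hT2.ne']
      linear_combination (-1 : ℝ) * hyT
    refine IH _ _ (pts (k + 1)) (hss ((filter_subset _ _).trans hX)) (child_node hP hst hv hN hZS hZ
      ((filter_subset _ _).trans hX) (t := c • w + (d (k + 1) + (-1 : ℝ) • d k)) ?_ ?_ (fun j => ?_)
      (hepp k hk.le) (hepp (k + 1) hk))
    · funext i
      have e1 : chi (X3.filter fun i => (f i : ℕ) = k) i
          = c * chi X3 i + (d (k + 1) i - d k i) := by
        simp only [chi, hd, mem_filter, hc, hMT]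
        by_cases hi : i ∈ X3
        · rcases lt_trichotomy (f i : ℕ) k with h | h | h
          · simp [hi, h, h.ne, Nat.lt_succ_of_lt h]; ring
          · simp [hi, h]; ring
          · simp [hi, h.ne', not_lt.2 h.le, not_lt.2 (Nat.succ_le_of_lt h)]; ring
        · simp [hi]
      rw [e1, congrFun hcoef i]
      simp only [Pi.add_apply, Pi.smul_apply, smul_eq_mul]
      linear_combination (chi (S \ Z) i) * hcy
    · have h3 := hw.smul hY0 (a := c) (by rw [abs_of_nonneg hc0]; exact hc1')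
      have h4 := ((hdd (k + 1) hk).pair hY ((hdd k hk.le).smul hY (a := -1) (by simp))).drop (by
        obtain ⟨a1, a2, a3, a4, a5, a6, a7⟩ := hEn
        constructor <;> simp only [Bd.mul] <;> positivity)
      exact ((h3.raise hEn (by norm_num) (by norm_num : (4:ℝ) ≤ 2 * 2)).pair hY0 h4).raise hEn
        (by norm_num) (by norm_num)
    · have hu : X3.filter (fun i => (f i : ℕ) < k + 1)
          = X3.filter (fun i => (f i : ℕ) < k) ∪ X3.filter (fun i => (f i : ℕ) = k) := by
        rw [← filter_or]; exact filter_congr fun i _ => Nat.lt_succ_iff_lt_or_eq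
      simp only [hpts]
      rw [hu, sum_union (disjoint_filter.2 fun i _ h1 h2 => absurd h2 (Nat.ne_of_lt h1))]
      ring
  have hchain : ∀ k ≤ M, Good v R m2 (X3.filter fun i => (f i : ℕ) < k) := by
    intro k
    induction k with
    | zero => intro _; simpa using good_empty (hR _ hep2)
    | succ k ih =>
      intro hk
      have e : X3.filter (fun i => (f i : ℕ) < k + 1)
          = X3.filter (fun i => (f i : ℕ) < k) ∪ X3.filter (fun i => (f i : ℕ) = k) := by
        rw [← filter_or]; exact filter_congr fun i _ => Nat.lt_succ_iff_lt_or_eq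
      rw [e]
      exact good_union (ih (by omega)) (hblock k (by omega))
        (disjoint_filter.2 fun i _ h1 h2 => h1.ne h2) fun j => rfl
  simpa [filter_true_of_mem fun i _ => (f i).isLt] using hchain M le_rfl

/-- One step of the recursion. -/
theorem good_step (hP : P.Good) (hst : st.Ok s) (hv : ∀ i, ∑ j, v i j ^ 2 ≤ 1)
    (hK : ∀ (X : Finset ι) (τ : ℝ), 0 < τ → (∀ i ∈ X, (lay P s st).wt v i ≤ τ) →
      ∑ i ∈ X, (lay P s st).wt v i ≤ (lay P s st).B →
      (∀ x : ι → ℝ, (∀ i ∈ X, 0 ≤ x i ∧ x i ≤ 1) → ∃ Q ⊆ X,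
        Dev v (lay P s st) (fun i => if i ∈ X then (if i ∈ Q then 1 else 0) - x i else 0)
          (lightBd (lay P s st) P.K τ 0)) ∧
      ∀ (M : ℕ) (p : ℝ), 0 ≤ p → 0 < M → Even M → (M : ℝ) ≤ Real.exp p →
        ∃ f : ι → Fin M, ∀ k ≤ M, Dev v (lay P s st)
          (fun i => if i ∈ X then (if (f i : ℕ) < k then 1 else 0) - (k : ℝ) / M else 0)
          (lightBd (lay P s st) P.K τ p))
    (hN : Node P s v st S a b) (hS : S.Nonempty) {R : ℝ}
    (hR : ∀ p, EP P s (next P s st) p → ∑ j, p j ^ 2 ≤ R)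
    (IH : ∀ (Q : Finset ι) (a' b' : γ → ℝ), Q ⊂ S → Node P s v (next P s st) Q a' b' →
      Good v R a' Q) :
    Good v R a S := by
  classical
  set Y := lay P s st with hYdef
  have hY := lay_ok hP hst
  have hY0 := lay0_ok hP hst
  have hC := hP.C01
  have hB := hY.B_pos
  set y := (1 / 2 : ℝ) ^ len P s st with hy
  set T := (2 : ℝ) ^ len P s st with hT
  have hyT : y * T = 1 := by rw [hy, hT, ← mul_pow]; norm_num
  have hy0 : 0 < y := by positivity
  have hy1 : y ≤ 1 / 2 := pow_le_of_le_one (by norm_num) (by norm_num)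
    (by have := len_pos (P := P) (s := s) (st := st); omega)
  have hT0 : 0 < T := by positivity
  set uE := unit P s st (1 / 400 * Y.B) with huE
  set uP := unit P s st Y.B with huP
  have hEn : uE.Nn := unit_nn hP hst (by positivity)
  have hPn : uP.Nn := unit_nn hP hst hB.le
  have hab : ∀ j, b j - a j = ∑ i ∈ S, v i j := fun j => by rw [hN.eq j]; ring
  -- the items set aside
  obtain ⟨i0, hi0⟩ := hS
  set Z := insert i0 (S.filter fun i => Y.B / P.C0 < Y.wt v i) with hZdef
  have hZS : Z ⊆ S := insert_subset hi0 (filter_subset _ _)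
  have hZ : (Z.card : ℝ) ≤ nZ P := by
    set F := S.filter fun i => Y.B / P.C0 < Y.wt v i
    have h1 : (F.card : ℝ) * (Y.B / P.C0) ≤ Y.B := by
      rw [← nsmul_eq_mul, ← sum_const]
      exact (sum_le_sum fun i hi => (mem_filter.1 hi).2.le).trans
        (wt_sum_le hP hst hN (filter_subset _ _))
    rw [mul_div_assoc', div_le_iff₀ (by linarith), mul_comm Y.B] at h1
    have h2 := le_of_mul_le_mul_right h1 hB
    have h3 : (Z.card : ℝ) ≤ F.card + 1 := by exact_mod_cast card_insert_le _ _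
    rw [nZ]; linarith
  set X := S \ Z with hXdef
  have hXS : X ⊆ S := sdiff_subset
  have hXτ : ∀ i ∈ X, Y.wt v i ≤ Y.B / P.C0 := fun i hi => by
    obtain ⟨h1, h2⟩ := mem_sdiff.1 hi
    exact not_lt.1 fun h => h2 (mem_insert_of_mem (mem_filter.2 ⟨h1, h⟩))
  have hss : ∀ {Q : Finset ι}, Q ⊆ X → Q ⊂ S := fun {Q} hQ =>
    ssubset_of_subset_of_ne (hQ.trans hXS) fun h =>
      (mem_sdiff.1 (hQ (h ▸ hi0))).2 (mem_insert_self _ _)
  have hm := gerr_main hP hst hv hN hZS hZ
  rw [← hy, ← hT] at hm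
  have hsumS : ∀ j, ∑ i ∈ S, v i j = ∑ i ∈ X, v i j + ∑ i ∈ Z, v i j := fun j =>
    (sum_sdiff hZS).symm
  -- the two interpolated endpoints
  set qA : γ → ℝ := fun j => (1 - y) * a j + y * b j with hqA
  set qB : γ → ℝ := fun j => y * a j + (1 - y) * b j with hqB
  have hepA : EP P s st qA := ep_convex hst hy0.le (by linarith) hN.epa hN.epb fun j => rfl
  have hepB : EP P s st qB :=
    ep_convex hst (t := 1 - y) (by linarith) (by linarith) hN.epa hN.epb fun j => by
      simp only [hqB]; ring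
  -- first piece
  set c1 : γ → ℝ := fun j => if j ∈ U1' P s st then 0 else -clip (cap P s st j) (qA j) with hc1
  have hG1 : gerr P s v st X T ≤ 4 * T ^ 2 := by
    have h := mul_le_mul_of_nonneg_left hm (sq_nonneg T)
    rw [← mul_assoc, ← mul_pow, mul_comm T y, hyT, one_pow, one_mul] at h
    nlinarith [sq_nonneg T]
  obtain ⟨P1, hP1, z1, d1, hco1, hz1, hz1d, hd1⟩ := exists_carve hP hst hv
    (fun X τ h1 h2 h3 => (hK X τ h1 h2 h3).1) hN hXS hXτ (W := T) (r := y)
    (by rw [← hT]; linarith) hyT le_rfl hy1 hG1 c1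
    (fun j hj => by
      simp only [hc1, if_neg hj, abs_neg]
      linarith [abs_clip (cap_nonneg (P := P) (s := s) (st := st) j) (qA j),
        cap_nonneg (P := P) (s := s) (st := st) j])
    (fun j hj => if_pos hj)
  rw [← huE] at hz1d hd1
  set m1 : γ → ℝ := fun j => a j + ∑ i ∈ P1, v i j with hm1
  -- deviations shared by several points
  have hz1P : Dev v (lay0 P s st) z1 (uP.mul 16) :=
    Dev.widen hP hst (by norm_num) (hz1d.to_mul hP hst (by positivity) (by norm_num))
  have hd1P : Dev v Y d1 (uP.mul 1) := by rw [Bd.mul_one]; exact hd1.mono (unit_le hP hst)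
  have hfew : ∀ Z' ⊆ Z, Dev v Y (chi Z') (uP.mul 1) := fun Z' hZ' => by
    rw [Bd.mul_one]
    exact few_dev hP hst hv ((Nat.cast_le.2 (card_le_card hZ')).trans hZ)
      (wt_sum_le hP hst hN (hZ'.trans hZS))
  have hyZ : Dev v Y ((-y) • chi Z) (uP.mul 1) :=
    (hfew Z (subset_refl Z)).smul hY (by rw [abs_neg, abs_of_pos hy0]; linarith)
  have hfew0 : ∀ Z' ⊆ Z, Dev v Y (d1 + (-y) • chi Z + chi Z') (uP.mul 4) := fun Z' hZ' => by
    have h := (hd1P.pair hY hyZ).pair hY ((hfew Z' hZ').raise hPn zero_le_one (by norm_num))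
    simpa only [mul_one, show (2 : ℝ) * 2 = 4 by norm_num] using h
  have hm1' : ∀ Z' : Finset ι, ∀ j, m1 j + ∑ i ∈ Z', v i j
      = qA j + vs v z1 j + vs v (d1 + (-y) • chi Z + chi Z') j := by
    intro Z' j
    simp only [hm1, hqA]
    rw [← vs_chi P1, hco1]
    simp only [vs_add, vs_smul, vs_chi]
    linear_combination (-y) * (hsumS j) + (-y) * (hab j)
  have hC1 : ∀ j, j ∉ U1' P s st → |qA j + vs v z1 j| ≤ max (|qA j| - cap P s st j) 0 := by
    intro j hj
    rw [hz1 j hj]
    simp only [hc1, if_neg hj, ← sub_eq_add_neg]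
    exact abs_sub_clip (cap_nonneg j) _
  have hepZ : ∀ Z' ⊆ Z, EP P s (next P s st) fun j => m1 j + ∑ i ∈ Z', v i j := fun Z' hZ' =>
    point_ep hP hst hepA (hm1' Z') hC1 ((hfew0 Z' hZ').raise hPn (by norm_num) (by norm_num)) hz1P
  have hep1 : EP P s (next P s st) m1 := by simpa using hepZ ∅ (empty_subset _)
  have hepa := lift_ep hP hst hN.epa
  have hepb := lift_ep hP hst hN.epb
  have g1 : Good v R a P1 := IH P1 a m1 (hss hP1) (child_node hP hst hv hN hZS hZ hP1 hco1
    (((hz1d.to_mul hP hst (by positivity) le_rfl).pair hY0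
      ((hd1.to_mul hP hst (by positivity) le_rfl).drop (by rwa [Bd.mul_one]))).raise hEn
        (by norm_num) (by norm_num)) (fun j => rfl) hepa hep1)
  have g2 : Good v R m1 Z := good_few fun Z' hZ' => hR _ (hepZ Z' hZ')
  set m2 : γ → ℝ := fun j => m1 j + ∑ i ∈ Z, v i j with hm2
  have hep2 : EP P s (next P s st) m2 := hepZ Z (subset_refl Z)
  -- it remains to traverse the rest
  have hdis : Disjoint P1 Z := disjoint_sdiff_self_left.mono_left hP1
  suffices g3 : Good v R m2 (X \ P1) by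
    have e : S = P1 ∪ (Z ∪ X \ P1) := by
      ext i
      constructor
      · intro h
        by_cases h1 : i ∈ P1
        · exact mem_union_left _ h1
        · by_cases h2 : i ∈ Z
          · exact mem_union_right _ (mem_union_left _ h2)
          · exact mem_union_right _ (mem_union_right _ (mem_sdiff.2 ⟨mem_sdiff.2 ⟨h, h2⟩, h1⟩))
      · simp only [mem_union, mem_sdiff]
        rintro (h | h | h)
        · exact hXS (hP1 h)
        · exact hZS h
        · exact hXS h.1
    rw [e]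
    refine good_union g1 (good_union g2 g3 ?_ fun j => rfl) ?_ fun j => rfl
    · exact disjoint_sdiff.mono_right sdiff_subset
    · exact disjoint_union_right.2 ⟨hdis, disjoint_sdiff⟩
  have hbeq : ∀ j, b j = m2 j + ∑ i ∈ X \ P1, v i j := fun j => by
    simp only [hm2, hm1]
    rw [sum_sdiff_eq_sub hP1, hN.eq j, hsumS j]; ring
  set u1 := z1 + d1 with hu1
  have hu1d : Dev v (lay0 P s st) u1 (uE.mul 2) := by
    have := (hz1d.to_mul hP hst (by positivity) le_rfl).pair hY0
      ((hd1.to_mul hP hst (by positivity) le_rfl).drop (by rwa [Bd.mul_one]))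
    rwa [mul_one] at this
  have hchiX2 : chi (X \ P1) = chi X - chi P1 := by
    funext i
    simp only [chi, Pi.sub_apply, mem_sdiff]
    by_cases h : i ∈ P1
    · simp [h, hP1 h]
    · simp [h]
  rcases (len_pos (P := P) (s := s) (st := st)).eq_or_lt with hL | hL
  · -- two pieces only
    refine IH _ _ b (hss sdiff_subset) (child_node hP hst hv hN hZS hZ sdiff_subset
      (t := (-1 : ℝ) • u1) ?_ ((hu1d.smul hY0 (by simp)).raise hEn (by norm_num) (by norm_num))
      hbeq hep2 hepb)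
    rw [hchiX2, hco1, ← hy, ← hXdef]
    have hyhalf : y = 1 / 2 := by rw [hy, ← hL, pow_one]
    rw [hyhalf]
    funext i
    simp only [hu1, Pi.sub_apply, Pi.add_apply, Pi.smul_apply, smul_eq_mul]
    ring
  -- at least four pieces
  have hL2 : 2 ≤ len P s st := hL
  have hT4 : 4 ≤ T := by
    rw [hT]
    calc (4 : ℝ) = 2 ^ 2 := by norm_num
      _ ≤ _ := pow_le_pow_right₀ one_le_two hL2
  set r := 1 / (T - 1) with hrdef
  have hT1 : (0 : ℝ) < T - 1 := by linarith
  have hr0 : 0 < r := by positivity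
  have hr1 : r ≤ 1 / 2 := by
    rw [hrdef, div_le_div_iff₀ hT1 two_pos]; linarith
  have hry : r * (1 - y) = y := by
    rw [hrdef, one_div_mul_eq_div, div_eq_iff hT1.ne']
    linear_combination (-1 : ℝ) * hyT
  set X2 := X \ P1 with hX2
  have hX2S : X2 ⊆ S := sdiff_subset.trans hXS
  set c2 : γ → ℝ := fun j => if j ∈ U1' P s st then 0
    else clip (cap P s st j) (qB j) + r * c1 j with hc2
  have hG2 : gerr P s v st X2 (T - 1) ≤ 4 * (T - 1) ^ 2 := by
    have hg := hu1d.g
    simp only [Bd.mul, huE, unit, lay0] at hg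
    norm_num at hg
    have h := mul_le_mul_of_nonneg_left hm (sq_nonneg T)
    rw [← mul_assoc, ← mul_pow, mul_comm T y, hyT, one_pow, one_mul] at h
    have hstep : gerr P s v st X2 (T - 1) ≤ 2 * gerr P s v st X T
        + 2 * ∑ j ∈ Y.A, ∑ k ∈ Y.A, Y.wA j * Y.wA k * (∑ i, u1 i * (v i j * v i k)) ^ 2 := by
      simp only [gerr, ← hYdef, mul_sum, ← sum_add_distrib]
      refine sum_le_sum fun j hj => sum_le_sum fun k hk => ?_
      have hw := mul_nonneg (hY.wA_mem j hj).1 (hY.wA_mem k hk).1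
      have e : ∑ i ∈ X2, v i j * v i k = (1 - y) * (∑ i ∈ X, v i j * v i k)
          - ∑ i, u1 i * (v i j * v i k) := by
        rw [← sum_chi X2, hX2, hchiX2, hco1]
        simp only [Pi.sub_apply, Pi.add_apply, Pi.smul_apply, smul_eq_mul, sub_mul, add_mul,
          sum_sub_distrib, sum_add_distrib, mul_assoc, ← mul_sum, sum_chi, hu1]
        ring
      set A := ∑ i ∈ X, v i j * v i k - if j = k then T * Dg s (lev P s st) j else 0
      set B := ∑ i, u1 i * (v i j * v i k)
      have e2 : ∑ i ∈ X2, v i j * v i k - (if j = k then (T - 1) * Dg s (lev P s st) j else 0)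
          = (1 - y) * A - B := by
        rw [e]; simp only [A]
        split_ifs
        · linear_combination (-Dg s (lev P s st) j) * hyT
        · ring
      rw [e2]
      nlinarith [mul_nonneg hw (sq_nonneg ((1 - y) * A + B)),
        mul_nonneg (mul_nonneg hw (sq_nonneg A)) (mul_nonneg hy0.le (by linarith : (0:ℝ) ≤ 2 - y))]
    have hε := hP.hε
    simp only [hYdef] at hstep
    nlinarith [mul_le_mul hT4 hT4 (by norm_num) hT0.le]
  obtain ⟨P2, hP2, z2, d2, hco2, hz2, hz2d, hd2⟩ := exists_carve hP hst hv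
    (fun X τ h1 h2 h3 => (hK X τ h1 h2 h3).1) hN hX2S (fun i hi => hXτ i (sdiff_subset hi))
    (W := T - 1) (r := r) (by rw [← hT]; linarith)
    (by rw [hrdef, one_div_mul_cancel hT1.ne']) (by rw [← hT]; linarith) hr1 hG2 c2
    (fun j hj => by
      simp only [hc2, hc1, if_neg hj]
      have hc := cap_nonneg (P := P) (s := s) (st := st) j
      refine (abs_add_le _ _).trans ?_
      rw [abs_mul, abs_neg, abs_of_pos hr0]
      have h1 := abs_clip hc (qB j)
      have h2 := mul_le_mul (by linarith : r ≤ 1) (abs_clip hc (qA j)) (abs_nonneg _) zero_le_one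
      linarith)
    (fun j hj => if_pos hj)
  rw [← huE] at hz2d hd2
  set u2 := z2 + d2 with hu2
  have hu2d : Dev v (lay0 P s st) u2 (uE.mul 2) := by
    have := (hz2d.to_mul hP hst (by positivity) le_rfl).pair hY0
      ((hd2.to_mul hP hst (by positivity) le_rfl).drop (by rwa [Bd.mul_one]))
    rwa [mul_one] at this
  have hco2' : chi P2 = y • chi X + ((-r) • u1 + u2) := by
    rw [hco2, hX2, hchiX2, hco1, ← hry]
    funext i
    simp only [hu1, hu2, Pi.sub_apply, Pi.add_apply, Pi.smul_apply, smul_eq_mul]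
    linear_combination (-r * chi X i) * hry
  set m3 : γ → ℝ := fun j => b j - ∑ i ∈ P2, v i j with hm3
  have hz3 : Dev v (lay0 P s st) (r • z1 + (-1 : ℝ) • z2) (uP.mul 2) := by
    have h1 : Dev v (lay0 P s st) z1 (uP.mul 1) := by
      rw [Bd.mul_one]; exact hz1d.mono (unit_le hP hst)
    have h2 : Dev v (lay0 P s st) z2 (uP.mul 1) := by
      rw [Bd.mul_one]; exact hz2d.mono (unit_le hP hst)
    have := (h1.smul hY0 (a := r) (by rw [abs_of_pos hr0]; linarith)).pair hY0
      (h2.smul hY0 (a := -1) (by simp))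
    simpa using this
  have ht3 : Dev v Y (y • chi Z + (r • d1 + (-1 : ℝ) • d2)) (uP.mul 4) := by
    have h1 := (hd1P.smul hY (a := r) (by rw [abs_of_pos hr0]; linarith)).pair hY
      ((show Dev v Y d2 (uP.mul 1) by rw [Bd.mul_one]; exact hd2.mono (unit_le hP hst)).smul hY
        (a := -1) (by simp))
    rw [mul_one] at h1
    have h2 := (((hfew Z (subset_refl Z)).smul hY (a := y)
      (by rw [abs_of_pos hy0]; linarith)).raise hPn zero_le_one (by norm_num : (1:ℝ) ≤ 2)).pair hY
        h1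
    simpa only [show (2 : ℝ) * 2 = 4 by norm_num] using h2
  have hm3' : ∀ j, m3 j = qB j + vs v (r • z1 + (-1 : ℝ) • z2) j
      + vs v (y • chi Z + (r • d1 + (-1 : ℝ) • d2)) j := by
    intro j
    simp only [hm3, hqB]
    rw [← vs_chi P2, hco2', hu1, hu2]
    simp only [vs_add, vs_smul, vs_chi]
    linear_combination y * (hsumS j) + y * (hab j)
  have hC3 : ∀ j, j ∉ U1' P s st →
      |qB j + vs v (r • z1 + (-1 : ℝ) • z2) j| ≤ max (|qB j| - cap P s st j) 0 := by
    intro j hj
    rw [vs_add, vs_smul, vs_smul, hz1 j hj, hz2 j hj]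
    simp only [hc2, hc1, if_neg hj]
    refine le_of_eq_of_le (congrArg _ ?_) (abs_sub_clip (cap_nonneg j) (qB j))
    ring
  have hep3 : EP P s (next P s st) m3 :=
    point_ep hP hst hepB hm3' hC3 (ht3.raise hPn (by norm_num) (by norm_num))
      (hz3.raise hPn (by norm_num) (by norm_num))
  have g5 : Good v R m3 P2 := IH P2 m3 b (hss (hP2.trans sdiff_subset))
    (child_node hP hst hv hN hZS hZ (hP2.trans sdiff_subset) hco2'
      (((hu1d.smul hY0 (a := -r) (by rw [abs_neg, abs_of_pos hr0]; linarith)).pair hY0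
        hu2d).raise hEn (by norm_num) (by norm_num))
      (fun j => by simp [hm3]) hep3 hepb)
  -- the middle
  set X3 := X2 \ P2 with hX3
  suffices g4 : Good v R m2 X3 by
    rw [show X2 = X3 ∪ P2 from (sdiff_union_of_subset hP2).symm]
    refine good_union g4 g5 disjoint_sdiff_self_left fun j => ?_
    simp only [hm3]
    rw [hX3, sum_sdiff_eq_sub hP2, hbeq j]; ring
  have hw3 : Dev v (lay0 P s st) ((-(1 - r)) • u1 + (-1 : ℝ) • u2) (uE.mul 4) := by
    have := (hu1d.smul hY0 (a := -(1 - r)) (by rw [abs_neg, abs_of_nonneg] <;> linarith)).pair hY0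
      (hu2d.smul hY0 (a := -1) (by simp))
    simpa only [show (2 : ℝ) * 2 = 4 by norm_num] using this
  refine good_middle hP hst hv (fun X τ h1 h2 h3 => (hK X τ h1 h2 h3).2) hN hL2 hZS hZ
    (sdiff_subset.trans sdiff_subset) hss (fun i hi => hXτ i (sdiff_subset (sdiff_subset hi))) ?_
    hw3 (m3 := m3) (fun j => ?_) hep2 (fun d hd => ⟨?_, ?_⟩) hR IH
  · have e : chi X3 = chi X2 - chi P2 := by
      funext i
      simp only [chi, hX3, Pi.sub_apply, mem_sdiff]
      by_cases h : i ∈ P2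
      · simp [h, hP2 h]
      · simp [h]
    rw [e, hco2', hX2, hchiX2, hco1]
    funext i
    simp only [hu1, hu2, Pi.sub_apply, Pi.add_apply, Pi.smul_apply, smul_eq_mul, ← hy, ← hXdef]
    ring
  · simp only [hm3]
    rw [sum_sdiff_eq_sub hP2, hbeq j]; ring
  · refine point_ep hP hst hepA (t := d1 + (-y) • chi Z + chi Z + d) (fun j => ?_) hC1 ?_ hz1P
    · rw [vs_add (v := v) _ d j, ← add_assoc, ← hm1' Z j]
    · exact ((hfew0 Z (subset_refl Z)).pair hY hd).raise hPn (by norm_num) (by norm_num)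
  · refine point_ep hP hst hepB (t := y • chi Z + (r • d1 + (-1 : ℝ) • d2) + d) (fun j => ?_)
      hC3 ?_ (hz3.raise hPn (by norm_num) (by norm_num))
    · rw [vs_add (v := v) _ d j, ← add_assoc, ← hm3' j]
    · exact (ht3.pair hY hd).raise hPn (by norm_num) (by norm_num)

end Vale.Agent.P262.Exact
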